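import Vale.Agent.P253W.Y.Defs
import Vale.Agent.P253W.X.Mat
import Vale.Agent.P253W.V.Lfp
import Vale.Agent.P253W.V.Arf
import Vale.Agent.P253W.V.Alg

/-!
# P253W, row Y.TR: properties of holomorphic immersions of the unit ball (helper1)
-/

open scoped Manifold ContDiff Bundle ENNReal Topology ComplexConjugate ComplexOrder Matrix
open Bundle IsManifold MeasureTheory Set Metric Filter Vale.Agent.P253.Mfd Vale.Agent.P253Z
open Vale.Agent.P272.K (Cm dz jacM Chart)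
open Vale.Agent.P272.K.C2 (dz_congr)
open Vale.Agent.P253.R2.H451 (levi2)

set_option linter.unusedSectionVars false

noncomputable section

namespace Vale.Agent.P253W.Y

namespace Tr

variable {n : ℕ}

theorem jc_eq {φ : Cm n → Cm n} {z : Cm n} (h : DifferentiableAt ℂ φ z) :
    jc φ z = LinearMap.toMatrix' (fderiv ℂ φ z : Cm n →ₗ[ℂ] Cm n) := by
  ext p i
  exact B1aP.dz_comp h p i

theorem jc_mulVec {φ : Cm n → Cm n} {z : Cm n} (h : DifferentiableAt ℂ φ z) (v : Cm n) :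
    jc φ z *ᵥ v = fderiv ℂ φ z v := by
  rw [jc_eq h, LinearMap.toMatrix'_mulVec]
  rfl

theorem jc_congr {φ ψ : Cm n → Cm n} {z : Cm n} (h : φ =ᶠ[𝓝 z] ψ) : jc φ z = jc ψ z := by
  ext p i
  exact dz_congr i (h.mono fun y hy => congrFun hy p)

theorem jc_comp {φ ψ : Cm n → Cm n} {z : Cm n} (hφ : DifferentiableAt ℂ φ (ψ z))
    (hψ : DifferentiableAt ℂ ψ z) : jc (φ ∘ ψ) z = jc φ (ψ z) * jc ψ z := by
  rw [jc_eq (hφ.comp z hψ), jc_eq hφ, jc_eq hψ, fderiv_comp z hφ hψ, ← LinearMap.toMatrix'_comp]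
  rfl

theorem hf_pb (J A : Mx n) (a b : Cm n) : hf (pb J A) a b = hf A (J *ᵥ a) (J *ᵥ b) := by
  have h := X.hf_pull A Jᵀ a b
  rw [← X.pb_eq, Matrix.vecMul_transpose, Matrix.vecMul_transpose] at h
  exact h

variable {M : Type} [MetricSpace M] [ChartedSpace (Cm n) M] [IsManifold 𝓘(ℂ, Cm n) 1 M]

/-- the local inverse of an immersion is a chart -/
theorem key {Ψ : Cm n → M} (h : Imm Ψ) {z : Cm n} (hz : z ∈ ball (0 : Cm n) 1) :
    ∃ e : Chart n M, Hc e ∧ z ∈ e.target ∧ ∀ y ∈ e.target, e.symm y = Ψ y ∧ Ψ y ∈ e.source ∧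
      e (Ψ y) = y ∧ jm Ψ y = jacM e (pc n (Ψ y)) (Ψ y) := by
  obtain ⟨e, he, hze, k⟩ := V.LfpA.chart_of isOpen_ball h.1 hz (h.2 z hz)
  refine ⟨e, he, hze, fun y hy => ?_⟩
  have e1 : e (Ψ y) = y := by rw [← k y hy, e.right_inv hy]
  refine ⟨k y hy, k y hy ▸ e.map_target hy, e1, ?_⟩
  ext p i
  rw [jacM, e1]
  exact dz_congr i (mem_of_superset (e.open_target.mem_nhds hy) fun w hw =>
    congrArg (fun x => pc n (Ψ y) x p) (k w hw).symm)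

theorem pc_diff {Ψ : Cm n → M} (h : Imm Ψ) {z : Cm n} (hz : z ∈ ball (0 : Cm n) 1) :
    DifferentiableAt ℂ (fun y => pc n (Ψ z) (Ψ y)) z := by
  obtain ⟨h1, h2⟩ := V.Arf.chart_sm isOpen_ball h.1 (B1aP.chart (n := n) (Ψ z))
  exact (h2.contDiffAt (h1.mem_nhds ⟨hz, mem_chart_source _ _⟩)).differentiableAt (by simp)

theorem dn_eq {Ψ : Cm n → M} {z : Cm n} (h : DifferentiableAt ℂ (fun y => pc n (Ψ z) (Ψ y)) z)
    (v : Cm n) : dn Ψ z v = fderiv ℂ (fun y => pc n (Ψ z) (Ψ y)) z v := jc_mulVec h v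

theorem chain (Ψ : Cm n → M) (φ : Cm n → Cm n) (y v : Cm n) (h : Imm Ψ)
    (hφ : DifferentiableAt ℂ φ y) (hy : φ y ∈ ball (0 : Cm n) 1) :
    dn (fun x => Ψ (φ x)) y v = dn Ψ (φ y) (fderiv ℂ φ y v) := by
  have h1 := pc_diff h hy
  rw [dn_eq (Ψ := fun x => Ψ (φ x)) (h1.comp y hφ), dn_eq h1]
  exact congrFun (congrArg _ (fderiv_comp y h1 hφ)) v

theorem inj (Ψ : Cm n → M) (h : Imm Ψ) (y : Cm n) (hy : y ∈ ball (0 : Cm n) 1) :
    ∃ U ∈ 𝓝 y, InjOn Ψ U := by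
  obtain ⟨e, -, hye, k⟩ := key h hy
  exact ⟨_, e.open_target.mem_nhds hye, fun a ha b hb hab => by
    rw [← (k a ha).2.2.1, hab, (k b hb).2.2.1]⟩

theorem om_co (F : Flow n M) {Ψ : Cm n → M} {e : Chart n M} {y : Cm n} (h1 : e.symm y = Ψ y)
    (h2 : jm Ψ y = jacM e (pc n (Ψ y)) (Ψ y)) : om F Ψ y = co 1 F.Ω e y := by
  rw [om, co, h1, h2, zpow_one]

theorem lift (Ψ : Cm n → M) (f : ℂ → M) (θ : Fin n → ℂ → Cm n) (τ₀ : ℂ) (S : Set ℂ) (r : ℝ)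
    (h : Imm Ψ) (hS : IsOpen S) (h0 : τ₀ ∈ S) (hr : 0 < r) (hr1 : r ≤ 1) (hf : H1 n f S)
    (hθ : ∀ i, Al f (θ i) S) (hΨ : Ψ 0 = f τ₀) :
    ∃ (δ : ℝ) (p : ℂ → Cm n) (Θ : ℂ → Mx n), 0 < δ ∧ δ ≤ 1 ∧ ball τ₀ δ ⊆ S ∧ p τ₀ = 0 ∧
      ∀ τ ∈ ball τ₀ δ, AnalyticAt ℂ p τ ∧ ‖p τ‖ < r ∧ Ψ (p τ) = f τ ∧
        dn Ψ (p τ) (deriv p τ) = d1 n f τ ∧ (∀ i j, AnalyticAt ℂ (fun s => Θ s i j) τ) ∧
        ∀ y, dn Ψ (p τ) (y ᵥ* Θ τ) = ∑ i, y i • θ i τ := by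
  obtain ⟨e, he, h0e, k⟩ := key h (mem_ball_self one_pos)
  obtain ⟨h1, h2⟩ := V.Arf.chart_sm hS hf he
  have hm : τ₀ ∈ S ∩ f ⁻¹' e.source := ⟨h0, by rw [mem_preimage, ← hΨ]; exact (k 0 h0e).2.1⟩
  have p0 : e (f τ₀) = 0 := by rw [← hΨ, (k 0 h0e).2.2.1]
  have h3 : ∀ᶠ τ in 𝓝 τ₀, ‖e (f τ)‖ < r :=
    (h2.continuousOn.continuousAt (h1.mem_nhds hm)).norm.eventually_lt continuousAt_const
      (by rw [p0, norm_zero]; exact hr)
  obtain ⟨δ, hδ, hb⟩ := Metric.mem_nhds_iff.1 (inter_mem (h1.mem_nhds hm) h3)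
  have hb' := (ball_subset_ball (min_le_left δ 1)).trans hb
  refine ⟨min δ 1, fun τ => e (f τ), fun τ => Matrix.of fun i => tv e (f τ) (θ i τ),
    lt_min hδ one_pos, min_le_right _ _, fun τ hτ => (hb' hτ).1.1, p0, fun τ hτ => ?_⟩
  obtain ⟨hO, hn⟩ := hb' hτ
  have nb := h1.mem_nhds hO
  have an : AnalyticAt ℂ (fun τ => e (f τ)) τ :=
    (h2.differentiableOn (by simp)).analyticAt nb
  have ps : ∀ s ∈ S ∩ f ⁻¹' e.source, Ψ (e (f s)) = f s := fun s hs => by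
    rw [← (k _ (e.map_source hs.2)).1, e.left_inv hs.2]
  have hb1 : e (f τ) ∈ ball (0 : Cm n) 1 := mem_ball_zero_iff.2 (lt_of_lt_of_le hn hr1)
  refine ⟨an, hn, ps τ hO, ?_, fun i j => ?_, fun y => ?_⟩
  · have h4 := pc_diff h hb1
    have h5 : (fun s => pc n (f τ) (f s)) =ᶠ[𝓝 τ]
        (fun y => pc n (Ψ (e (f τ))) (Ψ y)) ∘ fun s => e (f s) := by
      filter_upwards [nb] with s hs
      rw [Function.comp, ps s hs, ps τ hO]
    rw [dn_eq h4, d1, h5.deriv_eq,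
      (h4.hasFDerivAt.comp_hasDerivAt τ an.differentiableAt.hasDerivAt).deriv]
  · exact (analyticAt_pi_iff.1 ((hθ i e he).analyticAt nb)) j
  · have hp := mem_chart_source (Cm n) (f τ)
    have h4 : y ᵥ* (Matrix.of fun i => tv e (f τ) (θ i τ)) =
        jacM (pc n (f τ)) e (f τ) *ᵥ ∑ i, y i • θ i τ := by
      rw [Matrix.vecMul_eq_sum, Matrix.mulVec_sum]
      exact Finset.sum_congr rfl fun i _ =>
        (Matrix.mulVec_smul (jacM (pc n (f τ)) e (f τ)) (y i) (θ i τ)).symm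
    rw [dn, (k _ (e.map_source hO.2)).2.2.2, ps τ hO, h4, Matrix.mulVec_mulVec,
      ← B1aP.jac_mul (B1aP.chart _) he (B1aP.chart _) hp hO.2 hp, B1aP.jac_self _ hp,
      Matrix.one_mulVec]

theorem trans (F : Flow n M) (Ψ₁ Ψ₂ : Cm n → M) (φ : P n → P n) (z : P n) (h₁ : Imm Ψ₁)
    (h₂ : Imm Ψ₂) (hz : z.2 ∈ ball (0 : Cm n) 1) (hw : (φ z).2 ∈ ball (0 : Cm n) 1)
    (hc : ContinuousAt φ z) (hq : ∀ᶠ q in 𝓝 z, (φ q).1 = q.1 ∧ Ψ₂ (φ q).2 = Ψ₁ q.2) :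
    AnalyticAt ℂ φ z ∧ om F Ψ₁ z.2 = (fderiv ℂ φ z).det * om F Ψ₂ (φ z).2 := by
  obtain ⟨e₁, he₁, t₁, k₁⟩ := key h₁ hz
  obtain ⟨e₂, he₂, t₂, k₂⟩ := key h₂ hw
  have h0 := hq.self_of_nhds.2
  have s₁ := (k₁ _ t₁).2.1
  have s₂ : Ψ₁ z.2 ∈ e₂.source := h0 ▸ (k₂ _ t₂).2.1
  have an := B1aP.hol he₁ he₂ t₁ ((k₁ _ t₁).1 ▸ s₂)
  have ev : φ =ᶠ[𝓝 z] Prod.map id fun y => e₂ (e₁.symm y) := by
    filter_upwards [hq, hc.snd.eventually (e₂.open_target.mem_nhds t₂),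
      continuousAt_snd.eventually (e₁.open_target.mem_nhds t₁)] with q a b c
    refine Prod.ext a.1 ?_
    show (φ q).2 = e₂ (e₁.symm q.2)
    rw [(k₁ _ c).1, ← a.2, (k₂ _ b).2.2.1]
  refine ⟨(analyticAt_fst.prod (an.comp analyticAt_snd)).congr ev.symm, ?_⟩
  have h1 := B1aP.co_ch 1 F.Ω he₁ he₂ s₁ s₂
  rw [(k₁ _ t₁).2.2.1, B1aP.jac_eq he₁ he₂ s₁ s₂, (k₁ _ t₁).2.2.1, ← h0, (k₂ _ t₂).2.2.1,
    zpow_one, LinearMap.det_toMatrix'] at h1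
  rw [om_co F (k₁ _ t₁).1 (k₁ _ t₁).2.2.2, om_co F (k₂ _ t₂).1 (k₂ _ t₂).2.2.2, h1, ev.fderiv_eq,
    ((hasFDerivAt_id z.1).prodMap z an.differentiableAt.hasFDerivAt).fderiv]
  congr 1
  exact ((LinearMap.det_prodMap (LinearMap.id : ℂ →ₗ[ℂ] ℂ) _).trans
    (by rw [LinearMap.det_id, one_mul])).symm

variable [IsManifold 𝓘(ℝ, Cm n) ∞ M] [RiemannianBundle fun x : M => TangentSpace 𝓘(ℝ, Cm n) x]
  {F : Flow n M}

theorem om_an (hF : F.Is) (Ψ : Cm n → M) (h : Imm Ψ) (x : Cm n) (hx : x ∈ ball (0 : Cm n) 1) :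
    AnalyticAt ℂ (om F Ψ) x ∧ om F Ψ x ≠ 0 := by
  obtain ⟨e, he, hxe, k⟩ := key h hx
  exact ⟨(hF.sec e he x hxe).congr (mem_of_superset (e.open_target.mem_nhds hxe) fun y hy =>
    (om_co F (k y hy).1 (k y hy).2.2.2).symm), mul_ne_zero (h.2 x hx) (hF.ne _)⟩

theorem u_eq (hF : F.Is) (Ψ : Cm n → M) (t : ℝ) (ht : 0 ≤ t) (x : Cm n) :
    Real.exp (-F.u t (Ψ x)) * ‖om F Ψ x‖ ^ 2 = (F.pull Ψ t x).det.re := by
  have h1 : 0 < (F.gx t (Ψ x)).det.re :=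
    V.Alg.det_pos (hF.pos t ht _ (B1aP.chart _) _ (mem_chart_target _ _))
  have h2 : 0 < ‖F.Ω (Ψ x)‖ := norm_pos_iff.2 (hF.ne _)
  rw [Flow.pull, V.Alg.det_pb_re, Flow.u, Real.exp_neg, Real.exp_log (by positivity), om, norm_mul]
  field_simp

theorem u_psh (b : F.Bas1) (s : F.S3a) (Ψ : Cm n → M) (h : Imm Ψ) (t : ℝ) (ht : 0 ≤ t) (z : P n)
    (hz : z.2 ∈ ball (0 : Cm n) 1) : ContDiffAt ℝ ∞ (fun q : P n => F.u t (Ψ q.2)) z ∧
      ∀ ξ, 0 ≤ levi2 (fun q : P n => F.u t (Ψ q.2)) z ξ := by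
  obtain ⟨e, he, hze, k⟩ := key h hz
  have su := b.sm_at _ b.u_sm t ht e he
  refine ⟨((su _ hze).comp z contDiffAt_snd).congr_of_eventuallyEq ?_, fun ξ => ?_⟩
  · filter_upwards [continuousAt_snd.eventually (e.open_target.mem_nhds hze)] with q hq
    rw [Function.comp, (k _ hq).1]
  · have hO : IsOpen {q : P n | q.2 ∈ ball (0 : Cm n) 1} := isOpen_ball.preimage continuous_snd
    have hΦ : MDifferentiableOn 𝓘(ℂ, P n) 𝓘(ℂ, Cm n) (fun q : P n => Ψ q.2)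
        {q : P n | q.2 ∈ ball (0 : Cm n) 1} :=
      h.1.comp (mdifferentiableOn_iff_differentiableOn.2 differentiableOn_snd) fun q hq => hq
    have hx := (k _ hze).2.1
    rw [(V.Arf.levi hO hΦ he hz hx ((su _ (e.map_source hx)).of_le (by norm_cast))).2]
    exact mul_nonneg (by norm_num)
      (V.Arf.qf_nonneg (s.ric_pos t ht e he _ (e.map_source hx)).posSemidef _)

theorem jac (hF : F.Is) (Ψ : Cm n → M) (z : Fin n → M → ℂ) (h : Imm Ψ)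
    (hz : ∀ i, IsSec n 0 (z i)) :
    DifferentiableOn ℂ (fun y i => z i (Ψ y)) (ball 0 1) ∧ ∀ y ∈ ball (0 : Cm n) 1,
      (jc (fun y i => z i (Ψ y)) y).det = F.jc z (Ψ y) * om F Ψ y := by
  have k : ∀ y ∈ ball (0 : Cm n) 1,
      DifferentiableAt ℂ (fun w i => z i ((pc n (Ψ y)).symm w)) (pc n (Ψ y) (Ψ y)) ∧
      (fun y i => z i (Ψ y)) =ᶠ[𝓝 y]
        (fun w i => z i ((pc n (Ψ y)).symm w)) ∘ fun w => pc n (Ψ y) (Ψ w) := fun y hy => by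
    refine ⟨differentiableAt_pi.2 fun i => ?_, ?_⟩
    · have := hz i _ (B1aP.chart (Ψ y)) _ (mem_chart_target _ _)
      rw [B1aP.co_zero] at this
      exact this.differentiableAt
    · filter_upwards [(h.1.continuousOn.continuousAt (isOpen_ball.mem_nhds hy)).eventually
        (chart_source_mem_nhds (Cm n) (Ψ y))] with w hw
      funext i
      rw [Function.comp, (pc n (Ψ y)).left_inv hw]
  refine ⟨fun y hy => (((k y hy).1.comp y (pc_diff h hy)).congr_of_eventuallyEq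
    (k y hy).2).differentiableWithinAt, fun y hy => ?_⟩
  rw [jc_congr (k y hy).2, jc_comp (k y hy).1 (pc_diff h hy), Matrix.det_mul, Flow.jc, om,
    mul_comm (jm Ψ y).det, ← mul_assoc, div_mul_cancel₀ _ (hF.ne _)]
  rfl

theorem gr (hF : F.Is) (b : F.Bas1) (f : ℂ → M) (θ : Fin n → ℂ → Cm n) (S : Set ℂ) (t : ℝ)
    (hS : IsOpen S) (ht : 0 ≤ t) (hf1 : H1 n f S) (hθ : ∀ i, Al f (θ i) S) :
    (∀ i j, ContDiffOn ℝ ∞ (fun τ => Gr F t f θ τ i j) S) ∧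
      ∀ τ, (Gr F t f θ τ).IsHermitian ∧
        ∀ y, qf (Gr F t f θ τ) y = F.nv t (f τ) (∑ i, y i • θ i τ) := by
  refine ⟨fun i j τ hτ => ContDiffAt.contDiffWithinAt ?_, fun τ => ?_⟩
  · have he := B1aP.chart (n := n) (f τ)
    have hx := mem_chart_source (Cm n) (f τ)
    set e := chartAt (Cm n) (f τ)
    obtain ⟨h1, h2⟩ := V.Arf.chart_sm hS hf1 he
    have nb := h1.mem_nhds (⟨hτ, hx⟩ : τ ∈ S ∩ f ⁻¹' e.source)
    have h3 : ∀ i l, ContDiffAt ℝ ∞ (fun s => tv e (f s) (θ i s) l) τ := fun i l =>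
      (analyticAt_pi_iff.1 ((hθ i e he).analyticAt nb) l).contDiffAt.restrict_scalars ℝ
    have h4 : ∀ l m, ContDiffAt ℝ ∞ (fun s => F.g t e (e (f s)) l m) τ := fun l m =>
      (b.g_at t ht e he _ (e.map_source hx) l m).comp (f := fun s => e (f s)) τ
        ((h2.contDiffAt nb).restrict_scalars ℝ)
    have h5 : ContDiffAt ℝ ∞ (fun s => ∑ l, ∑ m, tv e (f s) (θ i s) l * F.g t e (e (f s)) l m *
        conj (tv e (f s) (θ j s) m)) τ :=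
      ContDiffAt.sum fun l _ => ContDiffAt.sum fun m _ => ((h3 i l).mul (h4 l m)).mul
        (Complex.conjCLE.contDiff.contDiffAt.comp τ (h3 j m))
    refine h5.congr_of_eventuallyEq ?_
    filter_upwards [nb] with s hs
    rw [← X.hf_sum, Gr, Matrix.of_apply, Flow.gx,
      b.g_ch t ht _ e (B1aP.chart _) he _ (mem_chart_source _ _) hs.2, hf_pb]
    rfl
  · have h1 : Gr F t f θ τ =
        (Matrix.of fun i => θ i τ) * F.gx t (f τ) * (Matrix.of fun i => θ i τ)ᴴ := by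
      ext i j
      refine Eq.trans ?_ (X.hf_single _ i j)
      rw [X.hf_pull, Matrix.single_one_vecMul, Matrix.single_one_vecMul]
      rfl
    rw [h1]
    exact ⟨Matrix.isHermitian_mul_mul_conjTranspose _
      (hF.pos t ht _ (B1aP.chart _) _ (mem_chart_target _ _)).1, fun y => by
        rw [X.qf_pull, Matrix.vecMul_eq_sum]
        rfl⟩

end Tr

/-- **Row TR.** -/
theorem tr : TR := by
  intro n M _ _ _ _ _ _ _ _ _ _ _ _ μ F A T p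
  exact ⟨Tr.om_an p.is, fun Ψ _ t ht x _ => Tr.u_eq p.is Ψ t ht x, Tr.u_psh p.b1 p.s3a, Tr.inj,
    Tr.chain, Tr.jac p.is, Tr.trans F, Tr.lift, Tr.gr p.is p.b1⟩

end Vale.Agent.P253W.Y
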