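import Vale.Agent.P253W.Y.Defs

/-!
# P253W, block Y: assembly
-/

open scoped Manifold ContDiff Bundle ENNReal Topology
open Bundle IsManifold MeasureTheory Set Metric Filter Vale.Agent.P253.Mfd Vale.Agent.P253Z
open Vale.Agent.P272.K (Cm)

noncomputable section

namespace Vale.Agent.P253W.Y

theorem ex_mono {a b : ℝ} (h : a ≤ b) : ex b ⊆ ex a := fun _ hτ => h.trans_lt hτ

theorem int_pow {ρ e : ℝ} (hρ : 1 ≤ ρ) (he : 0 < e) :
    ∫⁻ τ in ex ρ, ENNReal.ofReal (‖τ‖ ^ (-2 - e)) < ⊤ := by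
  have h := integrable_one_add_norm (E := ℂ) (μ := volume) (r := 2 + e)
    (by rw [Complex.finrank_real_complex]; push_cast; linarith)
  have h2 := (h.const_mul (2 ^ (2 + e))).lintegral_lt_top
  refine lt_of_le_of_lt ?_ h2
  refine le_trans (setLIntegral_mono' (isOpen_lt continuous_const continuous_norm).measurableSet
    fun τ (hτ : ρ < ‖τ‖) => ENNReal.ofReal_le_ofReal ?_) (setLIntegral_le_lintegral _ _)
  have h3 : 0 < ‖τ‖ := by linarith
  have h4 : (1 + ‖τ‖) ^ (2 + e) ≤ 2 ^ (2 + e) * ‖τ‖ ^ (2 + e) := by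
    rw [← Real.mul_rpow zero_le_two h3.le]
    exact Real.rpow_le_rpow (by linarith) (by linarith) (by linarith)
  rw [show -2 - e = -(2 + e) by ring, Real.rpow_neg h3.le, Real.rpow_neg (by linarith),
    ← div_eq_mul_inv, le_div_iff₀ (by positivity), inv_mul_le_iff₀ (by positivity), mul_comm]
  exact h4

theorem Mod.pot {n : ℕ} (B : Mod n) (h : POT) : ∃ ρ' a, B.Pot ρ' a := by
  have hρ := B.ρ_ge
  have hC := B.C_ge
  have he := B.e_pos
  have key := fun a b c d => h (fun τ => 100 * (B.C * B.m τ + B.C * ‖τ‖ ^ (-2 - B.e)))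
    (max B.ρ (200 * B.C)) (B.C + 1) B.e a b c d he
  refine (key ?_ ?_ ?_ ?_).elim fun ρ' h0 => h0.elim fun a h0 => ?_
  rotate_right
  · obtain ⟨h1, h2⟩ := h0
    exact ⟨max ρ' B.ρ, a, le_max_right _ _, h1.mono (ex_mono (le_max_left _ _)),
      fun τ hτ => (h2 τ (ex_mono (le_max_left _ _) hτ)).1,
      fun τ hτ => (h2 τ (ex_mono (le_max_left _ _) hτ)).2⟩
  · refine contDiffOn_const.mul ((contDiffOn_const.mul
      (B.m_sm.mono (ex_mono (le_max_left _ _)))).add (contDiffOn_const.mul fun τ hτ => ?_))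
    have h3 : 0 < ‖τ‖ := by have : B.ρ < ‖τ‖ := ex_mono (le_max_left _ _) hτ; linarith
    exact ((contDiffAt_norm ℝ (norm_pos_iff.1 h3)).rpow_const_of_ne h3.ne').contDiffWithinAt
  · intro τ hτ
    have := (B.m_mem τ (ex_mono (le_max_left _ _) hτ)).1
    positivity
  · intro τ hτ
    have h3 : B.ρ < ‖τ‖ := ex_mono (le_max_left _ _) hτ
    have h4 : 200 * B.C < ‖τ‖ := ex_mono (le_max_right _ _) hτ
    have h5 := (B.m_mem τ h3).2
    have h6 : ‖τ‖ ^ (-2 - B.e) ≤ ‖τ‖ ^ B.C :=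
      Real.rpow_le_rpow_of_exponent_le (by linarith) (by linarith)
    have h7 : 0 < ‖τ‖ ^ B.C := Real.rpow_pos_of_pos (by linarith) _
    rw [Real.rpow_add (by linarith), Real.rpow_one]
    nlinarith
  · have h3 := lt_of_le_of_lt (lintegral_mono_set (μ := volume)
      (f := fun τ => ENNReal.ofReal (B.m τ)) (ex_mono (le_max_left B.ρ (200 * B.C)))) B.m_int
    have h4 := int_pow (hρ.trans (le_max_left B.ρ (200 * B.C))) he
    have hm : MeasurableSet (ex (max B.ρ (200 * B.C))) :=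
      (isOpen_lt continuous_const continuous_norm).measurableSet
    calc _ ≤ ∫⁻ τ in ex (max B.ρ (200 * B.C)), ENNReal.ofReal (100 * B.C) *
          (ENNReal.ofReal (B.m τ) + ENNReal.ofReal (‖τ‖ ^ (-2 - B.e))) := by
          refine setLIntegral_mono' hm fun τ hτ => le_of_eq ?_
          rw [← ENNReal.ofReal_add (B.m_mem τ (ex_mono (le_max_left _ _) hτ)).1 (by positivity),
            ← ENNReal.ofReal_mul (by positivity)]
          congr 1; ring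
      _ < ⊤ := by
          rw [lintegral_const_mul' _ _ ENNReal.ofReal_ne_top, lintegral_add_right _ (by fun_prop)]
          exact ENNReal.mul_lt_top ENNReal.ofReal_lt_top (ENNReal.add_lt_top.2 ⟨h3, h4⟩)

theorem Mod.out {n : ℕ} (B : Mod n) (h0 : HORLs) (h1 : LEV n) (h2 : POT) (h3 : VS) (h4 : ∀ n, MVN n)
    (h5 : SOL n) (h6 : SUB n) (h7 : JET n) (h8 : INV n) :
    ∃ ρ' X, B.Out ρ' ((4 * n + 40) * B.e) X := by
  obtain ⟨ρ₁, a, ha⟩ := B.pot h2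
  obtain ⟨ρ₂, Z, h12, hZ⟩ := h5 h0 h1 B ρ₁ a ha
  have ha' : B.Pot ρ₂ a := ⟨ha.ge.trans h12, ha.sm.mono (ex_mono h12),
    fun τ hτ => ha.lev τ (ex_mono h12 hτ), fun τ hτ => ha.bd τ (ex_mono h12 hτ)⟩
  obtain ⟨ρ₃, h23, hS⟩ := h6 h1 h3 (h4 n) B ρ₂ a Z ha' hZ
  obtain ⟨ρ₄, h24, hJ⟩ := h7 (h4 1) (h4 n) B ρ₂ Z ha'.ge hZ
  refine h8 B (max ρ₃ ρ₄) Z (ha'.ge.trans (h23.trans (le_max_left _ _))) ?_
    (fun q hq => hS q ⟨(le_max_left _ _).trans_lt hq.1, hq.2⟩)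
    fun τ hτ => hJ τ (ex_mono (le_max_right _ _) hτ)
  intro i z hz hq
  have h9 : ρ₂ < ‖((B.A.e i).symm z).1‖ := (h23.trans (le_max_left _ _)).trans_lt hq.1
  refine hZ.hol i z hz ⟨h9, hq.2.trans_le (Real.rpow_le_rpow_of_exponent_le ?_ ?_)⟩
  · linarith [ha'.ge, B.ρ_ge]
  · nlinarith [B.e_pos]

/-- the rows of block Y -/
structure Rows : Prop where
  horl : HORLs
  geo : ∀ n, GEO n
  nat : ∀ n, NAT n
  lev : ∀ n, LEV n
  pot : POT
  vs : VS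
  mvn : ∀ n, MVN n
  nu : ∀ n, NU n
  sol : ∀ n, SOL n
  sub : ∀ n, SUB n
  jet : ∀ n, JET n
  inv : ∀ n, INV n
  cht1 : ∀ n, CHT1 n
  cht2 : ∀ n, CHT2 n
  xinj : ∀ n, X.INJ n
  cnt : ∀ n, X.CNT n
  imm : ∀ n, X.AllM n fun M _ _ _ _ _ => X.IMM n M
  bc : ∀ n, X.BC n
  tr : TR
  unq : UNQ
  ch : CH
  tm : TM
  met : MET
  uu : UU
  inj : INJ
  mod : MOD
  fin : FIN

theorem tube_of (h : Rows) : For3 fun _ _ _ _ _ _ _ _ d T => T.TUBE d := by
  intro n M _ _ _ _ _ _ _ _ _ _ _ _ μ F A T p f ν k θ hf hc hF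
  have tr := h.tr n M μ F A T p
  obtain ⟨κ, hκ, hk⟩ : ∃ κ : ℝ, 0 < κ ∧ κ ≤ 1 ∧ ∀ i, κ < k i := by
    obtain ⟨κ, h1, h2⟩ := ((eventually_all.2 fun i => eventually_lt_nhds (hF.pos i)).and
      (eventually_lt_nhds (zero_lt_one' ℝ))).filter_mono (nhdsWithin_le_nhds (s := Ioi 0)) |>.and
      self_mem_nhdsWithin |>.exists
    exact ⟨κ, h2, h1.2.le, h1.1⟩
  have hn : (0 : ℝ) < 4 * n + 40 := by positivity
  have he : 0 < κ / (4 * n + 40) := by positivity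
  have he' : (4 * n + 40) * (κ / (4 * n + 40)) = κ := by field_simp
  obtain ⟨t, ht, hm⟩ := h.tm n M μ F A T p f ν hf.hol hc
  obtain ⟨C', ρ', m, hm⟩ := hm _ he
  obtain ⟨C, ρ, Ψ, hΨ⟩ := h.ch n M μ F A T p f ν hc t ht _ he
  have met := h.met n M μ F A T p f ν hc
  obtain ⟨B, E, h1, rfl, h3, h4⟩ := h.mod n M μ F A T p (h.geo n) (h.cht1 n) (h.cht2 n) (h.nu n) tr
    (h.unq n M μ F A T p (h.nat n) tr) f k θ t C ρ _ C' ρ' Ψ m hf.hol hF met hΨ hm (he'.le.trans hk.1)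
  obtain ⟨ρ'', X, hX⟩ := B.out h.horl (h.lev n) h.pot h.vs h.mvn (h.sol n) (h.sub n) (h.jet n)
    (h.inv n)
  rw [h1, he'] at hX
  exact h.fin n M μ F A T p tr f ν θ t C ρ ρ'' κ Ψ B E X hf hF met
    (h.uu n M μ F A T p (h.bc n) tr f ν hf hc)
    (h.inj n M μ F A T p (h.xinj n) (h.cnt n) (h.imm n) tr f ν hf hc) (h1 ▸ hΨ) h3 h4
    hX hκ hk.2

end Vale.Agent.P253W.Y
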