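import Vale.Agent.P253W.Y.Fin
import Vale.Agent.P253W.V.Lfc
import Vale.Agent.P253W.C.Eig
import Vale.Agent.P253W.X.Mat

/-!
# P253W, block Y: the charts along the curve and the comparison of the metrics
-/

open scoped Manifold ContDiff Bundle ENNReal Topology Matrix ComplexOrder
open Bundle IsManifold MeasureTheory Set Metric Filter Vale.Agent.P253.Mfd Vale.Agent.P253Z
open Vale.Agent.P272.K (Cm dz)

noncomputable section

namespace Vale.Agent.P253W.Y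

namespace ChL

theorem qle {n : ℕ} {A B : Mx n} (h : (A - B).PosSemidef) (v : Cm n) : qf B v ≤ qf A v := by
  have h1 := X.qf_nonneg v h
  rw [X.qf_eq, X.hf_msub, Complex.sub_re] at h1
  exact sub_nonneg.1 h1

theorem slice {n : ℕ} {U : Set (Cm n)} {W : ℝ → Cm n → Mx n} (h : LF U W) {t : ℝ} (ht : 0 < t)
    (j k : Fin n) : ContDiffOn ℝ ∞ (fun y => W t y j k) U :=
  (h.sm j k).comp (contDiff_prodMk_right t).contDiffOn fun _ hy => ⟨ht, hy⟩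

theorem sq {a b N C : ℝ} (hb : 0 ≤ b) (hN : 0 ≤ N) (h1 : a ≤ C * N) (h2 : N ≤ C * b) :
    a ≤ C ^ 2 * b := by
  rcases le_total 0 C with h | h
  · nlinarith [mul_le_mul_of_nonneg_left h2 h]
  · nlinarith [mul_nonneg (sq_nonneg C) hb, mul_nonneg (neg_nonneg.2 h) hN]

variable {n : ℕ} {M : Type} [MetricSpace M] [ChartedSpace (Cm n) M]
  [RiemannianBundle fun x : M => TangentSpace 𝓘(ℝ, Cm n) x] [MeasurableSpace M]
  [IsManifold 𝓘(ℝ, Cm n) ∞ M] [ConnectedSpace M] [NoncompactSpace M] {μ : Measure M} {F : Flow n M}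
  {A : Fam F} {T : F.TA μ} (p : P3 A T)
include p

theorem hc (x : M) : Hc (pc n x) := (p.s3b.all 0 le_rfl).a.chart x

theorem gx_pos {t : ℝ} (ht : 0 ≤ t) (x : M) : (F.gx t x).PosDef :=
  p.is.pos t ht _ (hc p x) _ (mem_chart_target _ x)

theorem nv_nn {t : ℝ} (ht : 0 ≤ t) (x : M) (v : Cm n) : 0 ≤ F.nv t x v :=
  X.qf_nonneg v (gx_pos p ht x).posSemidef

theorem nv_cmp {s t : ℝ} (hs : 0 ≤ s) (h : s ≤ t) (x : M) (v : Cm n) :
    F.nv t x v ≤ F.nv s x v ∧ F.nv s x v ≤ Real.exp (F.u t x - F.u s x) * F.nv t x v := by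
  obtain ⟨h1, h2⟩ := p.s3a.g_anti s t hs h _ (hc p x) _ (mem_chart_target (Cm n) x)
  rw [(pc n x).left_inv (mem_chart_source _ x)] at h2
  exact ⟨qle h1 v, (qle h2 v).trans_eq (X.qf_msmul _ _ _)⟩

/-- the change of `u` between the times `1` and `t` -/
theorem ut {f : ℂ → M} {ν : ℝ} (h : F.Curv A.d f ν) {t η : ℝ} (ht : t ∈ Icc (1 : ℝ) 2) (hη : 0 < η) :
    ∃ ρ : ℝ, 1 ≤ ρ ∧ ∀ τ : ℂ, ρ < ‖τ‖ → ∀ q, A.d t q (f τ) ≤ 1 →
      F.u 1 q ≤ F.u t q ∧ F.u t q - F.u 1 q ≤ η * Real.log ‖τ‖ := by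
  obtain ⟨ρ, h1⟩ := h.R η hη
  refine ⟨max ρ 1, le_max_right _ _, fun τ hτ q hq => ⟨p.is.mono q (by simp) (by
    simp only [mem_Ici]; linarith [ht.1]) ht.1, ?_⟩⟩
  rw [max_lt_iff] at hτ
  have h2 : ∀ s ∈ Icc (1 : ℝ) t, HasDerivAt (fun s => F.u s q) (F.R s q) s := fun s hs =>
    p.b2.u_t s (by linarith [hs.1]) q
  have h3 := (convex_Icc 1 t).image_sub_le_mul_sub_of_deriv_le (f := fun s => F.u s q)
    (C := η * Real.log ‖τ‖) (fun s hs => (h2 s hs).continuousAt.continuousWithinAt)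
    (fun s hs => (h2 s (interior_subset hs)).differentiableAt.differentiableWithinAt)
    (fun s hs => by
      have hs' := interior_subset hs
      rw [(h2 s hs').deriv]
      exact h1 τ hτ.1 s ⟨by linarith [hs'.1], by linarith [hs'.2, ht.2]⟩ q
        ((p.s3b.d_anti t 4 (by linarith [ht.1]) (by linarith [ht.2]) _ _).trans hq))
    1 ⟨le_rfl, ht.1⟩ t ⟨ht.1, le_rfl⟩ ht.1
  have h4 : 0 ≤ η * Real.log ‖τ‖ := mul_nonneg hη.le (Real.log_nonneg hτ.2.le)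
  nlinarith [ht.2]

end ChL

open ChL

theorem ch : CH := by
  intro n M _ _ _ _ _ _ _ _ _ _ _ _ μ F A T p f ν hf t ht e he
  obtain ⟨c, c', C, -, -, -, -, g⟩ := p.g1
  have t0 : 0 < t := by linarith [ht.1]
  obtain ⟨ρ, hR⟩ := hf.R (min (2 * e) (1 / 8)) (by positivity)
  have key : ∀ τ : ℂ, ∃ Ψ : Cm n → M, max ρ 8 < ‖τ‖ → Imm Ψ ∧ Ψ 0 = f τ ∧
      SK C (‖τ‖ ^ (-e)) (F.pull Ψ t) ∧ ∀ y ∈ ball (0 : Cm n) 1, A.d t (Ψ y) (f τ) ≤ ‖τ‖ ^ (-e) := by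
    intro τ
    by_cases hτ : max ρ 8 < ‖τ‖
    swap
    · exact ⟨fun _ => f τ, fun h => absurd h hτ⟩
    rw [max_lt_iff] at hτ
    have hp : 0 < ‖τ‖ := by linarith [hτ.2]
    have s0 : 0 < ‖τ‖ ^ (-e) := Real.rpow_pos_of_pos hp _
    have s1 : ‖τ‖ ^ (-e) ≤ 1 := Real.rpow_le_one_of_one_le_of_nonpos (by linarith [hτ.2]) (by linarith)
    have hq : ∀ q, A.d t q (f τ) ≤ ‖τ‖ ^ (-e) → (‖τ‖ ^ (-e)) ^ 2 * F.R t q ≤ 1 := by
      intro q hq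
      have h1 := hR τ hτ.1 t ⟨by linarith [ht.1], by linarith [ht.2]⟩ q
        ((p.s3b.d_anti t 4 t0.le (by linarith [ht.2]) _ _).trans (hq.trans s1))
      have h2 := Real.log_le_rpow_div hp.le (show 0 < 2 * e by positivity)
      have h3 : 0 ≤ Real.log ‖τ‖ := Real.log_nonneg (by linarith [hτ.2])
      rw [le_div_iff₀ (by positivity)] at h2
      have h4 : F.R t q ≤ ‖τ‖ ^ (2 * e) :=
        h1.trans ((mul_le_mul_of_nonneg_right (min_le_left _ _) h3).trans (by linarith))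
      calc _ ≤ (‖τ‖ ^ (-e)) ^ 2 * ‖τ‖ ^ (2 * e) := by gcongr
        _ = 1 := by
          rw [← Real.rpow_natCast, ← Real.rpow_mul hp.le, ← Real.rpow_add hp]
          simp [mul_comm]
    obtain ⟨L, hL, -⟩ := (P253W.C.eig n).onb _ (gx_pos p t0.le (f τ))
    obtain ⟨Ψ, h1, h2, -, h3, -⟩ := g t _ (f τ) L t0 s0 hq hL
    have h4 : ∀ y ∈ ball (0 : Cm n) 1, (jm Ψ y).det ≠ 0 := by
      intro y hy h
      obtain ⟨v, hv, h5⟩ := Matrix.exists_mulVec_eq_zero_iff.2 h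
      have h6 := ((h3 y hy).2 v).1
      rw [dn, h5, Flow.nv, X.qf_zero, mul_zero] at h6
      have : 0 < ‖v‖ := norm_pos_iff.2 hv
      exact absurd h6 (not_le.2 (by positivity))
    obtain ⟨h5, h6⟩ := p.s3a.lfp _ Ψ isOpen_ball h1 h4
    have h7 := V.lfc_row _ _ _ h5
    refine ⟨Ψ, fun _ => ⟨⟨h1, h4⟩, h2, ⟨⟨isOpen_ball, fun j k => ?_, h5.pos t t0, h5.cl t t0⟩, s0,
      fun y hy v => ?_, fun y hy v => ?_, h7.bk t t0, fun y hy v => ?_⟩, fun y hy => (h3 y hy).1⟩⟩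
    · exact slice h5 t0 j k
    · rw [F.qf_pull]; exact ((h3 y hy).2 v).1
    · rw [F.qf_pull]; exact ((h3 y hy).2 v).2
    · have h8 := qle (h7.ric t t0 y hy).2 v
      rw [X.qf_msmul, (h6 t t0 y hy).2] at h8
      have h9 := X.qf_nonneg v (h5.pos t t0 y hy).posSemidef
      calc _ ≤ (‖τ‖ ^ (-e)) ^ 2 * (F.R t (Ψ y) * qf (F.pull Ψ t y) v) := by gcongr
        _ ≤ 1 * qf (F.pull Ψ t y) v := by
          rw [← mul_assoc]; exact mul_le_mul_of_nonneg_right (hq _ (h3 y hy).1) h9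
        _ = _ := one_mul _
  choose Ψ hΨ using key
  have nr : ∀ τ ∈ ex (max ρ 8), ∀ y ∈ ball (0 : Cm n) 1, A.d t (Ψ τ y) (f τ) ≤ 1 := fun τ hτ y hy =>
    ((hΨ τ hτ).2.2.2 y hy).trans (Real.rpow_le_one_of_one_le_of_nonpos
      (by linarith [show 8 < ‖τ‖ from ((le_max_right ρ 8).trans_lt hτ)]) (by linarith))
  refine ⟨C, max ρ 8, Ψ, ht, he, le_max_right _ _, fun τ hτ => (hΨ τ hτ).1,
    fun τ hτ => (hΨ τ hτ).2.1, fun τ hτ => (hΨ τ hτ).2.2.1, nr, fun τ hτ y hy s hs => ?_,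
    fun τ hτ => (hΨ τ hτ).2.2.2⟩
  have h0 : max ρ 8 < ‖τ‖ := hτ
  have h1 := hR τ (max_lt_iff.1 h0).1 s ⟨by linarith [hs.1], hs.2⟩ _
    ((p.s3b.d_anti t 4 t0.le (by linarith [ht.2]) _ _).trans (nr τ hτ y hy))
  have h3 : 0 ≤ Real.log ‖τ‖ := Real.log_nonneg (by linarith [(max_lt_iff.1 h0).2])
  have h4 := h1.trans (mul_le_mul_of_nonneg_right (min_le_right _ _) h3)
  nlinarith [hs.1, hs.2]

theorem met : MET := by
  intro n M _ _ _ _ _ _ _ _ _ _ _ _ μ F A T p f ν hf t C ρ e Ψ hΨ η hη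
  have hη' : 0 < η / 2 := by positivity
  have ht := hΨ.t_mem
  have t0 : 0 ≤ t := by linarith [ht.1]
  obtain ⟨a₁, b₁, k₁⟩ := ut p hf ht hη'
  obtain ⟨a₂, k₂⟩ := FinL.big hη' (C ^ 2)
  refine ⟨max ρ (max a₁ a₂), fun τ hτ x hx v => ?_⟩
  replace hτ : max ρ (max a₁ a₂) < ‖τ‖ := hτ
  simp only [max_lt_iff] at hτ
  obtain ⟨h0, h1, h2⟩ := hτ
  have hp : 1 < ‖τ‖ := b₁.trans_lt h1
  have hp' : 0 < ‖τ‖ := by linarith
  have cmp : ∀ y ∈ ball (0 : Cm n) 1, ∀ w, F.nv 1 (Ψ τ y) w ≤ ‖τ‖ ^ (η / 2) * F.nv t (Ψ τ y) w := by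
    intro y hy w
    refine (nv_cmp p zero_le_one ht.1 _ w).2.trans (mul_le_mul_of_nonneg_right ?_ (nv_nn p t0 _ _))
    rw [Real.rpow_def_of_pos hp', mul_comm]
    exact Real.exp_le_exp.2 (k₁ τ h1 _ (hΨ.near τ h0 y hy)).2
  have two : ∀ y ∈ ball (0 : Cm n) 1, ∀ y' ∈ ball (0 : Cm n) 1,
      F.nv 1 (Ψ τ y) (dn (Ψ τ) y v) ≤ ‖τ‖ ^ η * F.nv 1 (Ψ τ y') (dn (Ψ τ) y' v) := by
    intro y hy y' hy'
    have h3 := (hΨ.sk τ h0).up y hy v
    have h4 := (hΨ.sk τ h0).lo y' hy' v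
    rw [F.qf_pull] at h3 h4
    have h5 := sq (nv_nn p t0 _ _) (by positivity) h3 h4
    have h6 := nv_nn p t0 (Ψ τ y') (dn (Ψ τ) y' v)
    calc _ ≤ ‖τ‖ ^ (η / 2) * (‖τ‖ ^ (η / 2) * F.nv 1 (Ψ τ y') (dn (Ψ τ) y' v)) := by
          refine (cmp y hy _).trans (mul_le_mul_of_nonneg_left (h5.trans ?_) (by positivity))
          exact mul_le_mul (k₂ _ h2) (nv_cmp p zero_le_one ht.1 _ _).1 h6 (by positivity)
      _ = _ := by rw [← mul_assoc, ← Real.rpow_add hp', add_halves]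
  have z : (0 : Cm n) ∈ ball (0 : Cm n) 1 := mem_ball_self one_pos
  rw [← hΨ.zero τ h0]
  refine ⟨⟨two 0 z x hx, two x hx 0 z⟩, (nv_cmp p zero_le_one ht.1 _ _).1, (cmp 0 z v).trans ?_⟩
  exact mul_le_mul_of_nonneg_right (Real.rpow_le_rpow_of_exponent_le hp.le (by linarith))
    (nv_nn p t0 _ _)

end Vale.Agent.P253W.Y
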