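import Vale.Agent.P253W.Y.Defs
import Vale.Agent.P253W.V.Alg

/-! P253W, row Y.CHT1: the chart near one point of the curve. -/

open scoped ContDiff Topology ComplexOrder Matrix
open Set Metric Filter
open Vale.Agent.P272.K (Cm)

noncomputable section

namespace Vale.Agent.P253W.Y

namespace Cht1

variable {n : ℕ}

theorem sq_rpow {a x y : ℝ} (ha : 0 < a) (h : y = x + x) : (a ^ x) ^ 2 = a ^ y := by
  rw [sq, ← Real.rpow_add ha, h]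

theorem qf_nn {A : Mx n} (h : A.PosDef) (v : Cm n) : 0 ≤ qf A v := by
  simpa [qf] using (Complex.nonneg_iff.1 (h.posSemidef.dotProduct_mulVec_nonneg (star v))).1

section

variable {E : Type} [NormedAddCommGroup E] [NormedSpace ℝ E] {A : E → Mx n} {v : E → Cm n} {q : E}

theorem cvm (hv : ContDiffAt ℝ ∞ v q) (hA : ∀ i j, ContDiffAt ℝ ∞ (fun q => A q i j) q) :
    ContDiffAt ℝ ∞ (fun q => v q ᵥ* A q) q := contDiffAt_pi.2 fun j => by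
  simp only [Matrix.vecMul, dotProduct]
  exact ContDiffAt.sum fun i _ => (contDiffAt_pi.1 hv i).mul (hA i j)

omit [NormedSpace ℝ E] in
theorem cqf (hv : ContinuousAt v q) (hA : ∀ i j, ContinuousAt (fun q => A q i j) q) :
    ContinuousAt (fun q => qf (A q) (v q)) q := by
  have := continuousAt_pi.1 hv
  simp only [qf, dotProduct, Matrix.mulVec, Pi.star_apply]
  fun_prop

end

section

variable {r C s : ℝ} {W : Cm n → Mx n} {ex lg : Cm n × Cm n → Cm n} (g : Geo r C s W ex lg)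
  {p v : Cm n}
include g

theorem geo_le (hp : ‖p‖ < r) (hv : ‖v‖ < 8 * r) : ‖ex (p, v) - p‖ ≤ 2 * ‖v‖ := by
  obtain ⟨c', -, h⟩ := g.geo p (mem_ball_zero_iff.2 hp) v (mem_ball_zero_iff.2 hv)
  simpa [dist_eq_norm] using (h 1 ⟨zero_le_one, le_rfl⟩).1

theorem fd (p v : Cm n) : HasFDerivAt (fun u => ex (p, u))
    ((fderiv ℝ ex (p, v)).comp (ContinuousLinearMap.inr ℝ _ _)) v :=
  (g.ex_sm.differentiable (by simp) _).hasFDerivAt.comp v (hasFDerivAt_prodMk_right p v)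

theorem tay (hC : 0 ≤ C) (hp : ‖p‖ < r) (hv : ‖v‖ < 8 * r) :
    ‖ex (p, v) - p - v‖ ≤ C * ‖v‖ ^ 2 := by
  have := (convex_closedBall (0 : Cm n) ‖v‖).norm_image_sub_le_of_norm_hasFDerivWithin_le'
    (φ := ContinuousLinearMap.id ℝ _) (C := C * ‖v‖) (fun u _ => (fd g p u).hasFDerivWithinAt)
    (fun u hu => ?_) (mem_closedBall_self (norm_nonneg v)) (mem_closedBall_zero_iff.2 le_rfl)
  · simpa [g.zero, sq, mul_assoc] using this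
  have hu := mem_closedBall_zero_iff.1 hu
  refine ContinuousLinearMap.opNorm_le_bound _ (by positivity) fun w =>
    (g.near p (mem_ball_zero_iff.2 hp) u (mem_ball_zero_iff.2 (hu.trans_lt hv)) w).trans ?_
  gcongr

end

variable {ρ e C₀ r C₁ : ℝ} {G : ℂ → Mx n} {m : ℂ → ℝ} {τ₀ τ : ℂ} (L : Loc ρ e C₀ r C₁ G m τ₀)

/-- the chart -/
def fw (q : P n) : P n := (q.1, L.ex (L.p q.1, q.2 ᵥ* L.Θ q.1))

/-- its inverse -/
def bw (z : P n) : P n := (z.1, L.lg (L.p z.1, z.2) ᵥ* (L.Θ z.1)⁻¹)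

/-- the source -/
def sr : Set (P n) := {q | q ∈ Nb ρ (4 * e) G ∧ q.1 ∈ ball τ₀ L.δ}

/-- the target -/
def tg : Set (P n) := {z | z.1 ∈ ball τ₀ L.δ ∧ ‖z.2‖ < r ∧
  qf (L.W (L.p z.1)) (L.lg (L.p z.1, z.2)) < ‖z.1‖ ^ (-(4 * e))}

variable {L}

theorem p_lt (h : τ ∈ ball τ₀ L.δ) : ‖L.p τ‖ < r := by
  linarith [(L.p_an τ h).2, norm_nonneg (L.p τ)]

theorem p_mem (h : τ ∈ ball τ₀ L.δ) : L.p τ ∈ ball (0 : Cm n) 1 :=
  mem_ball_zero_iff.2 (by linarith [p_lt h, L.geo.small.2])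

theorem unit (h : τ ∈ ball τ₀ L.δ) : IsUnit (L.Θ τ).det := (L.Θ_an τ h).2.isUnit

theorem cancel (h : τ ∈ ball τ₀ L.δ) (v : Cm n) : (v ᵥ* (L.Θ τ)⁻¹) ᵥ* L.Θ τ = v := by
  rw [Matrix.vecMul_vecMul, Matrix.nonsing_inv_mul _ (unit h), Matrix.vecMul_one]

theorem sp {q : P n} (h : q.1 ∈ ball τ₀ L.δ) : ContDiffAt ℝ ∞ (fun q : P n => L.p q.1) q :=
  ((L.p_an _ h).1.contDiffAt.restrict_scalars ℝ).comp q contDiffAt_fst

theorem sΘ (h : τ ∈ ball τ₀ L.δ) (i j) : ContDiffAt ℝ ∞ (fun s => L.Θ s i j) τ :=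
  ((L.Θ_an _ h).1 i j).contDiffAt.restrict_scalars ℝ

theorem sv {q : P n} (h : q.1 ∈ ball τ₀ L.δ) :
    ContDiffAt ℝ ∞ (fun q : P n => q.2 ᵥ* L.Θ q.1) q :=
  cvm contDiffAt_snd fun i j => (sΘ h i j).comp q contDiffAt_fst

theorem sl {z : P n} (h : z.1 ∈ ball τ₀ L.δ) (k : ‖z.2‖ < r) :
    ContDiffAt ℝ ∞ (fun z : P n => L.lg (L.p z.1, z.2)) z :=
  (L.geo.lg_sm.contDiffAt ((isOpen_ball.prod isOpen_ball).mem_nhds
    ⟨mem_ball_zero_iff.2 (p_lt h), mem_ball_zero_iff.2 k⟩)).comp z ((sp h).prodMk contDiffAt_snd)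

theorem sf {q : P n} (h : q.1 ∈ ball τ₀ L.δ) : ContDiffAt ℝ ∞ (fw L) q :=
  contDiffAt_fst.prodMk (L.geo.ex_sm.contDiffAt.comp q ((sp h).prodMk (sv h)))

theorem sb {z : P n} (h : z.1 ∈ ball τ₀ L.δ) (k : ‖z.2‖ < r) : ContDiffAt ℝ ∞ (bw L) z :=
  contDiffAt_fst.prodMk (cvm (sl h k) fun i j => ((V.Alg.sm_inv (fun i j _ h =>
    (sΘ h i j).contDiffWithinAt) (fun _ h => (L.Θ_an _ h).2) i j).contDiffAt
      (isOpen_ball.mem_nhds h)).comp z contDiffAt_fst)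

theorem ev (hρ : 0 ≤ ρ) {v : P n → Cm n} {q : P n} (h : q.1 ∈ ball τ₀ L.δ) (hv : ContinuousAt v q)
    (k : qf (L.W (L.p q.1)) (v q) < ‖q.1‖ ^ (-(4 * e))) : ∀ᶠ q in 𝓝 q, q.1 ∈ ball τ₀ L.δ ∧
      qf (L.W (L.p q.1)) (v q) < ‖q.1‖ ^ (-(4 * e)) :=
  (continuousAt_fst.eventually (isOpen_ball.mem_nhds h)).and ((cqf hv fun i j =>
    ((L.sk.sm i j).continuousOn.continuousAt (isOpen_ball.mem_nhds (p_mem h))).comp
      (f := fun q : P n => L.p q.1) (sp h).continuousAt).eventually_lt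
        (continuousAt_fst.norm.rpow_const (.inl (hρ.trans_lt (L.sub h)).ne')) k)

theorem ex_lt {q : P n} (h : q.1 ∈ ball τ₀ L.δ) (k : ‖q.2 ᵥ* L.Θ q.1‖ < r / 4) :
    ‖(fw L q).2‖ < r ∧ L.lg (L.p q.1, (fw L q).2) = q.2 ᵥ* L.Θ q.1 := by
  have k' : ‖q.2 ᵥ* L.Θ q.1‖ < 8 * r := by linarith [norm_nonneg (q.2 ᵥ* L.Θ q.1)]
  have a : ‖(fw L q).2‖ < r := by
    change ‖L.ex (L.p q.1, q.2 ᵥ* L.Θ q.1)‖ < r
    linarith [geo_le L.geo (p_lt h) k', (L.p_an _ h).2,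
      norm_sub_norm_le (L.ex (L.p q.1, q.2 ᵥ* L.Θ q.1)) (L.p q.1)]
  exact ⟨a, L.geo.lg_ex _ (mem_ball_zero_iff.2 (p_lt h)) _ (mem_ball_zero_iff.2 k')
    (mem_ball_zero_iff.2 a)⟩

/-- the chart -/
def chart (hρ : 0 ≤ ρ) (hs : ∀ q ∈ sr L, ‖q.2 ᵥ* L.Θ q.1‖ < r / 4) : Ch n where
  toFun := fw L
  invFun := bw L
  source := sr L
  target := tg L
  map_source' q h := ⟨h.2, (ex_lt h.2 (hs q h)).1, by
    change qf _ (L.lg (L.p q.1, (fw L q).2)) < _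
    rw [(ex_lt h.2 (hs q h)).2]
    exact (L.G_eq _ h.2 _).symm.trans_lt h.1.2⟩
  map_target' z h := ⟨⟨L.sub h.1, (L.G_eq _ h.1 _).trans_lt (by
    change qf _ ((_ ᵥ* (L.Θ z.1)⁻¹) ᵥ* L.Θ z.1) < _
    rw [cancel h.1]
    exact h.2.2)⟩, h.1⟩
  left_inv' q h := Prod.ext rfl (by
    change L.lg (L.p q.1, (fw L q).2) ᵥ* (L.Θ q.1)⁻¹ = _
    rw [(ex_lt h.2 (hs q h)).2, Matrix.vecMul_vecMul, Matrix.mul_nonsing_inv _ (unit h.2),
      Matrix.vecMul_one])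
  right_inv' z h := Prod.ext rfl (by
    change L.ex (L.p z.1, (_ ᵥ* (L.Θ z.1)⁻¹) ᵥ* L.Θ z.1) = _
    rw [cancel h.1]
    exact (L.geo.ex_lg _ (mem_ball_zero_iff.2 (p_lt h.1)) _ (mem_ball_zero_iff.2 h.2.1)).1)
  open_source := isOpen_iff_mem_nhds.2 fun q h =>
    (ev hρ h.2 (sv h.2).continuousAt ((L.G_eq _ h.2 _).symm.trans_lt h.1.2)).mono fun q h =>
      ⟨⟨L.sub h.1, (L.G_eq _ h.1 _).trans_lt h.2⟩, h.1⟩
  open_target := isOpen_iff_mem_nhds.2 fun z h =>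
    ((ev hρ h.1 (sl h.1 h.2.1).continuousAt h.2.2).and
      (continuousAt_snd.norm.eventually_lt continuousAt_const h.2.1)).mono fun _ h =>
        ⟨h.1.1, h.2, h.1.2⟩
  continuousOn_toFun q h := (sf h.2).continuousAt.continuousWithinAt
  continuousOn_invFun z h := (sb h.1 h.2.1).continuousAt.continuousWithinAt

theorem reg (hρ : 0 ≤ ρ) (hs : ∀ q ∈ sr L, ‖q.2 ᵥ* L.Θ q.1‖ < r / 4) : Reg (chart hρ hs) where
  fst _ _ := rfl
  sm _ h := sf h.2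
  sm' _ h := sb h.1 h.2.1
  ctr τ h := by
    refine ⟨(L.p_an τ h.2).1.congr (.of_forall fun s => ?_), fun j =>
      (analyticAt_pi_iff.2 fun i => (L.Θ_an τ h.2).1 j i).congr ?_⟩
    · change L.p s = L.ex (L.p s, 0 ᵥ* L.Θ s)
      rw [Matrix.zero_vecMul, L.geo.zero]
    filter_upwards [isOpen_ball.mem_nhds h.2] with s hs
    let T : Cm n →L[ℝ] Cm n := ((L.Θ s).vecMulLinear.toContinuousLinearMap).restrictScalars ℝ
    have k := HasFDerivAt.comp (f := T) 0 (fd L.geo (L.p s) _) T.hasFDerivAt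
    have b := L.geo.near _ (mem_ball_zero_iff.2 (p_lt hs)) 0
      (mem_ball_self (by linarith [p_lt hs, norm_nonneg (L.p s)])) (T (Pi.single j 1))
    rw [norm_zero, mul_zero, zero_mul, norm_le_zero_iff, sub_eq_zero] at b
    rw [map_zero] at k
    refine Eq.trans ?_ (b.symm.trans (congrArg (· (Pi.single j 1)) k.fderiv.symm))
    funext i
    simp [T]

theorem lo (h : τ ∈ ball τ₀ L.δ) (y : Cm n) :
    ‖τ₀‖ ^ (-(2 * e)) * ‖y ᵥ* L.Θ τ‖ ^ 2 ≤ max C₀ 1 * qf (G τ) y ∧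
      ∀ v, qf (L.W (L.p τ)) v ≤ max C₀ 1 * (‖τ₀‖ ^ (-(2 * e)) * ‖v‖ ^ 2) := by
  have e1 : (‖τ₀‖ ^ (-e)) ^ 2 = ‖τ₀‖ ^ (-(2 * e)) := by
    rw [← Real.rpow_natCast, ← Real.rpow_mul (norm_nonneg _)]
    congr 1
    push_cast
    ring
  rw [L.G_eq τ h, ← e1]
  exact ⟨(L.sk.lo _ (p_mem h) _).trans (mul_le_mul_of_nonneg_right (le_max_left _ _)
    (qf_nn (L.sk.pos _ (p_mem h)) _)), fun v => (L.sk.up _ (p_mem h) v).trans
      (mul_le_mul_of_nonneg_right (le_max_left _ _) (by positivity))⟩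

end Cht1

open Cht1 in
theorem cht1 (n : ℕ) : CHT1 n := by
  intro e C₀ r C₁ e0 e1 r0 c1
  have K1 : 1 ≤ max C₀ 1 := le_max_right _ _
  obtain ⟨ρ₀, h0⟩ := eventually_atTop.1 ((tendsto_rpow_neg_atTop (show 0 < 2 * e by
    positivity)).eventually (ge_mem_nhds (show 0 < min (r ^ 2 / (64 * max C₀ 1))
      (min (1 / (4 * max C₀ 1)) r) by positivity)))
  refine ⟨4 * C₁ + max C₀ 1, max ρ₀ 1, by linarith, fun ρ G m τ₀ L hρ => ?_⟩
  have ρ1 : 1 ≤ ρ := le_of_max_le_right hρ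
  have ρ0 : 0 ≤ ρ := zero_le_one.trans ρ1
  have m0 : τ₀ ∈ ball τ₀ L.δ := mem_ball_self L.δ_mem.1
  have a0 : 0 < ‖τ₀‖ := ρ0.trans_lt (L.sub m0)
  have hs : ∀ q ∈ sr L, ‖q.2 ᵥ* L.Θ q.1‖ < r / 4 := fun q h => by
    have b1 : 1 < ‖q.1‖ := ρ1.trans_lt h.1.1
    have b0 : 0 < ‖q.1‖ := one_pos.trans b1
    have a1 : ‖τ₀‖ ≤ 2 * ‖q.1‖ := by
      linarith [norm_sub_norm_le τ₀ q.1, mem_ball_iff_norm'.1 h.2, L.δ_mem.2]
    have a2 := Real.rpow_le_rpow_of_nonpos a0 a1 (show -(2 * e) ≤ 0 by linarith)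
    have a3 := Real.rpow_le_rpow_of_exponent_le one_le_two (show -2 ≤ -(2 * e) by linarith)
    rw [Real.mul_rpow zero_le_two b0.le] at a2
    rw [show (2 : ℝ) ^ (-2 : ℝ) = 1 / 4 by norm_num] at a3
    have a4 := (lo h.2 q.2).1
    have a5 : qf (G q.1) q.2 < (‖q.1‖ ^ (-(2 * e))) ^ 2 :=
      h.1.2.trans_eq (sq_rpow b0 (by ring)).symm
    have a6 := (le_div_iff₀ (by positivity)).1
      ((h0 _ ((le_of_max_le_left hρ).trans h.1.1.le)).trans (min_le_left _ _))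
    have a7 := Real.rpow_pos_of_pos b0 (-(2 * e))
    generalize ‖q.1‖ ^ (-(2 * e)) = B at *
    refine lt_of_pow_lt_pow_left₀ 2 (by positivity) (lt_of_mul_lt_mul_left ?_ a7.le)
    have a8 := mul_le_mul_of_nonneg_right ((mul_le_mul_of_nonneg_right a3 a7.le).trans a2)
      (sq_nonneg ‖q.2 ᵥ* L.Θ q.1‖)
    have a9 := mul_lt_mul_of_pos_left a5 (one_pos.trans_le K1)
    nlinarith
  have s0 := Real.rpow_pos_of_pos a0 (2 * e)
  have s1 : ‖τ₀‖ ^ (2 * e) * ‖τ₀‖ ^ (-(2 * e)) = 1 := by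
    rw [Real.rpow_neg a0.le, mul_inv_cancel₀ s0.ne']
  have z0 : ‖(0 : Cm n)‖ < r := by simpa using r0
  have C0 := zero_le_one.trans c1
  refine ⟨chart ρ0 hs, ⟨rfl, fun _ => rfl, fun _ => rfl, fun z h => ⟨h.1, h.2.1⟩, hs⟩, reg ρ0 hs,
    (L.Θ_an _ m0).2, fun y => ?_, fun y => ?_, fun y h => ?_, fun x h => ?_, fun x h => ?_⟩
  · have := mul_le_mul_of_nonneg_left (lo m0 y).1 s0.le
    rw [← mul_assoc, s1, one_mul, mul_left_comm] at this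
    refine this.trans (mul_le_mul_of_nonneg_right (by linarith) (mul_nonneg s0.le ?_))
    rw [L.G_eq _ m0]
    exact qf_nn (L.sk.pos _ (p_mem m0)) _
  · have := mul_le_mul_of_nonneg_left ((lo m0 y).2 (y ᵥ* L.Θ τ₀)) s0.le
    rw [mul_left_comm, ← mul_assoc (_ ^ _), s1, one_mul, ← L.G_eq _ m0] at this
    exact this.trans (mul_le_mul_of_nonneg_right (by linarith) (sq_nonneg _))
  · have k : ‖y ᵥ* L.Θ τ₀‖ < 8 * r := by linarith [hs _ h]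
    change ‖L.ex (L.p τ₀, y ᵥ* L.Θ τ₀) - _‖ ≤ _ ∧ ‖L.ex (L.p τ₀, y ᵥ* L.Θ τ₀)‖ ≤ _
    rw [L.p0]
    exact ⟨(by simpa using tay L.geo C0 z0 k : _ ≤ C₁ * _).trans
      (mul_le_mul_of_nonneg_right (by linarith) (sq_nonneg _)), by simpa using geo_le L.geo z0 k⟩
  · change ‖(L.lg (L.p τ₀, x) ᵥ* (L.Θ τ₀)⁻¹) ᵥ* L.Θ τ₀ - _‖ ≤ _ ∧
      ‖(L.lg (L.p τ₀, x) ᵥ* (L.Θ τ₀)⁻¹) ᵥ* L.Θ τ₀‖ ≤ _
    rw [cancel m0, L.p0]
    obtain ⟨k1, k2⟩ := L.geo.ex_lg 0 (mem_ball_self r0) x (mem_ball_zero_iff.2 h.2.1)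
    rw [sub_zero] at k2
    have k3 := tay L.geo C0 z0 (v := L.lg (0, x)) (by linarith [show ‖x‖ < r from h.2.1])
    rw [k1, sub_zero, norm_sub_rev] at k3
    have k4 := mul_le_mul_of_nonneg_left (pow_le_pow_left₀ (norm_nonneg _) k2 2) C0
    exact ⟨by nlinarith [sq_nonneg ‖x‖], k2⟩
  · obtain ⟨b1, b2⟩ := le_min_iff.1
      ((h0 _ ((le_of_max_le_left hρ).trans (L.sub m0).le)).trans (min_le_right _ _))
    have k2 := (L.geo.ex_lg _ (mem_ball_zero_iff.2 (p_lt m0)) x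
      (mem_ball_zero_iff.2 (h.trans_le b2))).2
    refine ⟨m0, h.trans_le b2, (((lo m0 0).2 (L.lg (L.p τ₀, x))).trans_lt ?_).trans_eq
      (sq_rpow (x := -(2 * e)) a0 (by ring))⟩
    have k3 := pow_le_pow_left₀ (norm_nonneg _) k2 2
    have k4 := pow_lt_pow_left₀ h (norm_nonneg _) two_ne_zero
    have k5 := (le_div_iff₀ (by positivity)).1 b1
    have k6 := Real.rpow_pos_of_pos a0 (-(2 * e))
    rw [show x - L.p τ₀ = x by rw [L.p0, sub_zero]] at k3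
    have k7 := mul_le_mul_of_nonneg_left k3 (mul_pos (one_pos.trans_le K1) k6).le
    nlinarith [sq_nonneg ‖x‖]

end Vale.Agent.P253W.Y
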