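import Vale.Agent.P253W.Y.Defs

/-!
# P253W, block Y: the tube
-/

open scoped Manifold ContDiff Bundle ENNReal Topology Matrix
open Bundle IsManifold MeasureTheory Set Metric Filter Vale.Agent.P253.Mfd Vale.Agent.P253Z
open Vale.Agent.P272.K (Cm dz)

noncomputable section

namespace Vale.Agent.P253W.Y

namespace FinL

theorem dn_congr {n : ℕ} {M : Type} [MetricSpace M] [ChartedSpace (Cm n) M] {Φ Ψ : Cm n → M}
    {y : Cm n} (h : Φ =ᶠ[𝓝 y] Ψ) (v : Cm n) : dn Φ y v = dn Ψ y v := by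
  have h1 : jm Φ y = jm Ψ y := by
    ext p i
    have h2 : (fun x => pc n (Φ y) (Φ x) p) =ᶠ[𝓝 y] fun x => pc n (Ψ y) (Ψ x) p := by
      filter_upwards [h] with x hx
      rw [hx, h.eq_of_nhds]
    simp only [jm, Matrix.of_apply, dz, h2.fderiv_eq]
  rw [dn, dn, h1]

theorem big {η : ℝ} (hη : 0 < η) (a : ℝ) : ∃ ρ : ℝ, ∀ x : ℝ, ρ < x → a ≤ x ^ η := by
  obtain ⟨ρ, h⟩ := eventually_atTop.1 ((tendsto_rpow_atTop hη).eventually_ge_atTop a)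
  exact ⟨ρ, fun x hx => h x hx.le⟩

theorem wn_nn {n : ℕ} (k : Fin n → ℝ) (τ : ℂ) (c : Cm n) : 0 ≤ wn k τ c :=
  Finset.sum_nonneg fun _ _ => by positivity

theorem lg {x : ℝ} (hx : 8 < x) (C : ℝ) : C * (1 + Real.log (1 + x)) ≤ 3 * |C| * Real.log x := by
  have h1 : 1 ≤ Real.log x := by
    rw [Real.le_log_iff_exp_le (by linarith)]
    linarith [Real.exp_one_lt_d9]
  have h2 : Real.log (1 + x) ≤ 2 * Real.log x := by
    rw [show 2 * Real.log x = Real.log (x ^ 2) by simp]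
    exact Real.log_le_log (by linarith) (by nlinarith)
  have h3 : 0 ≤ Real.log (1 + x) := Real.log_nonneg (by linarith)
  nlinarith [le_abs_self C, abs_nonneg C]

theorem chain {a w w' p q r : ℝ} (ha : 4 ≤ a) (hw : 0 ≤ w) (h1 : w ≤ 4 * w') (h2 : w' ≤ 4 * w)
    (h3 : a⁻¹ * w' ≤ p) (h4 : p ≤ a * w') (h5 : p ≤ a * q) (h6 : q ≤ a * p) (hr : r = a * a * a) :
    r⁻¹ * w ≤ q ∧ q ≤ r * w := by
  have h0 : 0 < a := by linarith
  rw [inv_mul_le_iff₀ h0] at h3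
  have hw' : 0 ≤ w' := by linarith
  subst hr
  constructor
  · rw [inv_mul_le_iff₀ (by positivity)]
    calc w ≤ a * w' := by nlinarith
      _ ≤ a * (a * p) := by gcongr
      _ ≤ a * (a * (a * q)) := by gcongr
      _ = _ := by ring
  · calc q ≤ a * (a * w') := h6.trans (by gcongr)
      _ ≤ a * (a * (a * w)) := by gcongr; nlinarith
      _ = _ := by ring

end FinL

open FinL

theorem fin : FIN := by
  intro n M _ _ _ _ _ _ _ _ _ _ _ _ μ F A T p tr f ν θ t C ρ ρ' ε Ψ B E X hf hF met uu inj hΨ hρ hL hO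
    hε hk
  obtain ⟨ρ₁, h₁⟩ := inj t C ρ B.e Ψ hΨ
  have hge := hO.ge
  have e1 : ∀ τ : ℂ, ρ' < ‖τ‖ → τ ∈ ex B.ρ := fun τ h => hge.trans_lt h
  have e2 : ∀ τ : ℂ, ρ' < ‖τ‖ → τ ∈ ex ρ := fun τ h => (hρ.trans hge).trans_lt h
  have src : ∀ τ : ℂ, ρ' < ‖τ‖ → ∀ y ∈ Flow.sl B.k ε τ, X (τ, y) ∈ (B.A.e (B.ix τ)).source := by
    intro τ hτ y hy
    exact (hO.hol τ hτ y hy).2.self_of_nhds
  have loc : ∀ τ : ℂ, ρ' < ‖τ‖ → ∀ y ∈ Flow.sl B.k ε τ, ∀ᶠ q in 𝓝 (τ, y),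
      E (X q) = Ψ τ (B.A.e (B.ix τ) (X q)).2 := by
    intro τ hτ y hy
    filter_upwards [(hO.hol τ hτ y hy).2] with q hq
    exact (hL.E_eq τ (e1 τ hτ) _ hq).2
  have val : ∀ τ : ℂ, ρ' < ‖τ‖ → ∀ y ∈ Flow.sl B.k ε τ,
      (B.A.e (B.ix τ) (X (τ, y))).2 ∈ ball (0 : Cm n) 1 ∧
        E (X (τ, y)) = Ψ τ (B.A.e (B.ix τ) (X (τ, y))).2 :=
    fun τ hτ y hy => hL.E_eq τ (e1 τ hτ) _ (src τ hτ y hy)
  refine ⟨⟨B.k, ε, max ρ' ρ₁, fun τ y => E (X (τ, y)), hε, hk, hF.le,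
    B.ρ_ge.trans (hge.trans (le_max_left _ _)), ?_, ?_, ?_, ?_, ?_, ?_⟩⟩
  · rintro ⟨τ, y⟩ ⟨hτ, hy⟩
    have hτ' : ρ' < ‖τ‖ := (le_max_left _ _).trans_lt hτ
    refine MDifferentiableAt.mdifferentiableWithinAt ?_
    refine MDifferentiableAt.congr_of_eventuallyEq ?_ (loc τ hτ' y hy)
    have h1 := (hΨ.imm τ (e2 τ hτ')).1.mdifferentiableAt (isOpen_ball.mem_nhds (val τ hτ' y hy).1)
    have h2 : MDifferentiableAt 𝓘(ℂ, ℂ × Cm n) 𝓘(ℂ, Cm n) (fun q => (B.A.e (B.ix τ) (X q)).2) (τ, y) :=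
      (hO.hol τ hτ' y hy).1.differentiableAt.snd.mdifferentiableAt
    exact h1.comp (τ, y) h2
  · intro τ hτ
    have hτ' : ρ' < ‖τ‖ := (le_max_left _ _).trans_lt hτ
    have h0 : (0 : Cm n) ∈ Flow.sl B.k ε τ := fun i => by
      have : 0 < ‖τ‖ := by linarith [B.ρ_ge]
      simpa using Real.rpow_pos_of_pos this _
    have h1 := src τ hτ' 0 h0
    have h2 := (val τ hτ' 0 h0).2
    rw [hO.zero τ hτ'] at h1 h2
    have h3 := ((B.fib τ (e1 τ hτ')).dir 0 h1).2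
    rw [Matrix.zero_vecMul, norm_zero, mul_zero, norm_le_zero_iff] at h3
    rw [hO.zero τ hτ', h2, h3, hΨ.zero τ (e2 τ hτ')]
  · intro τ hτ y hy y' hy' h
    have hτ' : ρ' < ‖τ‖ := (le_max_left _ _).trans_lt hτ
    have h1 : Ψ τ (B.A.e (B.ix τ) (X (τ, y))).2 = Ψ τ (B.A.e (B.ix τ) (X (τ, y'))).2 :=
      (val τ hτ' y hy).2.symm.trans (h.trans (val τ hτ' y' hy').2)
    have h2 := h₁ τ ((le_max_right _ _).trans_lt hτ) (mem_closedBall_zero_iff.2 (hO.mem τ hτ' y hy).2.2)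
      (mem_closedBall_zero_iff.2 (hO.mem τ hτ' y' hy').2.2) h1
    have h3 := (B.reg (B.ix τ)).fst _ (src τ hτ' y hy)
    have h4 := (B.reg (B.ix τ)).fst _ (src τ hτ' y' hy')
    rw [(hO.mem τ hτ' y hy).2.1] at h3
    rw [(hO.mem τ hτ' y' hy').2.1] at h4
    exact hO.inj τ hτ' hy hy' ((B.A.e (B.ix τ)).injOn (src τ hτ' y hy) (src τ hτ' y' hy')
      (Prod.ext (h3.trans h4.symm) h2))
  · intro η hη
    have hη' : 0 < η / 3 := by positivity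
    obtain ⟨a₁, k₁⟩ := met t C ρ B.e Ψ hΨ _ hη'
    obtain ⟨a₂, k₂⟩ := hF.met _ hη'
    obtain ⟨a₃, k₃⟩ := big hη' 4
    refine ⟨max (max ρ' a₁) (max a₂ a₃), fun τ hτ y hy v => ?_⟩
    simp only [max_lt_iff] at hτ
    obtain ⟨⟨hτ', b₁⟩, b₂, b₃⟩ := hτ
    have hp : 0 < ‖τ‖ := by linarith [B.ρ_ge]
    have h1 : (fun y' => E (X (τ, y'))) =ᶠ[𝓝 y] fun y' => Ψ τ (B.A.e (B.ix τ) (X (τ, y'))).2 :=
      (Continuous.prodMk_right τ).continuousAt.eventually (loc τ hτ' y hy)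
    have h2 : DifferentiableAt ℂ (fun y' => (B.A.e (B.ix τ) (X (τ, y'))).2) y :=
      ((hO.hol τ hτ' y hy).1.differentiableAt.snd).comp y
        ((differentiableAt_const τ).prodMk differentiableAt_id)
    rw [dn_congr h1, tr.chain _ _ _ _ (hΨ.imm τ (e2 τ hτ')) h2 (val τ hτ' y hy).1,
      (val τ hτ' y hy).2]
    obtain ⟨h3, h4⟩ := hO.met τ hτ' y hy v _ rfl
    generalize fderiv ℂ (fun y' => (B.A.e (B.ix τ) (X (τ, y'))).2) y v = x at h3 h4 ⊢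
    obtain ⟨⟨h5, h6⟩, -⟩ := k₁ τ b₁ _ (val τ hτ' y hy).1 x
    obtain ⟨h7, h8⟩ := k₂ τ b₂ (x ᵥ* (B.Θ τ)⁻¹)
    rw [← hL.Θ τ (e1 τ hτ'), Matrix.vecMul_vecMul,
      Matrix.nonsing_inv_mul _ (Ne.isUnit (B.fib τ (e1 τ hτ')).det), Matrix.vecMul_one] at h7 h8
    rw [Real.rpow_neg hp.le] at h7 ⊢
    refine chain (k₃ _ b₃) (wn_nn _ _ _) h3 h4 h7 h8 h5 h6 ?_
    rw [← Real.rpow_add hp, ← Real.rpow_add hp]
    congr 1; ring
  · intro η hη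
    obtain ⟨a₁, k₁⟩ := uu t C ρ B.e Ψ hΨ _ hη
    refine ⟨max ρ' a₁, fun τ hτ y hy => ?_⟩
    have hτ' : ρ' < ‖τ‖ := (le_max_left _ _).trans_lt hτ
    rw [(val τ hτ' y hy).2]
    exact k₁ τ ((le_max_right _ _).trans_lt hτ) _ (hO.mem τ hτ' y hy).2.2
  · intro φ hφ
    obtain ⟨φ', h1, h2⟩ := p.ball t (by linarith [hΨ.t_mem.1]) φ hφ
    obtain ⟨c, hc⟩ := hf.tm φ' h1
    refine ⟨3 * |c|, ρ', fun τ hτ y hy => ?_⟩
    have h3 : ρ < ‖τ‖ := e2 τ hτ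
    rw [(val τ hτ y hy).2]
    exact (h2 _ _ (hΨ.near τ h3 _ (val τ hτ y hy).1)).trans
      ((hc τ).trans (lg (hΨ.ρ_ge.trans_lt h3) c))

end Vale.Agent.P253W.Y
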