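import Vale.Agent.P253W.Y.HordA

/-!
# P253W, block Y: the theorem of Hörmander on an abstract atlas
-/

open scoped ContDiff ENNReal Topology
open MeasureTheory Set Metric Filter
open Vale.Agent.P253.R2.H451 (levi2)
open Vale.Agent.P272.K (Cm)

noncomputable section

namespace Vale.Agent.P253W.Y

namespace Hd

variable {E E' : Type} [NormedAddCommGroup E] [NormedSpace ℂ E] [NormedAddCommGroup E']
  [NormedSpace ℂ E']

theorem fd_lin {V : Type} [NormedAddCommGroup V] [NormedSpace ℝ V] (R : E' →L[ℂ] E) {q : E → V}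
    {q' : E' → V} {p : E'} (e : q' =ᶠ[𝓝 p] q ∘ R) (hq : DifferentiableAt ℝ q (R p)) :
    fderiv ℝ q' p = (fderiv ℝ q (R p)).comp (R.restrictScalars ℝ) :=
  e.fderiv_eq.trans (hq.hasFDerivAt.comp p (R.restrictScalars ℝ).hasFDerivAt).fderiv

theorem levi_lin (R : E' →L[ℂ] E) {q : E → ℝ} {q' : E' → ℝ} {p : E'} (e : q' =ᶠ[𝓝 p] q ∘ R)
    (hq : ContDiffAt ℝ 2 q (R p)) (k : E') : levi2 q' p k = levi2 q (R p) (R k) := by
  have h1 : fderiv ℝ q' =ᶠ[𝓝 p] fun y => (fderiv ℝ q (R y)).comp (R.restrictScalars ℝ) := by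
    filter_upwards [e.eventually_nhds, R.continuous.continuousAt.eventually
      (hq.eventually (by simp))] with y h1 h2 using fd_lin R h1 (h2.differentiableAt (by simp))
  have h2 := (((hq.fderiv_right (m := 1) le_rfl).differentiableAt (by simp)).hasFDerivAt.comp p
    (R.restrictScalars ℝ).hasFDerivAt).clm_comp (hasFDerivAt_const (R.restrictScalars ℝ) p)
  unfold levi2
  rw [h1.fderiv_eq.trans h2.fderiv]
  simp

variable [MeasureSpace E] [MeasureSpace E'] {X : Type} [TopologicalSpace X] [MeasurableSpace X]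
  {N : Set X} (A : Atl E X N) (L : E ≃L[ℂ] E') (x₀ : N)

open Classical in
/-- the charts of the subtype -/
def ch (i : A.I) : OpenPartialHomeomorph N E' where
  toFun x := L (A.e i x)
  invFun z := if h : (A.e i).symm (L.symm z) ∈ N then ⟨_, h⟩ else x₀
  source := Subtype.val ⁻¹' (A.e i).source
  target := L.symm ⁻¹' (A.e i).target
  map_source' x hx := by simpa using (A.e i).map_source hx
  map_target' z hz := by
    rw [dif_pos (A.sub i ((A.e i).map_target hz))]
    exact (A.e i).map_target hz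
  left_inv' x hx := by simp [(A.e i).left_inv hx]
  right_inv' z hz := by
    rw [dif_pos (A.sub i ((A.e i).map_target hz)), (A.e i).right_inv hz, L.apply_symm_apply]
  open_source := (A.e i).open_source.preimage continuous_subtype_val
  open_target := (A.e i).open_target.preimage L.symm.continuous
  continuousOn_toFun := L.continuous.comp_continuousOn
    ((A.e i).continuousOn.comp continuous_subtype_val.continuousOn fun _ h => h)
  continuousOn_invFun := Topology.IsInducing.subtypeVal.continuousOn_iff.2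
    (((A.e i).continuousOn_symm.comp L.symm.continuous.continuousOn fun _ h => h).congr
      fun z hz => congrArg Subtype.val (dif_pos (A.sub i ((A.e i).map_target hz))))

variable {A L x₀}

omit [MeasureSpace E'] in
theorem ch_symm {i : A.I} {z : E'} (hz : z ∈ (ch A L x₀ i).target) :
    ((ch A L x₀ i).symm z : X) = (A.e i).symm (L.symm z) :=
  congrArg Subtype.val (dif_pos (A.sub i ((A.e i).map_target hz)))

omit [MeasureSpace E'] in
theorem ch_near {V : Type} (f : X → V) {i : A.I} {z : E'} (hz : z ∈ (ch A L x₀ i).target) :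
    (fun y => f ((ch A L x₀ i).symm y)) =ᶠ[𝓝 z] A.c f i ∘ (L.symm : E' →L[ℂ] E) :=
  mem_of_superset ((ch A L x₀ i).open_target.mem_nhds hz) fun _ hy => congrArg f (ch_symm hy)

variable [BorelSpace X] [BorelSpace E] (hN : IsOpen N) {c : ℝ} (hc : 0 < c)
  (hL : ∀ f : E → ℝ≥0∞, ∫⁻ z, f z = ∫⁻ z, ENNReal.ofReal (c ^ 2) * f (L.symm z)) [BorelSpace E']

variable (A x₀) in
/-- the atlas of the subtype -/
def tr : Atl E' N univ where
  I := A.I
  e := ch A L x₀
  w i z := c * A.w i (L.symm z)
  ν := A.ν.comap Subtype.val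
  sub _ := subset_univ _
  cover x _ := A.cover x x.2
  hol i j z hz h := ((L.analyticAt _).comp ((A.hol i j _ hz (ch_symm hz ▸ h)).comp
    (L.symm.analyticAt z))).congr (ch_near (fun x => L (A.e j x)) hz).symm
  an i z hz := ⟨analyticAt_const.mul ((A.an i _ hz).1.comp (L.symm.analyticAt z)),
    mul_ne_zero (Complex.ofReal_ne_zero.2 hc.ne') (A.an i _ hz).2⟩
  ch i j x hi hj := by
    have h1 := A.hol i j _ ((A.e i).map_source hi) (by rwa [(A.e i).left_inv hi])
    have h2 : HasFDerivAt (fun z => A.e j ((A.e i).symm z))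
        (fderiv ℂ (fun z => A.e j ((A.e i).symm z)) (A.e i x)) (L.symm (L (A.e i x))) := by
      rw [L.symm_apply_apply]
      exact h1.differentiableAt.hasFDerivAt
    have h3 := ((ch_near (fun x => L (A.e j x)) ((ch A L x₀ i).map_source hi)).fderiv_eq
      (𝕜 := ℂ)).trans (L.hasFDerivAt.comp _ (h2.comp _ L.symm.hasFDerivAt)).fderiv
    change c * A.w i (L.symm (L (A.e i x))) = (fderiv ℂ (fun y => L (A.e j ((ch A L x₀ i).symm y)))
      (ch A L x₀ i x)).det * (c * A.w j (L.symm (L (A.e j x))))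
    rw [h3, L.symm_apply_apply, L.symm_apply_apply, A.ch i j x hi hj, mul_left_comm]
    congr 1
    exact (LinearMap.det_conj _ L.toLinearEquiv).symm
  hν i f hf h0 := by
    have he := MeasurableEmbedding.subtype_coe hN.measurableSet
    have e : ∀ x : N, Function.extend Subtype.val f 0 x = f x :=
      Subtype.val_injective.extend_apply f 0
    have e0 : ∀ x ∉ (A.e i).source, Function.extend Subtype.val f 0 x = 0 := fun x hx => by
      by_cases h : x ∈ N
      · exact (e ⟨x, h⟩).trans (h0 _ hx)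
      · exact Function.extend_apply' _ _ _ fun ⟨y, hy⟩ => h (hy ▸ y.2)
    rw [← lintegral_congr e, lintegral_subtype_comap hN.measurableSet,
      ← lintegral_indicator hN.measurableSet, indicator_eq_self.2 fun x hx =>
        A.sub i (by_contra fun h => hx (e0 x h)), A.hν i _ (he.measurable_extend hf measurable_zero)
        e0, ← lintegral_indicator (A.e i).open_target.measurableSet, hL,
      ← lintegral_indicator (ch A L x₀ i).open_target.measurableSet]
    refine lintegral_congr fun z => ?_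
    by_cases hz : z ∈ (ch A L x₀ i).target
    · rw [indicator_of_mem hz, indicator_of_mem (s := (A.e i).target) hz, ← ch_symm hz, e, norm_mul,
        mul_pow, Complex.norm_real, Real.norm_eq_abs, sq_abs, ENNReal.ofReal_mul (sq_nonneg _),
        mul_left_comm]
    · rw [indicator_of_notMem hz, indicator_of_notMem (s := (A.e i).target) hz, mul_zero]

variable {hN hc hL}

theorem tr_sm {V : Type} [NormedAddCommGroup V] [NormedSpace ℝ V] {f : X → V} (h : A.Sm f) :
    (tr A x₀ hN hc hL).Sm fun x => f x := fun i z hz =>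
  ((h i _ hz).comp z ((L.symm : E' →L[ℂ] E).restrictScalars ℝ).contDiff.contDiffAt
    ).congr_of_eventuallyEq (ch_near f hz)

theorem tr_fd {V : Type} [NormedAddCommGroup V] [NormedSpace ℝ V] {f : X → V} (h : A.Sm f)
    {i : A.I} {z : E'} (hz : z ∈ (ch A L x₀ i).target) (v : E') :
    fderiv ℝ ((tr A x₀ hN hc hL).c (fun x => f x) i) z v =
      fderiv ℝ (A.c f i) (L.symm z) (L.symm v) :=
  DFunLike.congr_fun (fd_lin _ (ch_near f hz) ((h i _ hz).differentiableAt (by simp))) v

theorem tr_levi {f : X → ℝ} (h : A.Sm f) {i : A.I} {z : E'} (hz : z ∈ (ch A L x₀ i).target)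
    (v : E') : levi2 ((tr A x₀ hN hc hL).c (fun x => f x) i) z v =
      levi2 (A.c f i) (L.symm z) (L.symm v) :=
  levi_lin _ (ch_near f hz) ((h i _ hz).of_le two_le) v

theorem tr_l2 (s : X → ℂ) (φ : X → ℝ) :
    (tr A x₀ hN hc hL).L2 (fun x => s x) (fun x => φ x) = A.L2 s φ := by
  unfold Atl.L2
  rw [Measure.restrict_univ]
  exact lintegral_subtype_comap hN.measurableSet fun x => ENNReal.ofReal (‖s x‖ ^ 2 * Real.exp (-φ x))

theorem tr_hol {s : X → ℂ} (h : (tr A x₀ hN hc hL).Hol fun x => s x) : A.Hol s := fun i z hz => by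
  have hz' : L z ∈ (ch A L x₀ i).target := by simpa [ch] using hz
  simpa [Function.comp_def] using ((h i _ hz').congr (ch_near s hz')).comp (L.analyticAt z)

theorem tr_cpl (h : A.Cpl) : (tr A x₀ hN hc hL).Cpl := by
  obtain ⟨ψ, η, h1, h2, h3, h4, h5⟩ := h
  refine ⟨fun x => ψ x, fun x => η x, tr_sm h1, tr_sm h2, fun x _ => h3 x x.2, fun a => ?_,
    fun i z hz v hv => ?_⟩
  · rw [Subtype.isCompact_iff]
    convert h4 a using 1
    ext x
    simp [and_comm]
  · rw [tr_levi h1 hz, tr_fd h2 hz]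
    exact h5 i _ hz _ (L.symm.map_ne_zero_iff.2 hv)

end Hd

open Hd in
/-- **HORD** -/
theorem hord : HORD := by
  intro E _ _ _ _ _ _ _ X _ _ _ _ N hN A hC φ Λ s₀ C₀ h1 h2 _ h4 h5 h6 h7 h8
  rcases N.eq_empty_or_nonempty with rfl | ⟨x₀, hx₀⟩
  · exact ⟨s₀, fun i z hz => (A.sub i ((A.e i).map_target hz)).elim, by simp [Atl.L2]⟩
  obtain ⟨r, hr⟩ := Nat.exists_eq_add_of_le' (Module.finrank_pos (R := ℂ) (M := E))
  let L : E ≃L[ℂ] Cm (r + 1) := .ofFinrankEq (by simpa using hr)
  have := L.symm.isAddHaarMeasure_map volume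
  have := FiniteDimensional.proper_rclike ℂ E
  set k := Measure.addHaarScalarFactor (volume : Measure E) (Measure.map L.symm volume) with hk
  have k0 : 0 < k := Measure.addHaarScalarFactor_pos_of_isAddHaarMeasure _ _
  have hL : ∀ f : E → ℝ≥0∞, ∫⁻ z, f z = ∫⁻ z, ENNReal.ofReal (√k ^ 2) * f (L.symm z) := fun f => by
    rw [Measure.isAddLeftInvariant_eq_smul (volume : Measure E) (Measure.map L.symm volume),
      lintegral_smul_measure, Real.sq_sqrt k.coe_nonneg, ENNReal.ofReal_coe_nnreal,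
      lintegral_const_mul' _ _ ENNReal.coe_ne_top]
    exact congrArg _ (L.symm.toHomeomorph.measurableEmbedding.lintegral_map f)
  have hc : 0 < √(k : ℝ) := Real.sqrt_pos.2 k0
  obtain ⟨s, a1, a2⟩ := hord_cm (tr A ⟨x₀, hx₀⟩ hN hc hL) (tr_cpl hC) (φ := fun x => φ x)
    (Λ := fun x => Λ x) (s₀ := fun x => s₀ x) (C₀ := C₀)
    ⟨tr_sm h1.1, fun i z hz v => (tr_levi h1.1 hz v).symm ▸ h1.2 i _ hz _⟩ (tr_sm h2)
    (fun x => h4 x x.2) h5 (fun i z hz v => by
      rw [tr_fd h2 hz, tr_fd h2 hz, tr_levi h1.1 hz, map_smul]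
      exact (h6 i _ hz _).trans_eq (by simp only [Atl.c, ← ch_symm (x₀ := ⟨x₀, hx₀⟩) hz]; rfl))
    ((lintegral_subtype_comap hN.measurableSet fun x => ENNReal.ofReal (Λ x)).trans_le h7)
    ((tr_l2 s₀ φ).trans_lt h8)
  obtain ⟨s', rfl⟩ : ∃ s' : X → ℂ, s = fun x : N => s' x :=
    ⟨Function.extend Subtype.val s 0, funext fun x =>
      (Subtype.val_injective.extend_apply s 0 x).symm⟩
  exact ⟨s', tr_hol a1, (tr_l2 (s' - s₀) φ).symm.trans_le a2⟩

end Vale.Agent.P253W.Y
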