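import Vale.Agent.P253W.Y.Hord
import Vale.Agent.P281.H124.Mean
import Vale.Agent.P299.H720.Montel

/-!
# P253W, block Y: the theorem of Hörmander for data which are not square integrable
-/

open scoped ContDiff ENNReal Topology
open MeasureTheory Set Metric Filter
open Vale.Agent.P253.R2.H451 (levi2)

set_option linter.all false

noncomputable section

namespace Vale.Agent.P253W.Y

namespace Horl

variable {E : Type} [NormedAddCommGroup E] [NormedSpace ℂ E]

theorem levi2_lin {f g : E → ℝ} {z : E} (hf : ContDiffAt ℝ 2 f z) (hg : ContDiffAt ℝ 2 g z)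
    (a : ℝ) (v : E) : levi2 (fun y => f y + a * g y) z v = levi2 f z v + a * levi2 g z v := by
  have h1 : fderiv ℝ (fun y => f y + a * g y) =ᶠ[𝓝 z] fun y => fderiv ℝ f y + a • fderiv ℝ g y := by
    filter_upwards [hf.eventually (by simp), hg.eventually (by simp)] with y h2 h3
    exact ((h2.differentiableAt two_ne_zero).hasFDerivAt.add
      ((h3.differentiableAt two_ne_zero).hasFDerivAt.const_mul a)).fderiv
  have d : ∀ {u : E → ℝ}, ContDiffAt ℝ 2 u z → DifferentiableAt ℝ (fderiv ℝ u) z := fun hu =>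
    (hu.fderiv_right (m := 1) (by norm_num)).differentiableAt one_ne_zero
  unfold levi2
  rw [h1.fderiv_eq, ((d hf).hasFDerivAt.fun_add ((d hg).hasFDerivAt.fun_const_smul a)).fderiv]
  simp only [add_apply, smul_apply, smul_eq_mul]
  ring

variable [MeasureSpace E] {X : Type} [TopologicalSpace X] [MeasurableSpace X] {N : Set X}
  {A : Atl E X N}

theorem contOn {V : Type} [TopologicalSpace V] {f : X → V}
    (h : ∀ i, ∀ z ∈ (A.e i).target, ContinuousAt (A.c f i) z) : ContinuousOn f N := by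
  intro x hx
  obtain ⟨i, hi⟩ := A.cover x hx
  refine ContinuousAt.continuousWithinAt ?_
  refine ((h i _ ((A.e i).map_source hi)).comp ((A.e i).continuousAt hi)).congr ?_
  filter_upwards [(A.e i).open_source.mem_nhds hi] with y hy
  simp only [Function.comp, Atl.c, (A.e i).left_inv hy]

theorem cont_sm {V : Type} [NormedAddCommGroup V] [NormedSpace ℝ V] {f : X → V} (h : A.Sm f) :
    ContinuousOn f N := contOn fun i z hz => (h i z hz).continuousAt

theorem cont_int {s s₀ : X → ℂ} {ψ : X → ℝ} (hs : ContinuousOn s N) (h0 : ContinuousOn s₀ N)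
    (hψ : ContinuousOn ψ N) :
    ContinuousOn (fun x => ENNReal.ofReal (‖(s - s₀) x‖ ^ 2 * Real.exp (-ψ x))) N :=
  ENNReal.continuous_ofReal.comp_continuousOn (((hs.sub h0).norm.pow 2).mul hψ.neg.rexp)

variable [FiniteDimensional ℂ E] [BorelSpace E] [(volume : Measure E).IsAddHaarMeasure]
  [BorelSpace X]

/-- an `L²` bound gives local bounds -/
theorem loc_bdd {ψ : X → ℝ} {s₀ : X → ℂ} (hψ : ContinuousOn ψ N) (h0 : ContinuousOn s₀ N) (C₀ : ℝ)
    (i : A.I) {z₀ : E} (hz : z₀ ∈ (A.e i).target) : ∃ r > 0, ∃ C : ℝ, ball z₀ r ⊆ (A.e i).target ∧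
      ∀ s, A.Hol s → A.L2 (s - s₀) ψ ≤ ENNReal.ofReal C₀ → ∀ y ∈ ball z₀ r, ‖A.c s i y‖ ≤ C := by
  classical
  have : ProperSpace E := FiniteDimensional.proper ℂ E
  have hm : MapsTo (A.e i).symm (A.e i).target N := fun z hz => A.sub i ((A.e i).map_target hz)
  have ht := (A.e i).open_target.mem_nhds hz
  have c1 : ContinuousAt (fun z => Real.exp (-ψ ((A.e i).symm z)) * ‖A.w i z‖ ^ 2) z₀ :=
    ((hψ.comp (A.e i).continuousOn_symm hm).continuousAt ht).neg.rexp.mul
      ((A.an i z₀ hz).1.continuousAt.norm.pow 2)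
  have c2 : ContinuousAt (fun z => ‖s₀ ((A.e i).symm z)‖) z₀ :=
    ((h0.comp (A.e i).continuousOn_symm hm).continuousAt ht).norm
  obtain ⟨c, hc, hc'⟩ := exists_between (show 0 < Real.exp (-ψ ((A.e i).symm z₀)) * ‖A.w i z₀‖ ^ 2
    from mul_pos (Real.exp_pos _) (pow_pos (norm_pos_iff.2 (A.an i z₀ hz).2) 2))
  obtain ⟨b, hb⟩ := exists_gt ‖s₀ ((A.e i).symm z₀)‖
  obtain ⟨ρ, hρ, hB⟩ := Metric.eventually_nhds_iff_ball.1 ((Filter.eventually_mem_set.2 ht).and
    ((continuousAt_const.eventually_lt c1 hc').and (c2.eventually_lt continuousAt_const hb)))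
  set T : ℝ≥0∞ := ENNReal.ofReal (2 / c) * ENNReal.ofReal C₀ +
    ENNReal.ofReal (2 * b ^ 2) * volume (ball z₀ ρ) with hT
  have hV : volume (ball (0 : E) (ρ / 2)) ≠ 0 := (measure_ball_pos _ _ (half_pos hρ)).ne'
  have hQ : T / volume (ball (0 : E) (ρ / 2)) ≠ ⊤ :=
    ENNReal.div_ne_top (by have := @measure_ball_lt_top E _ _ _ volume _ z₀ ρ; finiteness) hV
  refine ⟨ρ / 2, half_pos hρ, 1 + (T / volume (ball (0 : E) (ρ / 2))).toReal,
    fun y hy => (hB y (ball_subset_ball (half_le_self hρ.le) hy)).1, fun s hs hl y hy => ?_⟩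
  have hsub : ball y (ρ / 2) ⊆ ball z₀ ρ :=
    ball_subset_ball' (by linarith [mem_ball.1 hy])
  have sc : ContinuousOn s N := contOn fun i z hz => (hs i z hz).continuousAt
  have ms := (A.e i).open_source.measurableSet
  set f : X → ℝ≥0∞ := (A.e i).source.indicator
    fun x => ENNReal.ofReal (‖(s - s₀) x‖ ^ 2 * Real.exp (-ψ x)) with hf
  have fm : Measurable f :=
    ((cont_int sc h0 hψ).mono (A.sub i)).measurable_piecewise continuousOn_const ms
  have h1 := A.hν i f fm fun x hx => indicator_of_notMem hx _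
  have h2 : ∫⁻ x, f x ∂A.ν ≤ ENNReal.ofReal C₀ := by
    rw [hf, lintegral_indicator ms]
    exact (lintegral_mono_set (A.sub i)).trans hl
  have h3 := P281.H124.rpow_mul_volume_le volume (f := A.c s i) (z := y) (r := ρ / 2)
    (fun z hz => (hs i z (hB z (hsub hz)).1).differentiableAt.differentiableWithinAt) two_pos
  have h4 : ∫⁻ w in ball z₀ ρ, ‖A.c s i w‖ₑ ^ (2 : ℝ) ≤ T :=
    calc _ ≤ ∫⁻ w in ball z₀ ρ, (ENNReal.ofReal (2 / c) *
          (f ((A.e i).symm w) * ENNReal.ofReal (‖A.w i w‖ ^ 2)) + ENNReal.ofReal (2 * b ^ 2)) := by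
          refine setLIntegral_mono' isOpen_ball.measurableSet fun w hw => ?_
          obtain ⟨w1, w2, w3⟩ := hB w hw
          rw [hf, indicator_of_mem ((A.e i).map_target w1), ← ENNReal.ofReal_mul (by positivity),
            ← ENNReal.ofReal_mul (by positivity), ← ENNReal.ofReal_add (by positivity)
              (by positivity), ENNReal.rpow_two, ← ofReal_norm_eq_enorm,
            ← ENNReal.ofReal_pow (norm_nonneg _)]
          refine ENNReal.ofReal_le_ofReal ?_
          have a1 : ‖A.c s i w‖ ≤ ‖(s - s₀) ((A.e i).symm w)‖ + b :=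
            (norm_le_norm_sub_add _ (s₀ ((A.e i).symm w))).trans (by
              simp only [Atl.c, Pi.sub_apply]; linarith)
          have a2 := pow_le_pow_left₀ (norm_nonneg _) a1 2
          have a3 := mul_le_mul_of_nonneg_left w2.le
            (show 0 ≤ 2 / c * ‖(s - s₀) ((A.e i).symm w)‖ ^ 2 by positivity)
          rw [mul_right_comm, div_mul_cancel₀ _ hc.ne'] at a3
          nlinarith [sq_nonneg (‖(s - s₀) ((A.e i).symm w)‖ - b)]
      _ ≤ T := by
          rw [lintegral_add_right _ measurable_const, setLIntegral_const,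
            lintegral_const_mul' _ _ ENNReal.ofReal_ne_top, hT]
          gcongr
          exact (lintegral_mono_set fun w hw => (hB w hw).1).trans (h1.symm.trans_le h2)
  have h5 := (h3.trans (lintegral_mono_set hsub)).trans h4
  rw [Measure.addHaar_ball_center, ← ENNReal.le_div_iff_mul_le (.inl hV)
    (.inl measure_ball_lt_top.ne), ENNReal.rpow_two, ← ofReal_norm_eq_enorm,
    ← ENNReal.ofReal_pow (norm_nonneg _), ENNReal.ofReal_le_iff_le_toReal hQ] at h5
  nlinarith [sq_nonneg (‖A.c s i y‖ - 1), norm_nonneg (A.c s i y)]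

end Horl

open Horl in
/-- **HORL** -/
theorem horl : HORL := by
  intro H E _ _ _ _ _ _ _ X _ _ _ _ N hN A hc φ Λ κ s₀ C₀ hφ hs hΛ Λ0 hC hD hI hκ κ0 hL
  have : ProperSpace E := FiniteDimensional.proper ℂ E
  have hm : ∀ i, MapsTo (A.e i).symm (A.e i).target N :=
    fun i z hz => A.sub i ((A.e i).map_target hz)
  have φc := cont_sm hφ.1
  have κc := cont_sm hκ.1
  have sc := cont_sm hs
  have ex : ∀ δ : ℝ, 0 < δ → ∃ s, A.Hol s ∧
      A.L2 (s - s₀) (fun x => φ x + δ * κ x) ≤ ENNReal.ofReal C₀ := fun δ hδ => by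
    have lv : ∀ i, ∀ z ∈ (A.e i).target, ∀ v, levi2 (A.c (fun x => φ x + δ * κ x) i) z v =
        levi2 (A.c φ i) z v + δ * levi2 (A.c κ i) z v := fun i z hz v =>
      levi2_lin ((hφ.1 i z hz).of_le (by norm_cast)) ((hκ.1 i z hz).of_le (by norm_cast)) δ v
    refine H E X N hN A hc _ (fun x => Λ x * Real.exp (-(δ * κ x))) s₀ C₀
      ⟨fun i z hz => (hφ.1 i z hz).add (contDiffAt_const.mul (hκ.1 i z hz)), fun i z hz v => ?_⟩ hs
      (hΛ.mul (continuousOn_const.mul κc).neg.rexp)
      (fun x hx => mul_nonneg (Λ0 x hx) (Real.exp_pos _).le) hC (fun i z hz v => ?_)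
      ((setLIntegral_mono' hN.measurableSet fun x hx => ENNReal.ofReal_le_ofReal ?_).trans hI)
      (hL δ hδ)
    · rw [lv i z hz]
      exact add_nonneg (hφ.2 i z hz v) (mul_nonneg hδ.le (hκ.2 i z hz v))
    · refine (hD i z hz v).trans ?_
      rw [lv i z hz]
      have e : A.c (fun x => Λ x * Real.exp (-(δ * κ x))) i z *
          Real.exp (A.c (fun x => φ x + δ * κ x) i z) = A.c Λ i z * Real.exp (A.c φ i z) := by
        simp only [Atl.c]
        rw [mul_assoc, ← Real.exp_add]
        congr 2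
        ring
      rw [e]
      exact mul_le_mul_of_nonneg_left (le_add_of_nonneg_right (mul_nonneg hδ.le (hκ.2 i z hz v)))
        (mul_nonneg (Λ0 _ (hm i hz)) (Real.exp_pos _).le)
    · exact mul_le_of_le_one_right (Λ0 x hx)
        (Real.exp_le_one_iff.2 (neg_nonpos.2 (mul_nonneg hδ.le (κ0 x hx))))
  choose s sh sl using fun j : ℕ => ex (1 / ((j : ℝ) + 1)) Nat.one_div_pos_of_nat
  have sl' : ∀ j, A.L2 (s j - s₀) (fun x => φ x + κ x) ≤ ENNReal.ofReal C₀ := fun j =>
    (setLIntegral_mono' hN.measurableSet fun x hx => ENNReal.ofReal_le_ofReal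
      (mul_le_mul_of_nonneg_left (Real.exp_le_exp.2 (neg_le_neg (add_le_add_right
        (mul_le_of_le_one_left (κ0 x hx) ((div_le_one (by positivity)).2 (by simp))) _)))
          (sq_nonneg _))).trans (sl j)
  have lb : ∀ i, P299.H720.LocBdd (hyperfilter ℕ : Filter ℕ) (fun j => A.c (s j) i)
      (A.e i).target := fun i z hz => by
    obtain ⟨r, hr, C, h1, h2⟩ := loc_bdd (A := A) (φc.add κc) sc C₀ i hz
    exact ⟨r, hr, C, .of_forall fun j => ⟨fun y hy =>
      (sh j i y (h1 hy)).differentiableAt.differentiableWithinAt, h2 _ (sh j) (sl' j)⟩⟩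
  choose g g1 g2 g3 using fun i =>
    P299.H720.montel_full (hyperfilter ℕ) (A.e i).open_target (lb i)
  set t : X → ℂ := fun x => limUnder (hyperfilter ℕ : Filter ℕ) fun j => s j x with ht
  have tg : ∀ i, ∀ z ∈ (A.e i).target, A.c t i z = g i z := fun i z hz =>
    ((g2 i).tendsto_at hz).limUnder_eq
  have th : A.Hol t := fun i z hz =>
    (P268.analyticAt_of_differentiableOn (A.e i).open_target (g1 i) hz).congr
      (mem_of_superset ((A.e i).open_target.mem_nhds hz) fun y hy => (tg i y hy).symm)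
  have lu : TendstoLocallyUniformlyOn s t (hyperfilter ℕ : Filter ℕ) N := by
    refine (tendstoLocallyUniformlyOn_iUnion (fun i => (A.e i).open_source) fun i => ?_).mono
      fun x hx => mem_iUnion.2 (A.cover x hx)
    refine (((g2 i).comp (A.e i) (A.e i).mapsTo (A.e i).continuousOn).congr
      fun j x hx => ?_).congr_right fun x hx => ?_
    · simp only [Function.comp, Atl.c, (A.e i).left_inv hx]
    · rw [Function.comp, ← tg i _ ((A.e i).map_source hx), Atl.c, (A.e i).left_inv hx]
  obtain ⟨-, η, -, -, -, hK, -⟩ := hc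
  have sub : ∀ k : ℕ, ∃ j, k ≤ j ∧ ∀ x ∈ N, η x ≤ k → dist (t x) (s j x) < 1 / ((k : ℝ) + 1) :=
    fun k => by
    have h1 := (tendstoLocallyUniformlyOn_iff_tendstoUniformlyOn_of_compact (hK k)).1
      (lu.mono fun x hx => hx.1)
    obtain ⟨j, j1, j2⟩ := (((eventually_ge_atTop k).filter_mono Nat.hyperfilter_le_atTop).and
      (Metric.tendstoUniformlyOn_iff.1 h1 _ Nat.one_div_pos_of_nat)).exists
    exact ⟨j, j1, fun x hx hx' => j2 x ⟨hx, hx'⟩⟩
  choose J J1 J2 using sub
  have t0 := tendsto_one_div_add_atTop_nhds_zero_nat (𝕜 := ℝ)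
  refine ⟨t, th, le_trans ?_ ((lintegral_liminf_le' (μ := A.ν.restrict N) (u := atTop)
    (f := fun k x => ENNReal.ofReal (‖(s (J k) - s₀) x‖ ^ 2 *
      Real.exp (-(φ x + 1 / ((J k : ℝ) + 1) * κ x)))) fun k => ?_).trans
        (liminf_le_of_frequently_le' (.of_forall fun k => sl (J k))))⟩
  · refine setLIntegral_mono' hN.measurableSet fun x hx => (Tendsto.liminf_eq ?_).ge
    have h1 : Tendsto (fun k => s (J k) x) atTop (𝓝 (t x)) := by
      rw [tendsto_iff_dist_tendsto_zero]
      refine squeeze_zero' (.of_forall fun _ => dist_nonneg) ?_ t0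
      filter_upwards [tendsto_natCast_atTop_atTop.eventually_ge_atTop (η x)] with k hk
      rw [dist_comm]
      exact (J2 k x hx hk).le
    have h2 := (t0.comp (tendsto_atTop_mono J1 tendsto_id)).mul_const (κ x)
    rw [zero_mul] at h2
    have h3 := ((h1.sub_const (s₀ x)).norm.pow 2).mul (h2.const_add (φ x)).neg.rexp
    rw [add_zero] at h3
    exact ENNReal.tendsto_ofReal h3
  · exact (cont_int (contOn fun i z hz => (sh (J k) i z hz).continuousAt) sc
      (φc.add (continuousOn_const.mul κc))).aemeasurable hN.measurableSet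

end Vale.Agent.P253W.Y
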