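import Vale.Agent.P253W.Y.Fin
import Vale.Agent.P253W.X.Lina
import Vale.Agent.P253W.C.Mer
import Vale.Agent.P253Z.B1a

/-!
# P253W, block Y: injectivity of the charts
-/

open scoped Manifold ContDiff Bundle ENNReal Topology Matrix ComplexOrder
open Bundle IsManifold MeasureTheory Set Metric Filter Vale.Agent.P253.Mfd Vale.Agent.P253Z
open Vale.Agent.P272.K (Cm dz)

noncomputable section

namespace Vale.Agent.P253W.Y

namespace InjL

theorem det_jc {n : ℕ} {φ : Cm n → Cm n} {y : Cm n} (h : DifferentiableAt ℂ φ y) :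
    (fderiv ℂ φ y).det = (jc φ y).det := by
  rw [ContinuousLinearMap.det, ← LinearMap.det_toMatrix']
  congr 1
  ext p i
  exact (B1aP.dz_comp h p i).symm

theorem one_le {x : ℝ} (hx : 8 < x) : 1 ≤ Real.log x := by
  rw [Real.le_log_iff_exp_le (by linarith)]
  linarith [Real.exp_one_lt_d9]

theorem rad {c e : ℝ} (hc : 0 < c) (he : 0 < e) (D : ℝ) (n : ℕ) : ∃ ρ : ℝ, ∀ x : ℝ, ρ < x →
    x ^ (-e) < c / (⌈D * Real.log x ^ n⌉₊ + 1) := by
  have h1 := ((isLittleO_log_rpow_rpow_atTop n he).const_mul_left D).def (half_pos hc)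
  obtain ⟨ρ, h⟩ := eventually_atTop.1 (h1.and (((tendsto_rpow_atTop he).eventually_gt_atTop
    (4 / c)).and (eventually_gt_atTop 0)))
  refine ⟨ρ, fun x hx => ?_⟩
  obtain ⟨h2, h3, h4⟩ := h x hx.le
  rw [Real.rpow_natCast, Real.norm_eq_abs, Real.norm_of_nonneg (by positivity)] at h2
  have h5 := (Nat.cast_le (α := ℝ).2 (Nat.ceil_mono (le_abs_self (D * Real.log x ^ n)))).trans_lt
    (Nat.ceil_lt_add_one (abs_nonneg _))
  rw [div_lt_iff₀ hc] at h3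
  rw [Real.rpow_neg h4.le, ← one_div, div_lt_div_iff₀ (by positivity) (by positivity)]
  linarith

variable {n : ℕ} {M : Type} [MetricSpace M] [ChartedSpace (Cm n) M] [IsManifold 𝓘(ℂ, Cm n) 1 M]
  [IsManifold 𝓘(ℝ, Cm n) ∞ M] [RiemannianBundle fun x : M => TangentSpace 𝓘(ℝ, Cm n) x]
  [IsContMDiffRiemannianBundle 𝓘(ℝ, Cm n) ∞ (Cm n) fun x : M => TangentSpace 𝓘(ℝ, Cm n) x]
  [IsRiemannianManifold 𝓘(ℝ, Cm n) M] [CompleteSpace M] [ConnectedSpace M] [NoncompactSpace M]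
  [MeasurableSpace M] [BorelSpace M] {μ : Measure M} {F : Flow n M} {A : Fam F} {T : F.TA μ}

theorem tame {a : M → ℂ} (ha : a ∈ T.A) : F.Tm T.ga fun x => Real.log (max ‖a x‖ 1) := by
  obtain ⟨h1, C, h2⟩ := (T.mem a).1 ha
  refine ⟨b1a.psh a h1 1 one_pos, |C|, fun x => ?_⟩
  have h3 := zero_le_one.trans (T.ga_one (F.r x))
  exact (Real.log_le_iff_le_exp (lt_max_of_lt_right one_pos)).2 (max_le ((h2 x).trans
    (Real.exp_le_exp.2 (mul_le_mul_of_nonneg_right (le_abs_self C) h3)))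
    (Real.one_le_exp (by positivity)))

theorem near (p : P3 A T) {f : ℂ → M} (hf : T.PC f) {a : M → ℂ} (ha : a ∈ T.A) {t : ℝ}
    (ht : 0 < t) : ∃ K : ℝ, 0 ≤ K ∧ ∀ τ : ℂ, 8 < ‖τ‖ → ∀ q, A.d t q (f τ) ≤ 1 →
      ‖a q‖ ≤ Real.exp (K * Real.log ‖τ‖) := by
  obtain ⟨φ, h1, h2⟩ := p.ball t ht _ (tame ha)
  obtain ⟨C, h3⟩ := hf.tm φ h1
  exact ⟨3 * |C|, by positivity, fun τ hτ q hq => (le_max_left _ 1).trans
    ((Real.log_le_iff_le_exp (lt_max_of_lt_right one_pos)).1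
      ((h2 _ q hq).trans ((h3 τ).trans (FinL.lg hτ C))))⟩

end InjL

open InjL

theorem inj : INJ := by
  intro n M _ _ _ _ _ _ _ _ _ _ _ _ μ F A T p hI hC hM tr f ν hf cv t C ρ e Ψ ch
  have ht : 0 < t := one_pos.trans_le ch.t_mem.1
  have hn : (1 : ℝ) ≤ n := Nat.one_le_cast.2 p.c.npos
  have he := ch.e_pos
  obtain ⟨C', c1, c2⟩ : ∃ C' : ℝ, 1 ≤ C' ∧ C ≤ C' := ⟨max 1 C, le_max_left _ _, le_max_right _ _⟩
  obtain ⟨c, hc, hI⟩ := hI (2 * C')
  obtain ⟨D, hD⟩ := hC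
  obtain ⟨z, hz, hJ⟩ := T.eta (f 0)
  have hz' := fun i => ((T.mem _).1 (hz i)).1
  have d0 : ∀ x, A.d t x x ≤ 1 := fun x => (dist_self (α := Wm (A.G t)) x).trans_le zero_le_one
  choose K hK0 hK using fun i => near p hf (hz i) ht
  obtain ⟨K₁, -, hK₁⟩ := near p hf (T.jac z hz) ht
  obtain ⟨m, c₀, c₁, ρ₀, hc₀, h₀⟩ := P253W.C.mer.ent (fun τ => F.jc z (f τ))
    (mdifferentiable_iff_differentiable.1 (((b1a.sec_zero _).1 ((T.mem _).1 (T.jac z hz)).1).comp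
      (mdifferentiableOn_univ.1 hf.hol))) ⟨⌈K₁⌉₊, 8, fun τ hτ => (hK₁ τ hτ _ (d0 _)).trans (by
        have h8 : 8 < ‖τ‖ := hτ
        rw [mul_comm, ← Real.rpow_def_of_pos (by linarith), ← Real.rpow_natCast]
        exact Real.rpow_le_rpow_of_exponent_le (by linarith) (Nat.le_ceil _))⟩ ⟨0, hJ⟩
  obtain ⟨ρ₁, h₁⟩ := cv.nu 1 one_pos
  obtain ⟨L, L1, L2, L3⟩ : ∃ L : ℝ, 1 ≤ L ∧ (∀ i, K i + 1 ≤ L) ∧
      |Real.log c₀| + |ν| + 1 + n * e + n * Real.log (C' * n) ≤ L := by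
    have := Finset.sum_nonneg fun i (_ : i ∈ Finset.univ) => hK0 i
    refine ⟨max (∑ i, K i + 1) _, le_max_of_le_left (by linarith), fun i => le_max_of_le_left ?_,
      le_max_right _ _⟩
    linarith [Finset.single_le_sum (fun i _ => hK0 i) (Finset.mem_univ i)]
  obtain ⟨ρ₂, h₂⟩ := rad hc he (D * L ^ n) n
  refine ⟨max (max ρ ρ₀) (max ρ₁ ρ₂), fun τ hτ => ?_⟩
  simp only [ex, mem_ofPred_eq, max_lt_iff] at hτ
  obtain ⟨⟨t1, t2⟩, t3, t4⟩ := hτ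
  have h8 := ch.ρ_ge.trans_lt t1
  have h0 : 0 < ‖τ‖ := by linarith
  have l1 := one_le h8
  have sk := ch.sk τ t1
  have hs := sk.s_pos
  have lo : ∀ y ∈ ball (0 : Cm n) 1, ∀ v, (‖τ‖ ^ (-e)) ^ 2 * ‖v‖ ^ 2 ≤
      C' * qf (F.pull (Ψ τ) t y) v := fun y hy v => (sk.lo y hy v).trans
    (mul_le_mul_of_nonneg_right c2 (by
      simpa [qf, dotProduct_comm] using (sk.pos y hy).posSemidef.re_dotProduct_nonneg (star v)))
  have up : ∀ y ∈ ball (0 : Cm n) 1, ∀ v, qf (F.pull (Ψ τ) t y) v ≤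
      C' * ((‖τ‖ ^ (-e)) ^ 2 * ‖v‖ ^ 2) := fun y hy v => (sk.up y hy v).trans
    (mul_le_mul_of_nonneg_right c2 (by positivity))
  have := p.s3b.cpl t ht.le
  have hx : ∀ x, X.hx (M := Wm (A.G t)) n x = F.gx t x := fun x =>
    A.hm_eq t ht.le _ (b1a.chart x) _ (mem_chart_target _ x)
  have im := (hM (Wm (A.G t)) (F.vol μ t) ⟨p.c.npos, A.kahler t ht.le, p.s3b.all t ht.le⟩ (f τ)
    _ C' (Ψ τ) hs c1 ⟨(ch.imm τ t1).1, ch.zero τ t1, ch.near' τ t1, fun y hy v => by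
      rw [hx (Ψ τ y : M)]
      exact ⟨(lo y hy v).trans_eq (congrArg _ (F.qf_pull _ _ _ _)),
        (F.qf_pull _ _ _ _).symm.trans_le (up y hy v)⟩⟩).1
  have hq := Real.mul_self_sqrt (zero_le_one.trans c1)
  have hq0 := Real.sqrt_pos.2 (one_pos.trans_le c1)
  refine (hI _ _ _ _ ⌈D * L ^ n * Real.log ‖τ‖ ^ n⌉₊ im (le_of_eq ?_) fun S hS => ?_).mono
    (closedBall_subset_ball (h₂ _ t4))
  · field_simp
    rw [sq, hq]
  obtain ⟨j1, j2⟩ := tr.jac (Ψ τ) z (ch.imm τ t1) hz'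
  refine Nat.cast_le (α := ℝ).1 (le_trans ?_ (Nat.le_ceil _))
  rw [mul_assoc, ← mul_pow]
  refine hD (fun y => (fun i => z i (Ψ τ y)) - fun i => z i (f τ)) _ S (by nlinarith)
    (j1.sub_const _) (fun y hy => (pi_norm_le_iff_of_nonneg (Real.exp_pos _).le).2 fun i => ?_)
    fun q hq => ?_
  · have k1 := (norm_sub_le _ _).trans (add_le_add (hK i τ h8 _ (ch.near τ t1 y hy))
      (hK i τ h8 _ (d0 _)))
    have k2 : Real.exp (K i * Real.log ‖τ‖ + 1) ≤ Real.exp (L * Real.log ‖τ‖) :=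
      Real.exp_le_exp.2 (by nlinarith [L2 i])
    rw [Real.exp_add] at k2
    refine k1.trans (le_trans ?_ k2)
    nlinarith [Real.add_one_le_exp (1 : ℝ), Real.exp_pos (K i * Real.log ‖τ‖)]
  obtain ⟨q1, q2⟩ := hS q hq
  have q3 : Ψ τ q = f τ := q2.trans (ch.zero τ t1)
  have q4 : q ∈ ball (0 : Cm n) 1 := ball_subset_ball (by norm_num) q1
  refine ⟨q1, by rw [q3, sub_self], ?_⟩
  rw [fderiv_sub_const, det_jc (j1.differentiableAt (isOpen_ball.mem_nhds q4)), j2 q q4, norm_mul,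
    q3]
  have hCn : 1 ≤ C' * n := by nlinarith
  have k1 := (X.Lina.det (sk.pos q q4).isHermitian (a := (‖τ‖ ^ (-e)) ^ 2 / (C' * n))
    (b := C' * (‖τ‖ ^ (-e)) ^ 2) (by positivity) (fun v => by
      rw [div_mul_eq_mul_div, div_le_iff₀ (by positivity)]
      nlinarith [mul_le_mul_of_nonneg_left (X.Lina.en_le v) (sq_nonneg (‖τ‖ ^ (-e))),
        mul_le_mul_of_nonneg_left (lo q q4 v) (Nat.cast_nonneg (α := ℝ) n)]) fun v =>
      (up q q4 v).trans (by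
        rw [mul_assoc]
        gcongr
        exact X.Lina.norm_le v)).1
  rw [← tr.u_eq _ (ch.imm τ t1) t ht.le q q4, q3] at k1
  have k2 := Real.log_le_log (by positivity) k1
  have o1 := norm_pos_iff.2 (tr.om_an _ (ch.imm τ t1) q q4).2
  rw [Real.log_pow, Real.log_div (by positivity) (by positivity), Real.log_pow, Real.log_rpow h0,
    Real.log_mul (Real.exp_pos _).ne' (by positivity), Real.log_exp, Real.log_pow] at k2
  have k3 : F.u 1 (f τ) ≤ F.u t (f τ) := p.is.mono _ (mem_Ici.2 zero_le_one) ht.le ch.t_mem.1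
  have k4 := (abs_le.1 (h₁ τ t3)).1
  rw [Real.log_pow] at k4
  have k5 : c₀ ≤ ‖F.jc z (f τ)‖ :=
    (le_mul_of_one_le_right hc₀.le (one_le_pow₀ (by linarith))).trans (h₀ τ t2).1
  have k6 := Real.log_le_log hc₀ k5
  rw [← Real.le_log_iff_exp_le (mul_pos (hc₀.trans_le k5) o1),
    Real.log_mul (hc₀.trans_le k5).ne' o1.ne']
  have k7 := mul_le_mul_of_nonneg_right L3 (zero_le_one.trans l1)
  have k8 := le_mul_of_one_le_right (abs_nonneg (Real.log c₀)) l1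
  have k9 := le_mul_of_one_le_right (mul_nonneg (Nat.cast_nonneg n) (Real.log_nonneg hCn)) l1
  have k10 := mul_le_mul_of_nonneg_right (neg_abs_le ν) (zero_le_one.trans l1)
  have k11 := mul_nonneg (Nat.cast_nonneg (α := ℝ) n) (Real.log_nonneg hCn)
  push_cast at k2 k4
  linarith [neg_abs_le (Real.log c₀)]

end Vale.Agent.P253W.Y
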