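import Vale.Agent.P253W.Y.InvB

/-!
# P253W, block Y, row INV: the holomorphic parametrisation of the tube
-/

open scoped ContDiff Topology Matrix
open Set Metric Filter
open Vale.Agent.P272.K (Cm)

noncomputable section

namespace Vale.Agent.P253W.Y

namespace InvA

variable {n : ℕ}

/-- a local holomorphic parametrisation -/
theorem loc (B : Mod n) {S : Set (P n)} {Z : P n → Cm n} {ε : ℝ} (hS : IsOpen S)
    (sub : S ⊆ Nb B.ρ (4 * B.e) B.G) (hol : B.Hol Z S) {q : P n} (hq : q ∈ S) (h0 : (q.1, 0) ∈ S)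
    (F : Fb B S Z ε q.1) : ∃ Ψ : P n → P n, AnalyticAt ℂ Ψ (q.1, Z q - Z (q.1, 0)) ∧
      Ψ (q.1, Z q - Z (q.1, 0)) = B.A.e (B.ix q.1) q ∧
      ∀ᶠ p in 𝓝 (q.1, Z q - Z (q.1, 0)), Ψ p ∈ (B.A.e (B.ix q.1)).target ∧
        (B.A.e (B.ix q.1)).symm (Ψ p) ∈ S ∧ (Ψ p).1 = p.1 ∧
        Z ((B.A.e (B.ix q.1)).symm (Ψ p)) = Z (p.1, 0) + p.2 := by
  have hs := B.src q (sub hq)
  have hs0 := B.src _ (sub h0)
  have reg := B.reg (B.ix q.1)
  have met := F.met q hq rfl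
  have hol := hol (B.ix q.1)
  set c := B.A.e (B.ix q.1)
  have e1 := reg.fst q hs
  have a1 : AnalyticAt ℂ (fun p => Z (c.symm p)) (c q) :=
    hol _ (c.map_source hs) (by rwa [c.left_inv hs])
  have a2 : AnalyticAt ℂ (fun s : ℂ => Z (s, 0)) q.1 := by
    have k : ∀ᶠ s in 𝓝 q.1, (s, (0 : Cm n)) ∈ c.source :=
      (Continuous.prodMk_left 0).continuousAt.preimage_mem_nhds (c.open_source.mem_nhds hs0)
    have k2 : ∀ s, (s, (0 : Cm n)) ∈ c.source → (s, (c (s, 0)).2) = c (s, 0) := fun s h =>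
      Prod.ext (reg.fst _ h).symm rfl
    refine ((hol _ (c.map_source hs0) (by rwa [c.left_inv hs0])).comp_of_eq
      (analyticAt_id.prod (reg.ctr _ hs0).1) (k2 _ hs0)).congr (k.mono fun s h => ?_)
    simp only [Function.comp_apply, id, k2 s h, c.left_inv h]
  have a3 : AnalyticAt ℂ (fun p : P n => (p.1, Z (c.symm p) - Z (p.1, 0))) (c q) :=
    analyticAt_fst.prod (a1.sub (a2.comp_of_eq analyticAt_fst e1))
  obtain ⟨Ψ, h1, h2, h3⟩ := linv a3 (by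
    rintro ⟨a, v⟩ h
    have d1 := a1.differentiableAt.hasFDerivAt
    have d2 := (e1 ▸ a2.differentiableAt.hasFDerivAt).comp (c q) hasFDerivAt_fst
    have h := (DFunLike.congr_fun (hasFDerivAt_fst.prodMk (d1.sub d2)).fderiv (a, v)).symm.trans h
    obtain rfl : a = 0 := congrArg Prod.fst h
    have d3 := HasFDerivAt.comp (f := fun y => (q.1, y)) (c q).2 (by rw [← e1]; exact d1)
      (hasFDerivAt_prodMk_right q.1 (c q).2)
    have h4 := (met v 0 (by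
      refine (Eq.trans (DFunLike.congr_fun d3.fderiv v) ?_).symm
      simpa using congrArg Prod.snd h)).2
    have t0 : 0 < ‖q.1‖ := by linarith [B.ρ_ge, (sub hq).1]
    obtain ⟨L, hL⟩ := ex_L B.k t0
    obtain ⟨T, hT⟩ := ex_T L (B.fib _ (sub hq).1).det
    rw [← hL, ← hL, ← hT, map_zero, norm_zero] at h4
    exact Prod.ext rfl (T.map_eq_zero_iff.1 (norm_eq_zero.1 (pow_eq_zero_iff two_ne_zero |>.1
      (le_antisymm (h4.trans_eq (by simp)) (sq_nonneg _))))))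
  simp only [e1, c.left_inv hs] at h1 h2 h3
  have t : Tendsto Ψ (𝓝 (q.1, Z q - Z (q.1, 0))) (𝓝 (c q)) := h2 ▸ h1.continuousAt
  refine ⟨Ψ, h1, h2, ?_⟩
  filter_upwards [h3, t (c.open_target.mem_nhds (c.map_source hs)), t ((c.continuousAt_symm
    (c.map_source hs)).preimage_mem_nhds (hS.mem_nhds (by rwa [c.left_inv hs])))] with p a b d
  obtain ⟨a1, a2⟩ := Prod.ext_iff.1 a
  exact ⟨b, d, a1, by rw [← a2, ← a1, add_sub_cancel]⟩

end InvA

open InvA in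
theorem inv (n : ℕ) : INV n := by
  intro B ρ' Z hρ hol sup jet
  have e0 := B.e_pos
  have n0 : (0 : ℝ) ≤ n := n.cast_nonneg
  obtain ⟨ρ'', hρ', big⟩ : ∃ ρ'', ρ' ≤ ρ'' ∧ ∀ t, ρ'' < t → 100 + 4 * B.C ^ 2 + n < t ^ B.e := by
    obtain ⟨a, ha⟩ := eventually_atTop.1
      ((tendsto_rpow_atTop e0).eventually_gt_atTop (100 + 4 * B.C ^ 2 + n))
    exact ⟨max ρ' a, le_max_left _ _, fun t ht => ha t ((le_max_right _ _).trans ht.le)⟩
  have F : ∀ τ ∈ ex ρ'', Fb B (Nb ρ'' ((4 * n + 62) * B.e) B.G) Z ((4 * n + 40) * B.e) τ := by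
    intro τ hτ
    have h := big _ hτ
    have := sq_nonneg B.C
    have h0 : 0 < ‖τ‖ ^ B.e := by linarith
    exact fb B hρ hρ' hol sup jet hτ rfl (by rw [mul_inv_le_iff₀ h0]; linarith)
      (by rw [mul_inv_lt_iff₀ h0]; linarith) (by rw [mul_inv_le_iff₀ h0]; linarith)
  have hS := nb_open B (hρ.trans hρ') ((4 * n + 62) * B.e)
  have sub : Nb ρ'' ((4 * n + 62) * B.e) B.G ⊆ Nb B.ρ (4 * B.e) B.G :=
    nb_mono B.ρ_ge (hρ.trans hρ') (by nlinarith)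
  have hol' : B.Hol Z (Nb ρ'' ((4 * n + 62) * B.e) B.G) := fun i z hz h =>
    hol i z hz (nb_mono (B.ρ_ge.trans hρ) hρ' (by nlinarith) h)
  have z0 : ∀ τ ∈ ex ρ'', (τ, 0) ∈ Nb ρ'' ((4 * n + 62) * B.e) B.G := fun τ hτ =>
    ⟨hτ, by simpa [Dq, qf] using Real.rpow_pos_of_pos (by
      linarith [B.ρ_ge, show ρ'' < ‖τ‖ from hτ] : 0 < ‖τ‖) _⟩
  set S := Nb ρ'' ((4 * n + 62) * B.e) B.G
  obtain ⟨X, hX⟩ : ∃ X : P n → P n, ∀ q ∈ S, X (q.1, Z q - Z (q.1, 0)) = q := by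
    classical
    refine ⟨fun p => if h : ∃ q ∈ S, q.1 = p.1 ∧ Z q - Z (q.1, 0) = p.2 then h.choose else p,
      fun q hq => ?_⟩
    have h : ∃ q' ∈ S, q'.1 = q.1 ∧ Z q' - Z (q'.1, 0) = Z q - Z (q.1, 0) := ⟨q, hq, rfl, rfl⟩
    obtain ⟨h1, h2, h3⟩ := h.choose_spec
    exact (dif_pos h).trans ((F _ hq.1).uniq _ h1 h2 q hq rfl (by rwa [h2, sub_left_inj] at h3))
  have k : ∀ τ ∈ ex ρ'', ∀ y ∈ Flow.sl B.k ((4 * n + 40) * B.e) τ,
      ∃ q ∈ S, q.1 = τ ∧ Z q - Z (q.1, 0) = y := fun τ hτ y hy =>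
    ((F τ hτ).ex y hy).imp fun q h => ⟨h.1, h.2.1, by rw [h.2.2, h.2.1, add_sub_cancel_left]⟩
  have k2 : ∀ q ∈ S, ∃ Ψ : P n → P n, AnalyticAt ℂ Ψ (q.1, Z q - Z (q.1, 0)) ∧
      ∀ᶠ p in 𝓝 (q.1, Z q - Z (q.1, 0)), X p ∈ (B.A.e (B.ix q.1)).source ∧
        B.A.e (B.ix q.1) (X p) = Ψ p ∧ (Ψ p).1 = p.1 ∧
        Z ((B.A.e (B.ix q.1)).symm (Ψ p)) = Z (p.1, 0) + p.2 := fun q hq => by
    obtain ⟨Ψ, h1, -, h3⟩ := loc B hS sub hol' hq (z0 _ hq.1) (F _ hq.1)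
    refine ⟨Ψ, h1, h3.mono fun p ⟨a, b, c, d⟩ => ?_⟩
    have e1 := (B.reg _).fst _ ((B.A.e _).map_target a)
    rw [(B.A.e _).right_inv a, c] at e1
    have e2 := hX _ b
    rw [d, ← e1, add_sub_cancel_left] at e2
    rw [show X p = _ from e2]
    exact ⟨(B.A.e _).map_target a, (B.A.e _).right_inv a, c, d⟩
  refine ⟨ρ'', X, hρ.trans hρ', fun τ hτ y hy => ?_, fun τ hτ => ?_,
    fun τ hτ y hy y' hy' h => ?_, fun τ hτ y hy => ?_, fun τ hτ y hy v x hx => ?_⟩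
  · obtain ⟨q, hq, rfl, rfl⟩ := k τ hτ y hy
    rw [hX q hq]
    exact ⟨sub hq, rfl, (F _ hτ).small q hq rfl⟩
  · simpa only [sub_self] using hX _ (z0 τ hτ)
  · obtain ⟨q, hq, rfl, rfl⟩ := k τ hτ y hy
    obtain ⟨q', hq', e, rfl⟩ := k _ hτ y' hy'
    have := hX q' hq'
    rw [e] at this
    simp only [hX q hq, e, this] at h
    rw [h]
  · obtain ⟨q, hq, rfl, rfl⟩ := k τ hτ y hy
    obtain ⟨Ψ, h1, h2⟩ := k2 q hq
    exact ⟨h1.congr (h2.mono fun p h => h.2.1.symm), h2.mono fun p h => h.1⟩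
  · obtain ⟨q, hq, rfl, rfl⟩ := k τ hτ y hy
    obtain ⟨Ψ, h1, h2⟩ := k2 q hq
    refine (F _ hτ).met q hq rfl x v ?_
    have hs := B.src q (sub hq)
    have e1 := (B.reg _).fst q hs
    have a1 := hol' _ _ ((B.A.e _).map_source hs) (by rwa [(B.A.e _).left_inv hs])
    have t := (Continuous.prodMk_right q.1).continuousAt (x := Z q - Z (q.1, 0))
    have h3 := t.eventually h2
    set c := B.A.e (B.ix q.1)
    have d1 : DifferentiableAt ℂ (fun y => (c (X (q.1, y))).2) (Z q - Z (q.1, 0)) :=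
      (h1.differentiableAt.comp _ (differentiableAt_const _ |>.prodMk
        differentiableAt_id)).snd.congr_of_eventuallyEq (h3.mono fun y h => congrArg Prod.snd h.2.1)
    have d2 : DifferentiableAt ℂ (fun y => Z (c.symm (q.1, y))) (c q).2 :=
      DifferentiableAt.comp (g := fun p => Z (c.symm p)) _ (by rw [← e1]; exact a1.differentiableAt)
        (differentiableAt_const _ |>.prodMk differentiableAt_id)
    have d3 := HasFDerivAt.comp (g := fun y => Z (c.symm (q.1, y))) _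
      (by rw [hX q hq]; exact d2.hasFDerivAt) d1.hasFDerivAt
    have d4 := ((hasFDerivAt_id (𝕜 := ℂ) _).const_add (Z (q.1, 0))).congr_of_eventuallyEq
      (h3.mono fun y h => show Z (c.symm (q.1, (c (X (q.1, y))).2)) = _ by
        rw [h.2.1]
        exact (congrArg (fun a => Z (c.symm (a, (Ψ (q.1, y)).2))) h.2.2.1.symm).trans h.2.2.2)
    rw [hx]
    exact DFunLike.congr_fun (d4.unique d3) v

end Vale.Agent.P253W.Y
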