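import Vale.Agent.P253W.Y.Mod

/-!
# P253W, block Y: the differential of the solution along the curve
-/

open scoped ContDiff ENNReal Topology ComplexConjugate ComplexOrder Matrix
open MeasureTheory Set Metric Filter Vale.Agent.P253Z
open Vale.Agent.P272.K (Cm)

noncomputable section

namespace Vale.Agent.P253W.Y

namespace Jet

variable {n : ℕ}

theorem vol1 (c : ℂ) {l : ℝ} (hl : 0 ≤ l) :
    volume (ball c l) = ENNReal.ofReal (Real.pi * l ^ 2) := by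
  rw [Complex.volume_ball, mul_comm Real.pi, ENNReal.ofReal_mul (by positivity),
    ENNReal.ofReal_pow hl, ← NNReal.coe_real_pi, ENNReal.ofReal_coe_nnreal]

theorem voln {l : ℝ} (hl : 0 < l) :
    volume (ball (0 : Cm n) l) = ENNReal.ofReal (Real.pi ^ n * l ^ (2 * n)) := by
  rw [volume_pi_ball _ hl]
  simp only [vol1 _ hl.le, Finset.prod_const, Finset.card_univ, Fintype.card_fin]
  rw [← ENNReal.ofReal_pow (by positivity), mul_pow, pow_mul]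

theorem mv1 (h : MVN 1) : ∃ C : ℝ, 0 ≤ C ∧ ∀ (f : ℂ → ℂ) (c : ℂ) (l : ℝ), 0 < l →
    DifferentiableOn ℂ f (ball c l) → ENNReal.ofReal (‖f c‖ ^ 2 * l ^ 2) ≤
      ENNReal.ofReal C * ∫⁻ x in ball c l, ENNReal.ofReal (‖f x‖ ^ 2) := by
  obtain ⟨C, hC, h⟩ := h
  refine ⟨C, by linarith, fun f c l hl hf => ?_⟩
  have e : MeasurableEquiv.funUnique (Fin 1) ℂ ⁻¹' ball c l = ball (fun _ => c) l := by
    ext x
    simp [ball_pi _ hl, Fin.forall_fin_one]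
  have h1 := (h (fun x => f (x 0)) (fun _ => c) l hl (hf.comp
    (differentiable_apply (𝕜 := ℂ) (0 : Fin 1)).differentiableOn
    fun x hx => (e ▸ hx : x ∈ MeasurableEquiv.funUnique (Fin 1) ℂ ⁻¹' ball c l))).1
  rw [← (volume_preserving_funUnique (Fin 1) ℂ).setLIntegral_comp_preimage_emb
    (MeasurableEquiv.measurableEmbedding _), e]
  exact h1

theorem near {r s : ℝ} (hr : 0 < r) (h1 : r / 2 ≤ s) (h2 : s ≤ 2 * r) (p : ℝ) :
    s ^ p ≤ 2 ^ |p| * r ^ p := by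
  have hs : 0 < s := by linarith
  rcases le_total 0 p with h | h
  · rw [abs_of_nonneg h, ← Real.mul_rpow (by norm_num) hr.le]
    exact Real.rpow_le_rpow hs.le h2 h
  · rw [abs_of_nonpos h, Real.rpow_neg (by norm_num), ← div_eq_inv_mul,
      ← Real.div_rpow hr.le (by norm_num)]
    exact Real.rpow_le_rpow_of_nonpos (by positivity) h1 h

theorem enn {a N b v p w q : ℝ} {I : ℝ≥0∞} (ha : 0 ≤ a) (hN : 0 ≤ N) (hb : 0 ≤ b) (hp : 0 ≤ p)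
    (h1 : a * N * 2 ≤ p * w) (h2 : a * N * b * v ≤ q) :
    ENNReal.ofReal a * (ENNReal.ofReal N * (ENNReal.ofReal 2 * I +
      ENNReal.ofReal b * ENNReal.ofReal v)) ≤
      ENNReal.ofReal p * (ENNReal.ofReal w * I) + ENNReal.ofReal q := by
  rw [← mul_assoc, mul_add, ← mul_assoc, ← mul_assoc, ← mul_assoc, ← ENNReal.ofReal_mul ha,
    ← ENNReal.ofReal_mul hp, ← ENNReal.ofReal_mul (mul_nonneg ha hN),
    ← ENNReal.ofReal_mul (mul_nonneg ha hN), ← ENNReal.ofReal_mul (by positivity)]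
  exact add_le_add (mul_le_mul_left (ENNReal.ofReal_le_ofReal h1) _) (ENNReal.ofReal_le_ofReal h2)

theorem wn_le (k : Fin n → ℝ) (τ : ℂ) (y : Cm n) (i : Fin n) :
    ‖y i‖ ^ 2 * ‖τ‖ ^ (-(2 * k i)) ≤ wn k τ y :=
  Finset.single_le_sum (f := fun i => ‖y i‖ ^ 2 * ‖τ‖ ^ (-(2 * k i)))
    (fun _ _ => by positivity) (Finset.mem_univ i)

theorem wn_single (k : Fin n → ℝ) (τ : ℂ) (j : Fin n) :
    wn k τ (Pi.single j 1) = ‖τ‖ ^ (-(2 * k j)) := by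
  unfold wn
  rw [Finset.sum_eq_single j (fun i _ h => by simp [h]) (by simp)]
  simp

theorem wn_sum (k : Fin n → ℝ) {τ : ℂ} (hτ : 0 < ‖τ‖) (y : Cm n) (E : Fin n → Cm n) {a : ℝ}
    (h : ∀ i j, ‖E j i‖ ^ 2 ≤ a * ‖τ‖ ^ (2 * k i - 2 * k j)) :
    wn k τ (∑ j, y j • E j) ≤ n * n * a * wn k τ y := by
  have h1 : ∀ i, ‖(∑ j, y j • E j) i‖ ^ 2 * ‖τ‖ ^ (-(2 * k i)) ≤ n * a * wn k τ y := fun i => by
    have h2 : ‖(∑ j, y j • E j) i‖ ^ 2 ≤ n * ∑ j, (‖y j‖ * ‖E j i‖) ^ 2 := by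
      have h3 : ‖(∑ j, y j • E j) i‖ ≤ ∑ j, ‖y j‖ * ‖E j i‖ := by
        rw [Finset.sum_apply]
        exact (norm_sum_le _ _).trans (le_of_eq (by simp))
      have h4 := sq_sum_le_card_mul_sum_sq (s := Finset.univ) (f := fun j => ‖y j‖ * ‖E j i‖)
      rw [Finset.card_univ, Fintype.card_fin] at h4
      exact (pow_le_pow_left₀ (norm_nonneg _) h3 2).trans h4
    refine (mul_le_mul_of_nonneg_right h2 (by positivity)).trans ?_
    rw [mul_assoc, mul_assoc, wn, Finset.sum_mul, Finset.mul_sum _ _ a]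
    refine mul_le_mul_of_nonneg_left (Finset.sum_le_sum fun j _ => ?_) n.cast_nonneg
    calc (‖y j‖ * ‖E j i‖) ^ 2 * ‖τ‖ ^ (-(2 * k i))
        ≤ ‖y j‖ ^ 2 * (a * ‖τ‖ ^ (2 * k i - 2 * k j)) * ‖τ‖ ^ (-(2 * k i)) := by
          rw [mul_pow]; gcongr; exact h i j
      _ = a * (‖y j‖ ^ 2 * (‖τ‖ ^ (2 * k i - 2 * k j) * ‖τ‖ ^ (-(2 * k i)))) := by ring
      _ = _ := by rw [← Real.rpow_add hτ]; congr 3; ring
  refine (Finset.sum_le_sum fun i _ => h1 i).trans (le_of_eq ?_)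
  simp only [Finset.sum_const, Finset.card_univ, Fintype.card_fin, nsmul_eq_mul]
  ring

theorem mem0 {ρ a : ℝ} {G : ℂ → Mx n} {τ : ℂ} (h0 : 0 ≤ ρ) (h : ρ < ‖τ‖) : (τ, 0) ∈ Nb ρ a G := by
  refine ⟨h, ?_⟩
  have : Dq G (τ, 0) = 0 := by simp [Dq, qf]
  rw [this]
  exact Real.rpow_pos_of_pos (by linarith) _

/-- multiplication by a matrix -/
def vm (Θ : Mx n) : Cm n →L[ℂ] Cm n := LinearMap.toContinuousLinearMap Θ.vecMulLinear

theorem vm_apply (Θ : Mx n) (y : Cm n) : vm Θ y = y ᵥ* Θ := rfl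

theorem own {C e : ℝ} {G : ℂ → Mx n} {c : Ch n} {τ : ℂ} {Θ : Mx n} (h : Fib C e G c τ Θ)
    (hs : (τ, 0) ∈ c.source) : (c (τ, 0)).2 = 0 ∧
      HasFDerivAt (fun y => (c (τ, y)).2) ((vm Θ).restrictScalars ℝ) 0 := by
  have h0 : (c (τ, 0)).2 = 0 := by simpa using (h.dir 0 hs).2
  refine ⟨h0, .of_isLittleO (Asymptotics.IsBigO.trans_isLittleO ?_
    (Asymptotics.isLittleO_pow_sub_sub (0 : Cm n) one_lt_two))⟩
  refine Asymptotics.IsBigO.of_bound (|C| * ‖vm Θ‖ ^ 2) ?_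
  filter_upwards [(Continuous.prodMk_right τ).continuousAt.eventually
    (c.open_source.mem_nhds hs)] with y hy
  have h1 := (h.dir y hy).1
  have h2 := pow_le_pow_left₀ (norm_nonneg _) ((vm Θ).le_opNorm y) 2
  simp only [h0, sub_zero, ContinuousLinearMap.coe_restrictScalars', vm_apply, norm_pow,
    norm_norm] at h2 ⊢
  calc _ ≤ |C| * ‖y ᵥ* Θ‖ ^ 2 := h1.trans (by gcongr; exact le_abs_self C)
    _ ≤ |C| * (‖vm Θ‖ * ‖y‖) ^ 2 := by gcongr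
    _ = _ := by ring

theorem chain {c : Ch n} (hc : Reg c) {Z : P n → Cm n} {τ : ℂ} (hs : (τ, 0) ∈ c.source)
    (hZ : AnalyticAt ℂ (fun q => Z (c.symm q)) (c (τ, 0))) (v : Cm n) (i : Fin n) :
    fderiv ℝ (fun y => Z (τ, y) i) 0 v = fderiv ℂ (fun q => Z (c.symm q)) (c (τ, 0))
      (0, fderiv ℝ (fun y => (c (τ, y)).2) 0 v) i := by
  have d1 : DifferentiableAt ℝ (fun y => (c (τ, y)).2) 0 :=
    (((hc.sm _ hs).differentiableAt (by simp)).comp (0 : Cm n)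
      ((differentiableAt_const τ).prodMk differentiableAt_id)).snd
  have e0 : ∀ y, (τ, y) ∈ c.source → c (τ, y) = (τ, (c (τ, y)).2) := fun y hy =>
    Prod.ext (hc.fst _ hy) rfl
  have d2 := hZ.differentiableAt.hasFDerivAt.restrictScalars ℝ
  rw [e0 0 hs] at d2
  have d3 := hasFDerivAt_pi'.1
    (d2.comp (0 : Cm n) ((hasFDerivAt_const τ 0).prodMk d1.hasFDerivAt)) i
  have d4 : (fun y => Z (τ, y) i) =ᶠ[𝓝 0] fun y => Z (c.symm (τ, (c (τ, y)).2)) i := by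
    filter_upwards [(Continuous.prodMk_right τ).continuousAt.eventually
      (c.open_source.mem_nhds hs)] with y hy
    rw [← e0 y hy, c.left_inv hy]
  rw [(d3.congr_of_eventuallyEq d4).fderiv, ← e0 0 hs]
  rfl

/-- the error -/
def E (Z : P n → Cm n) (j : Fin n) (τ : ℂ) : Cm n :=
  fun i => fderiv ℝ (fun y => Z (τ, y) i) 0 (Pi.single j 1) - (Pi.single j 1 : Cm n) i

variable {B : Mod n} {ρ' a : ℝ} {Z : P n → Cm n} {τ : ℂ}

theorem src0 (h : B.ρ < ‖τ‖) : (τ, 0) ∈ (B.A.e (B.ix τ)).source :=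
  B.src (τ, 0) (mem0 (by linarith [B.ρ_ge]) h)

theorem an0 (hρ : B.ρ ≤ ρ') (hZ : B.Hol Z (Nb ρ' a B.G)) (h : ρ' < ‖τ‖) {i : B.A.I}
    (hs : (τ, 0) ∈ (B.A.e i).source) :
    AnalyticAt ℂ (fun q => Z ((B.A.e i).symm q)) (B.A.e i (τ, 0)) :=
  hZ i _ ((B.A.e i).map_source hs) (by
    rw [(B.A.e i).left_inv hs]; exact mem0 (by linarith [B.ρ_ge]) h)

theorem E_hol (hρ : B.ρ ≤ ρ') (hZ : B.Hol Z (Nb ρ' a B.G)) (h : ρ' < ‖τ‖) (i j : Fin n) :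
    DifferentiableAt ℂ (fun s => E Z j s i) τ := by
  have hs := src0 (hρ.trans_lt h)
  have hc := B.reg (B.ix τ)
  set c := B.A.e (B.ix τ)
  have ev : ∀ᶠ s in 𝓝 τ, (s, (0 : Cm n)) ∈ c.source :=
    (Continuous.prodMk_left 0).continuousAt.eventually (c.open_source.mem_nhds hs)
  have d1 : DifferentiableAt ℂ (fun s : ℂ => c (s, 0)) τ :=
    (differentiableAt_id.prodMk (hc.ctr τ hs).1.differentiableAt).congr_of_eventuallyEq
      (ev.mono fun s hs => Prod.ext (hc.fst _ hs) rfl)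
  have d2 := ((an0 hρ hZ h hs).fderiv.differentiableAt.comp τ d1).clm_apply
    ((differentiableAt_const 0).prodMk ((hc.ctr τ hs).2 j).differentiableAt)
  refine ((differentiableAt_pi.1 d2 i).sub_const
    ((Pi.single j 1 : Cm n) i)).congr_of_eventuallyEq ?_
  filter_upwards [ev, continuous_norm.continuousAt.eventually (lt_mem_nhds h)] with s h1 h2
  rw [E, chain hc h1 (an0 hρ hZ h2 h1)]
  rfl

theorem E_eq (hρ : B.ρ ≤ ρ') (hZ : B.Hol Z (Nb ρ' a B.G)) (h : ρ' < ‖τ‖) (j : Fin n) :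
    E Z j τ = fderiv ℂ (fun y => Z ((B.A.e (B.ix τ)).symm (τ, y))) 0 (Pi.single j 1 ᵥ* B.Θ τ) -
      Pi.single j 1 := by
  have hs := src0 (hρ.trans_lt h)
  obtain ⟨h0, h1⟩ := own (B.fib τ (hρ.trans_lt h)) hs
  have h2 := an0 hρ hZ h hs
  have e0 : B.A.e (B.ix τ) (τ, 0) = (τ, 0) := Prod.ext ((B.reg _).fst _ hs) h0
  funext i
  rw [E, chain (B.reg _) hs h2, h1.fderiv, e0]
  rw [e0] at h2
  have h3 := (h2.differentiableAt.hasFDerivAt.comp (0 : Cm n)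
    (hasFDerivAt_prodMk_right τ (0 : Cm n))).fderiv
  erw [h3]
  rfl

theorem G_le (h : B.ρ < ‖τ‖) (y : Cm n) :
    qf (B.G τ) y ≤ B.C * ‖y ᵥ* B.Θ τ‖ ^ 2 * ‖τ‖ ^ (-(2 * B.e)) := by
  have h0 : 0 < ‖τ‖ := by linarith [B.ρ_ge]
  rw [Real.rpow_neg h0.le, ← div_eq_mul_inv, le_div_iff₀ (by positivity), mul_comm]
  exact (B.fib τ h).up y

theorem comp_le (h : B.ρ < ‖τ‖) (y : Cm n) (i : Fin n) :
    ‖y i‖ ^ 2 ≤ B.C * ‖y ᵥ* B.Θ τ‖ ^ 2 * ‖τ‖ ^ (2 * B.k i - B.e) := by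
  have h0 : 0 < ‖τ‖ := by linarith [B.ρ_ge]
  have h1 := ((wn_le B.k τ y i).trans (B.G_cmp τ h y).1).trans
    (mul_le_mul_of_nonneg_left (G_le h y) (by positivity))
  rw [Real.rpow_neg h0.le, ← div_eq_mul_inv, div_le_iff₀ (by positivity)] at h1
  refine h1.trans (le_of_eq ?_)
  rw [show 2 * B.k i - B.e = B.e + -(2 * B.e) + 2 * B.k i by ring, Real.rpow_add h0,
    Real.rpow_add h0]
  ring

theorem row_le (h : B.ρ < ‖τ‖) (j : Fin n) :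
    ‖(Pi.single j 1 : Cm n) ᵥ* B.Θ τ‖ ^ 2 ≤ B.C * ‖τ‖ ^ (3 * B.e - 2 * B.k j) := by
  have h0 : 0 < ‖τ‖ := by linarith [B.ρ_ge]
  have h1 := (B.G_cmp τ h (Pi.single j 1)).2
  rw [wn_single] at h1
  have h2 : 0 ≤ B.C := by linarith [B.C_ge]
  refine ((B.fib τ h).lo _).trans ?_
  rw [show 3 * B.e - 2 * B.k j = 2 * B.e + (B.e + -(2 * B.k j)) by ring, Real.rpow_add h0,
    Real.rpow_add h0]
  gcongr

theorem mem_Nb (hρ : B.ρ ≤ ρ') (h : ρ' < ‖τ‖) (hC : 4 * B.C < ‖τ‖ ^ B.e) {x : Cm n}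
    (hx : ‖x‖ < ‖τ‖ ^ (-((2 * n + 11) * B.e))) : (τ, x) ∈ (B.A.e (B.ix τ)).target ∧
      (B.A.e (B.ix τ)).symm (τ, x) ∈ Nb ρ' ((4 * n + 23) * B.e) B.G := by
  have h' := hρ.trans_lt h
  have h1 : 1 ≤ ‖τ‖ := by linarith [B.ρ_ge]
  have h0 : 0 < ‖τ‖ := by linarith
  have he := B.e_pos
  have hn : (0 : ℝ) ≤ n := n.cast_nonneg
  have ht := (B.fib τ h').ball x
    (hx.trans_le (Real.rpow_le_rpow_of_exponent_le h1 (by nlinarith)))
  have e1 : ((B.A.e (B.ix τ)).symm (τ, x)).1 = τ := by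
    rw [← (B.reg _).fst _ ((B.A.e (B.ix τ)).map_target ht), (B.A.e (B.ix τ)).right_inv ht]
  refine ⟨ht, by rwa [e1], ?_⟩
  rw [Dq, e1]
  have h2 : 0 ≤ B.C := by linarith [B.C_ge]
  calc _ ≤ _ := G_le h' _
    _ ≤ B.C * (2 * ‖τ‖ ^ (-((2 * n + 11) * B.e))) ^ 2 * ‖τ‖ ^ (-(2 * B.e)) := by
      gcongr
      linarith [((B.fib τ h').inv x ht).2]
    _ = 4 * B.C * (‖τ‖ ^ (-((2 * n + 11) * B.e) * (2 : ℕ)) * ‖τ‖ ^ (-(2 * B.e))) := by
      rw [Real.rpow_mul_natCast h0.le]; ring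
    _ < ‖τ‖ ^ B.e * (‖τ‖ ^ (-((2 * n + 11) * B.e) * (2 : ℕ)) * ‖τ‖ ^ (-(2 * B.e))) := by gcongr
    _ = _ := by
      rw [← Real.rpow_add h0, ← Real.rpow_add h0]
      congr 1
      push_cast
      ring

variable (B Z) in
/-- the integrand of `L2.l2` -/
def W (i : Fin n) (τ : ℂ) : ℝ≥0∞ :=
  ENNReal.ofReal (‖τ‖ ^ (-2 - 2 * B.k i + (4 * n + 34) * B.e) *
      ‖τ‖ ^ (2 * n * ((2 * n + 11) * B.e))) *
    ∫⁻ x in ball (0 : Cm n) (‖τ‖ ^ (-((2 * n + 11) * B.e))),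
      ENNReal.ofReal (‖Z ((B.A.e (B.ix τ)).symm (τ, x)) i -
        ((B.A.e (B.ix τ)).symm (τ, x)).2 i‖ ^ 2)

theorem fibre (hM : MVN n) (hρ : B.ρ ≤ ρ') (hZ : B.Hol Z (Nb ρ' ((4 * n + 23) * B.e) B.G)) :
    ∃ K : ℝ, 0 ≤ K ∧ ∀ τ : ℂ, ρ' < ‖τ‖ → 4 * B.C < ‖τ‖ ^ B.e → ∀ i j,
      ENNReal.ofReal (‖E Z j τ i‖ ^ 2) ≤
        ENNReal.ofReal (K * ‖τ‖ ^ (2 * B.k i - 2 * B.k j - 9 * B.e + 2)) * W B Z i τ +
          ENNReal.ofReal (K * ‖τ‖ ^ (2 * B.k i - 2 * B.k j - 9 * B.e)) := by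
  obtain ⟨N, hN, hM⟩ := hM
  have hC := B.C_ge
  have hπ : 1 ≤ Real.pi ^ n := one_le_pow₀ (by linarith [Real.two_le_pi])
  refine ⟨2 * B.C * N * (B.C ^ 3 * Real.pi ^ n), by positivity, fun τ h h4 i j => ?_⟩
  have h' := hρ.trans_lt h
  have h1 : 1 ≤ ‖τ‖ := by linarith [B.ρ_ge]
  have h0 : 0 < ‖τ‖ := by linarith
  have he := B.e_pos
  have hn : (0 : ℝ) ≤ n := n.cast_nonneg
  unfold W
  set l := ‖τ‖ ^ (-((2 * n + 11) * B.e)) with hl
  have l0 : 0 < l := by positivity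
  have lp : ∀ m : ℕ, l ^ m = ‖τ‖ ^ (-((2 * n + 11) * B.e) * m) := fun m =>
    (Real.rpow_mul_natCast h0.le _ m).symm
  set c := B.A.e (B.ix τ)
  have hd : ∀ x ∈ ball (0 : Cm n) l, DifferentiableAt ℂ (fun y => Z (c.symm (τ, y))) x :=
    fun x hx => by
      obtain ⟨h2, h3⟩ := mem_Nb hρ h h4 (mem_ball_zero_iff.1 hx)
      exact (hZ _ _ h2 h3).differentiableAt.comp x
        ((differentiableAt_const τ).prodMk differentiableAt_id)
  have hf : ∀ x ∈ ball (0 : Cm n) l, HasFDerivAt (fun y => (Z (c.symm (τ, y)) - y ᵥ* (B.Θ τ)⁻¹) i)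
      ((ContinuousLinearMap.proj i).comp
        (fderiv ℂ (fun y => Z (c.symm (τ, y))) x - vm (B.Θ τ)⁻¹)) x := fun x hx =>
    hasFDerivAt_pi'.1 ((hd x hx).hasFDerivAt.sub (vm (B.Θ τ)⁻¹).hasFDerivAt) i
  have m1 := (hM _ 0 l l0 fun x hx => (hf x hx).differentiableAt.differentiableWithinAt).2
  have hu := (B.fib τ h').det.isUnit
  have m2 : E Z j τ i = fderiv ℂ (fun y => (Z (c.symm (τ, y)) - y ᵥ* (B.Θ τ)⁻¹) i) 0
      (Pi.single j 1 ᵥ* B.Θ τ) := by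
    rw [(hf 0 (mem_ball_self l0)).fderiv, E_eq hρ hZ h]
    simp only [ContinuousLinearMap.comp_apply, sub_apply, vm_apply,
      Matrix.vecMul_vecMul, Matrix.mul_nonsing_inv _ hu, Matrix.vecMul_one]
    rfl
  set D := fderiv ℂ (fun y => (Z (c.symm (τ, y)) - y ᵥ* (B.Θ τ)⁻¹) i) 0
  have m3 : ‖E Z j τ i‖ ^ 2 ≤
      B.C * ‖τ‖ ^ (3 * B.e - 2 * B.k j) / l ^ (2 * n + 2) * (‖D‖ ^ 2 * l ^ (2 * n + 2)) := by
    rw [m2]
    calc _ ≤ (‖D‖ * ‖(Pi.single j 1 : Cm n) ᵥ* B.Θ τ‖) ^ 2 := by gcongr; exact D.le_opNorm _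
      _ ≤ ‖D‖ ^ 2 * (B.C * ‖τ‖ ^ (3 * B.e - 2 * B.k j)) := by
        rw [mul_pow]; gcongr; exact row_le h' j
      _ = _ := by field_simp
  have m4 : ∀ x ∈ ball (0 : Cm n) l,
      ENNReal.ofReal (‖(Z (c.symm (τ, x)) - x ᵥ* (B.Θ τ)⁻¹) i‖ ^ 2) ≤
        ENNReal.ofReal 2 * ENNReal.ofReal (‖Z (c.symm (τ, x)) i - (c.symm (τ, x)).2 i‖ ^ 2) +
          ENNReal.ofReal (2 * (B.C * (B.C * l ^ 2) ^ 2 * ‖τ‖ ^ (2 * B.k i - B.e))) := fun x hx => by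
    rw [← ENNReal.ofReal_mul (by norm_num), ← ENNReal.ofReal_add (by positivity) (by positivity)]
    refine ENNReal.ofReal_le_ofReal ?_
    have hx' := mem_ball_zero_iff.1 hx
    have a1 := comp_le h' ((c.symm (τ, x)).2 - x ᵥ* (B.Θ τ)⁻¹) i
    rw [Matrix.sub_vecMul, Matrix.vecMul_vecMul, Matrix.nonsing_inv_mul _ hu,
      Matrix.vecMul_one] at a1
    have a2 : ‖(c.symm (τ, x)).2 ᵥ* B.Θ τ - x‖ ≤ B.C * l ^ 2 :=
      ((B.fib τ h').inv x (mem_Nb hρ h h4 hx').1).1.trans (by gcongr)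
    have a3 : ‖((c.symm (τ, x)).2 - x ᵥ* (B.Θ τ)⁻¹) i‖ ^ 2 ≤
        B.C * (B.C * l ^ 2) ^ 2 * ‖τ‖ ^ (2 * B.k i - B.e) := a1.trans (by gcongr)
    have a4 := norm_sub_le_norm_sub_add_norm_sub (Z (c.symm (τ, x)) i) ((c.symm (τ, x)).2 i)
      ((x ᵥ* (B.Θ τ)⁻¹) i)
    rw [Pi.sub_apply] at a3 ⊢
    have a5 := pow_le_pow_left₀ (norm_nonneg _) a4 2
    nlinarith [sq_nonneg (‖Z (c.symm (τ, x)) i - (c.symm (τ, x)).2 i‖ -
      ‖(c.symm (τ, x)).2 i - (x ᵥ* (B.Θ τ)⁻¹) i‖)]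
  have m5 := setLIntegral_mono' (μ := volume) measurableSet_ball m4
  rw [lintegral_add_right _ measurable_const, lintegral_const_mul' _ _ ENNReal.ofReal_ne_top,
    setLIntegral_const, voln l0] at m5
  refine (ENNReal.ofReal_le_ofReal m3).trans ?_
  rw [ENNReal.ofReal_mul (by positivity)]
  refine (mul_le_mul_right (m1.trans (mul_le_mul_right m5 _)) _).trans ?_
  refine enn (by positivity) (by positivity) (by positivity) (by positivity) ?_ ?_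
  · calc _ = 2 * B.C * N * 1 * (‖τ‖ ^ (3 * B.e - 2 * B.k j) / l ^ (2 * n + 2)) := by ring
      _ ≤ 2 * B.C * N * (B.C ^ 3 * Real.pi ^ n) *
          (‖τ‖ ^ (3 * B.e - 2 * B.k j) / l ^ (2 * n + 2)) := by
        gcongr
        exact one_le_mul_of_one_le_of_one_le (one_le_pow₀ hC) hπ
      _ = _ := by
        rw [mul_assoc _ (‖τ‖ ^ _), lp, ← Real.rpow_sub h0, ← Real.rpow_add h0, ← Real.rpow_add h0]
        congr 2
        push_cast
        ring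
  · calc _ = 2 * B.C * N * (B.C ^ 3 * Real.pi ^ n) *
          (‖τ‖ ^ (3 * B.e - 2 * B.k j) * ‖τ‖ ^ (2 * B.k i - B.e) * l ^ 2) := by
          field_simp
          ring
      _ ≤ _ := by
        rw [lp, ← Real.rpow_add h0, ← Real.rpow_add h0]
        gcongr
        push_cast
        nlinarith

theorem point (h1 : MVN 1) (hM : MVN n) (hρ : B.ρ ≤ ρ') (hZ : B.L2 ρ' Z) (i j : Fin n) :
    ∃ K : ℝ, ∀ᶠ r in atTop, ∀ c : ℂ, ‖c‖ = r →
      ‖E Z j c i‖ ^ 2 ≤ K * ‖c‖ ^ (2 * B.k i - 2 * B.k j - 9 * B.e) := by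
  obtain ⟨N, hN, h1⟩ := mv1 h1
  obtain ⟨K, hK, hM⟩ := fibre hM hρ hZ.hol
  obtain ⟨ρ₁, hρ₁⟩ := eventually_atTop.1 (((tendsto_rpow_atTop B.e_pos).eventually_gt_atTop
    (4 * B.C)).and (eventually_gt_atTop ρ'))
  have hI := hZ.l2 i
  change ∫⁻ τ in ex ρ', W B Z i τ < ⊤ at hI
  set I := ∫⁻ τ in ex ρ', W B Z i τ with hI'
  set p := 2 * B.k i - 2 * B.k j - 9 * B.e
  refine ⟨4 * N * (K * 2 ^ |p + 2| * I.toReal + K * 2 ^ |p| * Real.pi), ?_⟩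
  filter_upwards [eventually_ge_atTop (2 * ρ₁), eventually_gt_atTop 0] with r hr r0 c hc
  have hb : ∀ τ ∈ ball c (r / 2), r / 2 ≤ ‖τ‖ ∧ ‖τ‖ ≤ 2 * r := fun τ hτ => by
    have := abs_le.1 ((abs_norm_sub_norm_le τ c).trans (mem_ball_iff_norm.1 hτ).le)
    constructor <;> linarith
  have hb' : ∀ τ ∈ ball c (r / 2), 4 * B.C < ‖τ‖ ^ B.e ∧ ρ' < ‖τ‖ := fun τ hτ =>
    hρ₁ _ (by linarith [(hb τ hτ).1])
  have m1 := h1 (fun s => E Z j s i) c (r / 2) (by linarith) fun τ hτ =>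
    (E_hol hρ hZ.hol (hb' τ hτ).2 i j).differentiableWithinAt
  have m2 : ∀ τ ∈ ball c (r / 2), ENNReal.ofReal (‖E Z j τ i‖ ^ 2) ≤
      ENNReal.ofReal (K * (2 ^ |p + 2| * r ^ (p + 2))) * W B Z i τ +
        ENNReal.ofReal (K * (2 ^ |p| * r ^ p)) := fun τ hτ => by
    refine (hM τ (hb' τ hτ).2 (hb' τ hτ).1 i j).trans ?_
    gcongr <;> exact near r0 (hb τ hτ).1 (hb τ hτ).2 _
  have m3 := setLIntegral_mono' (μ := volume) measurableSet_ball m2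
  rw [lintegral_add_right _ measurable_const, lintegral_const_mul' _ _ ENNReal.ofReal_ne_top,
    setLIntegral_const, vol1 c (by linarith)] at m3
  have m4 : ∫⁻ τ in ball c (r / 2), W B Z i τ ≤ ENNReal.ofReal I.toReal := by
    rw [ENNReal.ofReal_toReal hI.ne]
    exact lintegral_mono_set fun τ hτ => (hb' τ hτ).2
  have m5 := m1.trans (mul_le_mul_right (m3.trans (add_le_add (mul_le_mul_right m4 _) le_rfl)) _)
  rw [← ENNReal.ofReal_mul (by positivity), ← ENNReal.ofReal_mul (by positivity),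
    ← ENNReal.ofReal_add (by positivity) (by positivity), ← ENNReal.ofReal_mul hN,
    ENNReal.ofReal_le_ofReal_iff (by positivity), Real.rpow_add r0, Real.rpow_two] at m5
  rw [hc]
  refine le_of_mul_le_mul_right (m5.trans ?_) (by positivity : 0 < (r / 2) ^ 2)
  have : 0 ≤ N * (K * 2 ^ |p| * Real.pi) * r ^ p * r ^ 2 := by positivity
  nlinarith

end Jet

open Jet in
/-- **JET** -/
theorem jet (n : ℕ) : JET n := by
  intro h1 hM B ρ' Z hρ hZ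
  choose K hK using point h1 hM hρ hZ
  have hn : (0 : ℝ) < n * n + 1 := by positivity
  have ev : ∀ᶠ r in atTop, ρ' < r ∧ ∀ i j, ∀ c : ℂ, ‖c‖ = r → ‖E Z j c i‖ ^ 2 ≤
      r ^ (-(8 * B.e)) / (n * n + 1) * ‖c‖ ^ (2 * B.k i - 2 * B.k j) := by
    refine (eventually_gt_atTop ρ').and (eventually_all.2 fun i => eventually_all.2 fun j => ?_)
    filter_upwards [hK i j, eventually_gt_atTop 0, (tendsto_rpow_atTop B.e_pos).eventually_ge_atTop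
      (K i j * (n * n + 1))] with r a1 r0 a2 c hc
    refine (a1 c hc).trans ?_
    rw [hc, show 2 * B.k i - 2 * B.k j - 9 * B.e = -(9 * B.e) + (2 * B.k i - 2 * B.k j) by ring,
      show -(8 * B.e) = B.e + -(9 * B.e) by ring, Real.rpow_add r0, Real.rpow_add r0, ← mul_assoc,
      mul_div_right_comm]
    gcongr
    exact (le_div_iff₀ hn).2 a2
  obtain ⟨ρ₁, hρ₁⟩ := eventually_atTop.1 ev
  refine ⟨max ρ' ρ₁, le_max_left _ _, fun τ hτ x => ?_⟩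
  obtain ⟨h, a1⟩ := hρ₁ ‖τ‖ ((le_max_right _ _).trans (le_of_lt hτ))
  have h0 : 0 < ‖τ‖ := by linarith [B.ρ_ge]
  have hu := (B.fib τ (hρ.trans_lt h)).det.isUnit
  have a2 := wn_sum B.k h0 (x ᵥ* (B.Θ τ)⁻¹) (fun j => E Z j τ) fun i j => a1 i j τ rfl
  set y := x ᵥ* (B.Θ τ)⁻¹ with hy
  have e1 : ∑ j, y j • (Pi.single j 1 : Cm n) = y := by
    simp only [← Pi.single_smul, smul_eq_mul, mul_one, Finset.univ_sum_single]
  have e2 : vm (B.Θ τ) y = x := by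
    rw [vm_apply, hy, Matrix.vecMul_vecMul, Matrix.nonsing_inv_mul _ hu, Matrix.vecMul_one]
  have e3 : ∑ j, y j • E Z j τ =
      fderiv ℂ (fun y => Z ((B.A.e (B.ix τ)).symm (τ, y))) 0 x - y := by
    simp only [E_eq hρ hZ.hol h, smul_sub, Finset.sum_sub_distrib, e1, ← vm_apply, ← map_smul,
      ← map_sum, e2]
  rw [← e3]
  refine a2.trans (mul_le_mul_of_nonneg_right ?_
    (Finset.sum_nonneg fun _ _ => by positivity))
  rw [← mul_div_assoc, div_le_iff₀ hn]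
  nlinarith [Real.rpow_pos_of_pos h0 (-(8 * B.e))]

end Vale.Agent.P253W.Y
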