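import Vale.Agent.P253W.Y.Mod

/-!
# P253W, block Y, row LEV: Levi forms of functions of `D`
-/

open scoped ContDiff Topology ComplexConjugate ComplexOrder Matrix
open Set Filter Vale.Agent.P253Z
open Vale.Agent.P272.K (Cm)
open Vale.Agent.P253.R2.H451 (levi2)
open Complex (I)

noncomputable section

namespace Vale.Agent.P253W.Y

namespace Lev

section
variable {E : Type} [NormedAddCommGroup E] [NormedSpace ℂ E]

/-- value, gradient and Laplacian of `f` on the complex line through `z` in the direction `ξ` -/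
structure Jt (f : E → ℝ) (z ξ : E) (x p q L : ℝ) : Prop where
  sm : ContDiffAt ℝ 2 f z
  v : f z = x
  d : fderiv ℝ f z ξ = p
  e : fderiv ℝ f z (I • ξ) = q
  l : levi2 f z ξ = L

variable {f g : E → ℝ} {z ξ : E} {x p q L x' p' q' L' : ℝ}

theorem d2 (h : ContDiffAt ℝ 2 f z) : HasFDerivAt (fderiv ℝ f) (fderiv ℝ (fderiv ℝ f) z) z :=
  ((h.fderiv_right (m := 1) le_rfl).differentiableAt one_ne_zero).hasFDerivAt

theorem d1 (h : ContDiffAt ℝ 2 f z) : ∀ᶠ y in 𝓝 z, HasFDerivAt f (fderiv ℝ f y) y :=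
  (h.eventually (by simp)).mono fun _ k => (k.differentiableAt two_ne_zero).hasFDerivAt

theorem Jt.congr (h : Jt f z ξ x p q L) (k : g =ᶠ[𝓝 z] f) : Jt g z ξ x p q L :=
  ⟨h.sm.congr_of_eventuallyEq k, k.self_of_nhds.trans h.v, by rw [k.fderiv_eq, h.d],
    by rw [k.fderiv_eq, h.e], by rw [levi2, k.fderiv.fderiv_eq]; exact h.l⟩

theorem Jt.add (h : Jt f z ξ x p q L) (k : Jt g z ξ x' p' q' L') :
    Jt (fun y => f y + g y) z ξ (x + x') (p + p') (q + q') (L + L') := by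
  have e : fderiv ℝ (fun y => f y + g y) =ᶠ[𝓝 z] fun y => fderiv ℝ f y + fderiv ℝ g y := by
    filter_upwards [d1 h.sm, d1 k.sm] with y a b using (a.fun_add b).fderiv
  refine ⟨h.sm.add k.sm, by rw [h.v, k.v], by simp [e.self_of_nhds, h.d, k.d],
    by rw [e.self_of_nhds, add_apply, h.e, k.e], ?_⟩
  rw [levi2, e.fderiv_eq, ((d2 h.sm).fun_add (d2 k.sm)).fderiv, ← h.l, ← k.l]
  simp only [levi2, add_apply]
  ring

theorem Jt.mul (h : Jt f z ξ x p q L) (k : Jt g z ξ x' p' q' L') :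
    Jt (fun y => f y * g y) z ξ (x * x') (x * p' + x' * p) (x * q' + x' * q)
      (x * L' + x' * L + 2 * (p * p' + q * q')) := by
  have e : fderiv ℝ (fun y => f y * g y) =ᶠ[𝓝 z]
      fun y => f y • fderiv ℝ g y + g y • fderiv ℝ f y := by
    filter_upwards [d1 h.sm, d1 k.sm] with y a b using (a.fun_mul b).fderiv
  refine ⟨h.sm.mul k.sm, by rw [h.v, k.v], by simp [e.self_of_nhds, h.d, k.d, h.v, k.v],
    by simp only [e.self_of_nhds, add_apply, smul_apply, h.e, k.e, h.v, k.v, smul_eq_mul], ?_⟩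
  rw [levi2, e.fderiv_eq, (((d1 h.sm).self_of_nhds.fun_smul (d2 k.sm)).fun_add
    ((d1 k.sm).self_of_nhds.fun_smul (d2 h.sm))).fderiv, ← h.l, ← k.l]
  simp only [levi2, add_apply, smul_apply, ContinuousLinearMap.smulRight_apply, smul_eq_mul, h.d,
    k.d, h.e, k.e, h.v, k.v]
  ring

theorem Jt.comp (h : Jt f z ξ x p q L) {φ φ₁ : ℝ → ℝ} {φ₂ : ℝ} (c : ContDiffAt ℝ 2 φ x)
    (a : ∀ᶠ t in 𝓝 x, HasDerivAt φ (φ₁ t) t) (b : HasDerivAt φ₁ φ₂ x) :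
    Jt (fun y => φ (f y)) z ξ (φ x) (φ₁ x * p) (φ₁ x * q) (φ₁ x * L + φ₂ * (p ^ 2 + q ^ 2)) := by
  obtain ⟨s, rfl, rfl, rfl, rfl⟩ := h
  have e : fderiv ℝ (fun y => φ (f y)) =ᶠ[𝓝 z] fun y => φ₁ (f y) • fderiv ℝ f y := by
    filter_upwards [d1 s, s.continuousAt.eventually a] with y u v using
      (v.comp_hasFDerivAt y u).fderiv
  refine ⟨c.comp z s, rfl, by simp [e.self_of_nhds], by rw [e.self_of_nhds]; rfl, ?_⟩
  rw [levi2, e.fderiv_eq.trans ((b.comp_hasFDerivAt z (d1 s).self_of_nhds).fun_smul (d2 s)).fderiv]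
  simp only [levi2, add_apply, smul_apply, ContinuousLinearMap.smulRight_apply, smul_eq_mul,
    Function.comp]
  ring

theorem Jt.exp (h : Jt f z ξ x p q L) : Jt (fun y => Real.exp (f y)) z ξ x.exp (x.exp * p)
    (x.exp * q) (x.exp * L + x.exp * (p ^ 2 + q ^ 2)) :=
  h.comp Real.contDiff_exp.contDiffAt (.of_forall Real.hasDerivAt_exp) (Real.hasDerivAt_exp x)

theorem Jt.cmul (h : Jt f z ξ x p q L) (c : ℝ) :
    Jt (fun y => c * f y) z ξ (c * x) (c * p) (c * q) (c * L) := by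
  simpa using h.comp (φ := fun t => c * t) (φ₁ := fun _ => c) (by fun_prop)
    (.of_forall fun t => by simpa using (hasDerivAt_id t).const_mul c) (hasDerivAt_const x c)

theorem jt_lin (T : E →L[ℝ] ℝ) (z ξ : E) : Jt T z ξ (T z) (T ξ) (T (I • ξ)) 0 :=
  ⟨T.contDiff.contDiffAt, rfl, by simp, by simp, by
    simp [levi2, show fderiv ℝ T = fun _ => T from funext fun _ => T.fderiv]⟩

end

variable {n : ℕ} {z : P n}

/-- functions of the first variable -/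
theorem jt_fst {a : ℂ → ℝ} (h : ContDiffAt ℝ 2 a z.1) (ξ : P n) : Jt (fun q : P n => a q.1) z ξ
    (a z.1) (fderiv ℝ a z.1 ξ.1) (fderiv ℝ a z.1 (I * ξ.1)) (‖ξ.1‖ ^ 2 * levi2 a z.1 1) := by
  have e : fderiv ℝ (fun q : P n => a q.1) =ᶠ[𝓝 z]
      fun y => (fderiv ℝ a y.1).comp (.fst ℝ _ _) := by
    filter_upwards [continuousAt_fst.eventually (d1 h)] with y u using
      (u.comp y hasFDerivAt_fst).fderiv
  refine ⟨h.comp z contDiffAt_fst, rfl, by rw [e.self_of_nhds]; rfl, by rw [e.self_of_nhds]; rfl, ?_⟩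
  rw [levi2, e.fderiv_eq.trans (((d2 h).comp z hasFDerivAt_fst).clm_comp
    (hasFDerivAt_const (ContinuousLinearMap.fst ℝ ℂ (Cm n)) z)).fderiv, levi2]
  generalize fderiv ℝ (fderiv ℝ a) z.1 = B
  have e1 : ξ.1 = ξ.1.re • (1 : ℂ) + ξ.1.im • I := by simp
  have e2 : I * ξ.1 = (-ξ.1.im) • (1 : ℂ) + ξ.1.re • I := by simp [Complex.ext_iff]
  change _ + B ξ.1 ξ.1 + (_ + B (I * ξ.1) (I * ξ.1)) = _
  rw [e2, Complex.sq_norm, Complex.normSq_apply]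
  generalize ξ.1.re = s at *
  generalize ξ.1.im = t at *
  rw [e1]
  simp only [map_add, map_smul, add_apply, smul_apply, smul_eq_mul, mul_one]
  simp
  ring

/-- powers of the modulus of the first variable -/
theorem jt_pow (h : z.1 ≠ 0) (ξ : P n) : ∃ y₁ y₂ : ℝ, y₁ ^ 2 + y₂ ^ 2 = ‖ξ.1‖ ^ 2 / ‖z.1‖ ^ 2 ∧
    ∀ ξ' : P n, ξ'.1 = ξ.1 → ∀ γ : ℝ, Jt (fun q : P n => ‖q.1‖ ^ γ) z ξ' (‖z.1‖ ^ γ)
      (‖z.1‖ ^ γ * (γ * y₁)) (‖z.1‖ ^ γ * (γ * y₂))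
      (‖z.1‖ ^ γ * ((γ * y₁) ^ 2 + (γ * y₂) ^ 2)) := by
  have N0 := Complex.normSq_pos.2 h
  refine ⟨(z.1.re * ξ.1.re + z.1.im * ξ.1.im) / Complex.normSq z.1,
    (z.1.im * ξ.1.re - z.1.re * ξ.1.im) / Complex.normSq z.1, ?_, fun ξ' e γ => ?_⟩
  · simp only [Complex.sq_norm]
    field_simp
    simp only [Complex.normSq_apply]
    ring
  have a := jt_lin (Complex.reCLM.comp (.fst ℝ ℂ (Cm n))) z ξ'
  have b := jt_lin (Complex.imCLM.comp (.fst ℝ ℂ (Cm n))) z ξ'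
  have N1 : z.1.re * z.1.re + z.1.im * z.1.im ≠ 0 := N0.ne'
  have c := ((((a.mul a).add (b.mul b)).comp (Real.contDiffAt_log.2 N1)
    ((eventually_ne_nhds N1).mono fun _ => Real.hasDerivAt_log) (hasDerivAt_inv N1)).cmul
      (γ / 2)).exp
  have k : ∀ τ : ℂ, τ ≠ 0 →
      ‖τ‖ ^ γ = Real.exp (γ / 2 * Real.log (τ.re * τ.re + τ.im * τ.im)) := fun τ t => by
    rw [Real.rpow_def_of_pos (norm_pos_iff.2 t), ← Complex.normSq_apply, ← Complex.sq_norm,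
      Real.log_pow]
    congr 1; push_cast; ring
  have := c.congr (g := fun q : P n => ‖q.1‖ ^ γ)
    ((continuousAt_fst.eventually_ne h).mono fun q t => k _ t)
  rw [k _ h, Complex.normSq_apply]
  convert this using 1 <;> simp [e] <;> field_simp <;> ring

/-- the inequality of Cauchy and Schwarz -/
theorem cs {H : Mx n} (h : H.PosDef) (a v : Cm n) : 0 ≤ qf H v ∧ hf H v v = qf H v ∧
    ∃ μ : ℂ, hf H a v = qf H v * μ ∧ qf H v * ‖μ‖ ^ 2 ≤ qf H a := by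
  have p : ∀ v, 0 ≤ hf H v v := fun v => by
    simpa [hf] using h.posSemidef.dotProduct_mulVec_nonneg (star v)
  have p0 : ∀ v, 0 ≤ qf H v := fun v => (Complex.nonneg_iff.1 (p v)).1
  have r : hf H v v = qf H v := Complex.ext rfl (Complex.nonneg_iff.1 (p v)).2.symm
  refine ⟨p0 v, r, ?_⟩
  rcases eq_or_ne v 0 with rfl | v0
  · exact ⟨0, by simp [hf], by simpa using p0 a⟩
  have q0 : 0 < qf H v := by
    simpa [qf] using (Complex.pos_iff.1 (h.dotProduct_mulVec_pos (star_ne_zero.2 v0))).1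
  have s : hf H v a = conj (hf H a v) := by
    rw [hf, hf, ← Complex.star_def, ← Matrix.star_dotProduct_star, Matrix.star_mulVec, star_star, h.1,
      ← Matrix.dotProduct_mulVec]
  obtain ⟨μ, e⟩ : ∃ μ : ℂ, hf H a v = qf H v * μ :=
    ⟨_, (mul_div_cancel₀ _ (by exact_mod_cast q0.ne')).symm⟩
  refine ⟨μ, e, ?_⟩
  have k : hf H (a - μ • v) (a - μ • v) =
      hf H a a - conj μ * hf H a v - μ * hf H v a + μ * conj μ * hf H v v := by
    simp only [hf, star_sub, star_smul, Matrix.mulVec_sub, Matrix.mulVec_smul, sub_dotProduct,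
      dotProduct_sub, smul_dotProduct, dotProduct_smul, smul_eq_mul, Complex.star_def]
    ring
  have := (Complex.nonneg_iff.1 (p (a - μ • v))).1
  rw [k, s, e, r] at this
  simp [Complex.sq_norm, Complex.normSq_apply] at this ⊢
  change _ ≤ (hf H a a).re
  linarith

variable {D : P n → ℝ} {H : Mx n} {v : Cm n} {w : P n →L[ℂ] Cm n} {c₁ c₂ : ℝ}

theorem jt_D (h : Pt D z H v w c₁ c₂) (ξ : P n) {μ : ℂ} (e : hf H (w ξ) v = qf H v * μ) :
    Jt D z ξ (D z) (D z * (2 * μ.re)) (D z * (-2 * μ.im)) (levi2 D z ξ) := by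
  refine ⟨h.sm, rfl, by rw [h.d1, e, h.val]; simp; ring, ?_, rfl⟩
  have : hf H (w (I • ξ)) v = I * hf H (w ξ) v := by simp [hf]
  rw [h.d1, this, e, h.val]; simp; ring

/-- the functions of the first and of the third part -/
theorem jt_F {k k' a : P n → ℝ} {ξ : P n} {d κ κ' α m₁ m₂ y₁ y₂ u₁ u₂ a₁ a₂ L A s₁ s₂ : ℝ} (σ : ℝ)
    (hD : Jt D z ξ d (d * m₁) (d * m₂) L)
    (hk : Jt k z ξ κ (κ * y₁) (κ * y₂) (κ * (y₁ ^ 2 + y₂ ^ 2)))
    (hk' : Jt k' z ξ κ' (κ' * u₁) (κ' * u₂) (κ' * (u₁ ^ 2 + u₂ ^ 2))) (ha : Jt a z ξ α a₁ a₂ A)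
    (e₁ : s₁ = y₁ + u₁ + σ * (κ * d * (m₁ + y₁) + a₁))
    (e₂ : s₂ = y₂ + u₂ + σ * (κ * d * (m₂ + y₂) + a₂)) :
    ∃ c > 0, Jt (fun q => k q * D q * Real.exp (σ * (k q * D q + a q)) * k' q) z ξ
      (κ * κ' * c * d) (κ * κ' * c * (d * (m₁ + s₁))) (κ * κ' * c * (d * (m₂ + s₂)))
      (κ * κ' * c * ((1 + σ * κ * d) * (L - d * (m₁ ^ 2 + m₂ ^ 2)) +
        d * ((m₁ + s₁) ^ 2 + (m₂ + s₂) ^ 2) +
        σ * d * (A + κ * d * ((m₁ + y₁) ^ 2 + (m₂ + y₂) ^ 2)))) := by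
  refine ⟨_, Real.exp_pos (σ * (κ * d + α)), ?_⟩
  subst e₁ e₂
  convert ((hk.mul hD).mul (((hk.mul hD).add ha).cmul σ).exp).mul hk' using 1 <;> ring

theorem key {d κ b g A y₁ y₂ : ℝ} (m₁ m₂ : ℝ) (d0 : 0 ≤ d) (c0 : 0 ≤ c₁) (hc : 100 * c₁ ≤ κ)
    (b0 : 0 ≤ b) (hy : y₁ ^ 2 + y₂ ^ 2 ≤ g) (hA : 100 * (b + c₁ * d * g) ≤ A) :
    2 * (b + c₁ * d * (m₁ ^ 2 + m₂ ^ 2) / 4) ≤ A + κ * d * ((m₁ + y₁) ^ 2 + (m₂ + y₂) ^ 2) := by
  have h1 : m₁ ^ 2 + m₂ ^ 2 ≤ 2 * ((m₁ + y₁) ^ 2 + (m₂ + y₂) ^ 2) + 2 * g := by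
    linarith [sq_nonneg (m₁ + 2 * y₁), sq_nonneg (m₂ + 2 * y₂)]
  have N0 : 0 ≤ d * ((m₁ + y₁) ^ 2 + (m₂ + y₂) ^ 2) := by positivity
  have g0 : 0 ≤ g := le_trans (by positivity) hy
  linarith [mul_le_mul_of_nonneg_left h1 (mul_nonneg c0 d0), mul_le_mul_of_nonneg_right hc N0,
    mul_nonneg c0 N0, mul_nonneg (mul_nonneg c0 d0) g0]

end Lev

open Lev in
theorem lev (n : ℕ) : LEV n := by
  intro D z H v w c₁ c₂ γ γ' a h ha z1 g0 g1 c1 c2 hc hD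
  have z0 : z.1 ≠ 0 := norm_pos_iff.1 (by linarith)
  have k0 : 0 < ‖z.1‖ ^ γ := by positivity
  have k0' : 0 < ‖z.1‖ ^ γ' := by positivity
  have D0 : 0 ≤ D z := h.val ▸ (cs h.pos v v).1
  have cD : c₁ * D z ≤ 1 / 100 := by nlinarith
  have gy : ∀ {y₁ y₂ t : ℝ}, y₁ ^ 2 + y₂ ^ 2 = t → (γ * y₁) ^ 2 + (γ * y₂) ^ 2 ≤ t := fun e => by
    rw [← e, mul_pow, mul_pow, ← mul_add]
    exact mul_le_of_le_one_left (by positivity) (pow_le_one₀ g0 g1)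
  have mu : ∀ μ : ℂ, (2 * μ.re) ^ 2 + (-2 * μ.im) ^ 2 = 4 * ‖μ‖ ^ 2 := fun μ => by
    rw [Complex.sq_norm, Complex.normSq_apply]; ring
  refine ⟨fun hA ξ => ?_, fun hA ξ => ?_, fun hA h2 E hE => ?_⟩
  · obtain ⟨y₁, y₂, hy, jy⟩ := jt_pow z0 ξ
    obtain ⟨-, -, μ, e, l⟩ := cs h.pos (w ξ) v
    obtain ⟨c, c0, j⟩ := jt_F 1 (jt_D h ξ e) (jy ξ rfl γ) (jy ξ rfl γ') (jt_fst ha ξ) rfl rfl
    simp only [one_mul] at j
    rw [j.l]
    refine mul_nonneg (by positivity) ?_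
    have k := key (b := c₂ * ‖ξ.1‖ ^ 2) (A := ‖ξ.1‖ ^ 2 * levi2 a z.1 1) (2 * μ.re) (-2 * μ.im) D0
      c1 hc (by positivity) (gy hy) ((le_of_eq (by ring)).trans
        (mul_le_mul_of_nonneg_left hA (sq_nonneg _)))
    have d := (abs_le.1 (h.d2 ξ)).1
    rw [← h.val] at l
    rw [mu] at k ⊢
    have B0 : 0 ≤ D z * (c₂ * ‖ξ.1‖ ^ 2 + c₁ * D z * (4 * ‖μ‖ ^ 2) / 4) := by positivity
    have X : -(D z * (c₂ * ‖ξ.1‖ ^ 2 + c₁ * D z * (4 * ‖μ‖ ^ 2) / 4)) ≤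
        levi2 D z ξ - D z * (4 * ‖μ‖ ^ 2) := by
      linarith [mul_le_mul_of_nonneg_right cD (sub_nonneg.2 l)]
    rw [add_right_comm]
    refine add_nonneg ?_ (by positivity)
    linarith [mul_le_mul_of_nonneg_left X (show 0 ≤ 1 + ‖z.1‖ ^ γ * D z by positivity),
      mul_le_mul_of_nonneg_right hD B0, mul_le_mul_of_nonneg_left k D0]
  · obtain ⟨y₁, y₂, hy, jy⟩ := jt_pow z0 ξ
    obtain ⟨W0, -, -⟩ := cs h.pos v (w ξ)
    obtain ⟨-, -, μ, e, l⟩ := cs h.pos (w ξ) v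
    rw [((jt_fst ha ξ).add ((jy ξ rfl γ).mul (jt_D h ξ e))).l]
    have d := (abs_le.1 (h.d2 ξ)).1
    rw [← h.val] at l
    have g := gy hy
    have m := mu μ
    generalize γ * y₁ = u₁ at *
    generalize γ * y₂ = u₂ at *
    have b : 0 ≤ c₂ * ‖ξ.1‖ ^ 2 := by positivity
    have h1 := mul_le_mul_of_nonneg_left hA (sq_nonneg ‖ξ.1‖)
    have h2 := mul_le_mul_of_nonneg_left g (mul_nonneg k0.le D0)
    have h3 : 0 ≤ ‖z.1‖ ^ γ * D z * ((μ.re + u₁) ^ 2 + (μ.im - u₂) ^ 2) := by positivity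
    have h4 : 0 ≤ ‖z.1‖ ^ γ * D z * (‖ξ.1‖ ^ 2 / ‖z.1‖ ^ 2) := by positivity
    have h5 := congrArg (‖z.1‖ ^ γ * D z * ·) m
    rw [div_eq_mul_inv] at h1 h2 h4
    linarith [mul_le_mul_of_nonneg_left d k0.le, mul_le_mul_of_nonneg_right hD b,
      mul_le_mul_of_nonneg_right cD (mul_nonneg k0.le W0), mul_le_mul_of_nonneg_left l k0.le,
      mul_nonneg k0.le W0]
  · obtain ⟨y₁, y₂, hy, jy⟩ := jt_pow z0 ((1, 0) : P n)
    have n1 : 1 - ‖z.1‖ ^ γ * D z ≠ 0 := by linarith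
    obtain ⟨μ, m₁, m₂⟩ : ∃ μ : ℂ, 2 * μ.re * (1 - ‖z.1‖ ^ γ * D z) =
        ‖z.1‖ ^ γ * D z * (γ * y₁) + fderiv ℝ a z.1 1 - γ * y₁ - γ' * y₁ ∧
        -2 * μ.im * (1 - ‖z.1‖ ^ γ * D z) =
        ‖z.1‖ ^ γ * D z * (γ * y₂) + fderiv ℝ a z.1 (I * 1) - γ * y₂ - γ' * y₂ :=
      ⟨⟨_ / (1 - ‖z.1‖ ^ γ * D z) / 2, _ / (1 - ‖z.1‖ ^ γ * D z) / (-2)⟩,
        by rw [mul_div_cancel₀ _ two_ne_zero, div_mul_cancel₀ _ n1],
        by rw [mul_div_cancel₀ _ (by norm_num), div_mul_cancel₀ _ n1]⟩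
    obtain ⟨x, hx⟩ := h.bij.2 (μ • v - w (1, 0))
    have e0 : w (1, x) = μ • v := by
      rw [← sub_add_cancel (μ • v) (w (1, 0)), ← hx, ← map_add]; simp
    have r := (cs h.pos v v).2.1
    have e : hf H (w (1, x)) v = qf H v * μ := by rw [e0, ← r, hf, hf, smul_dotProduct, mul_comm]; rfl
    have W : qf H (w (1, x)) = D z * ‖μ‖ ^ 2 := by
      change (hf H _ _).re = _
      have : hf H (μ • v) (μ • v) = μ * conj μ * hf H v v := by
        simp only [hf, star_smul, Matrix.mulVec_smul, smul_dotProduct, dotProduct_smul,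
          smul_eq_mul, Complex.star_def]
        ring
      rw [e0, this, r, Complex.mul_conj', h.val, ← Complex.ofReal_pow, ← Complex.ofReal_mul,
        Complex.ofReal_re, mul_comm]
    obtain ⟨c, c0, j⟩ := jt_F (s₁ := -(2 * μ.re)) (s₂ := -(-2 * μ.im)) (-1) (jt_D h (1, x) e)
      (jy (1, x) rfl γ) (jy (1, x) rfl γ') (jt_fst ha (1, x)) (by linarith) (by linarith)
    simp only [neg_one_mul, neg_add, ← sub_eq_add_neg, sub_self, ← hE] at j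
    refine ⟨(1, x), rfl, by simpa using j.d, by simpa using j.e,
      j.l.trans_le (mul_nonpos_of_nonneg_of_nonpos (by positivity) ?_)⟩
    simp only [norm_one, one_pow] at hy ⊢
    have k := key (2 * μ.re) (-2 * μ.im) D0 c1 hc c2 (gy hy) ((le_of_eq (by ring)).trans hA)
    have d := (abs_le.1 (h.d2 (1, x))).2
    rw [W, norm_one] at d
    rw [mu] at k ⊢
    have B0 : 0 ≤ D z * (c₂ + c₁ * D z * (4 * ‖μ‖ ^ 2) / 4) := by positivity
    have X : levi2 D z (1, x) - D z * (4 * ‖μ‖ ^ 2) ≤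
        D z * (c₂ + c₁ * D z * (4 * ‖μ‖ ^ 2) / 4) := by linarith
    linarith [mul_le_mul_of_nonneg_left X (sub_nonneg.2 hD), mul_le_mul_of_nonneg_left k D0,
      mul_nonneg (mul_nonneg k0.le D0) B0]

end Vale.Agent.P253W.Y
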