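import Vale.Agent.P253W.Y.Defs
import Vale.Agent.P253W.C.Eig

/-!
# P253W, block Y: construction of the model (MOD)
-/

open scoped Manifold ContDiff Bundle ENNReal Topology ComplexConjugate ComplexOrder Matrix
open Bundle IsManifold MeasureTheory Set Metric Filter Vale.Agent.P253.Mfd Vale.Agent.P253Z
open Vale.Agent.P272.K (Cm dz Chart)
open Vale.Agent.P253.R2.H451 (levi2)

noncomputable section

namespace Vale.Agent.P253W.Y

namespace Md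

variable {n : ℕ}

theorem qf_nn {A : Mx n} (h : A.PosDef) (v : Cm n) : 0 ≤ qf A v := by
  simpa [qf] using h.posSemidef.re_dotProduct_nonneg (star v)

theorem pd_of {A : Mx n} (h : A.IsHermitian) (h' : ∀ v, v ≠ 0 → 0 < qf A v) : A.PosDef :=
  .of_dotProduct_mulVec_pos h fun x hx => Complex.pos_iff.2
    ⟨by simpa [qf] using h' _ (star_ne_zero.2 hx), (h.im_star_dotProduct_mulVec_self x).symm⟩

theorem wn_pos (k : Fin n → ℝ) {τ : ℂ} (hτ : 0 < ‖τ‖) {y : Cm n} (hy : y ≠ 0) : 0 < wn k τ y := by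
  obtain ⟨i, hi⟩ := Function.ne_iff.1 hy
  exact Finset.sum_pos' (fun _ _ => by positivity) ⟨i, Finset.mem_univ i,
    mul_pos (pow_pos (norm_pos_iff.2 hi) 2) (Real.rpow_pos_of_pos hτ _)⟩

theorem jac_mono {C C' e : ℝ} {G : ℂ → Mx n} {m : ℂ → ℝ} {c : Ch n} (h : Jac C e G m c)
    (hC : C ≤ C') (hm : ∀ z ∈ c.target, 0 ≤ m z.1) : Jac C' e G m c := fun z hz => by
  obtain ⟨H, v, w, a, b⟩ := h z hz
  have h1 := hm z hz
  have h2 := qf_nn a.pos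
  refine ⟨H, v, w, ⟨a.sm, a.pos, a.bij, a.val, a.d1, fun ξ => (a.d2 ξ).trans ?_⟩,
    fun ξ => (b ξ).trans ?_⟩
  · have := h2 (w ξ)
    have := a.val ▸ h2 v
    gcongr
  · have := h2 (w ξ)
    gcongr

theorem fib_mono {C C' e : ℝ} {G : ℂ → Mx n} {c : Ch n} {τ : ℂ} {Θ : Mx n} (h : Fib C e G c τ Θ)
    (hC : C ≤ C') (hG : (G τ).PosDef) : Fib C' e G c τ Θ :=
  ⟨h.det, fun y => (h.lo y).trans (by have := qf_nn hG y; gcongr),
    fun y => (h.up y).trans (by gcongr),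
    fun y hy => ⟨(h.dir y hy).1.trans (by gcongr), (h.dir y hy).2⟩,
    fun x hx => ⟨(h.inv x hx).1.trans (by gcongr), (h.inv x hx).2⟩, h.ball⟩

theorem sk_det {C s : ℝ} {W : Cm n → Mx n} (h : SK C s W) {x : Cm n} (hx : x ∈ ball (0 : Cm n) 1) :
    (s ^ 2) ^ n ≤ (max C 1 * (n + 1)) ^ n * (W x).det.re ∧
      (W x).det.re ≤ (max C 1 * (n + 1)) ^ n * (s ^ 2) ^ n := by
  have hs := h.s_pos
  have hp := h.pos x hx
  have c1 := le_max_left C 1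
  have c2 := le_max_right C 1
  generalize max C 1 = K at c1 c2
  have k0 : 0 < K * (n + 1) := by positivity
  have n1 : ∀ v : Cm n, ∑ i, ‖v i‖ ^ 2 ≤ (n + 1) * ‖v‖ ^ 2 := fun v =>
    (Finset.sum_le_card_nsmul _ _ (‖v‖ ^ 2) fun i _ => by gcongr; exact norm_le_pi_norm v i).trans
      (by simp [add_mul])
  have n2 : ∀ v : Cm n, ‖v‖ ^ 2 ≤ (n + 1) * ∑ i, ‖v i‖ ^ 2 := fun v => by
    have h0 : 0 ≤ ∑ i, ‖v i‖ ^ 2 := by positivity
    have h1 : ‖v‖ ≤ √(∑ i, ‖v i‖ ^ 2) := (pi_norm_le_iff_of_nonneg (Real.sqrt_nonneg _)).2 fun i =>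
      Real.le_sqrt_of_sq_le (Finset.single_le_sum (f := fun i => ‖v i‖ ^ 2)
        (fun _ _ => sq_nonneg _) (Finset.mem_univ i))
    have h2 := (Real.le_sqrt (norm_nonneg _) h0).1 h1
    nlinarith [mul_nonneg n.cast_nonneg h0]
  constructor
  · have h1 := ((P253W.C.eig n).low (W x) (s ^ 2 / (K * (n + 1))) hp.isHermitian (by positivity)
      fun v => by
        have h2 := h.lo x hx v
        have h3 := qf_nn hp v
        rw [div_mul_eq_mul_div, div_le_iff₀ k0]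
        calc s ^ 2 * ∑ i, ‖v i‖ ^ 2 ≤ s ^ 2 * ((n + 1) * ‖v‖ ^ 2) := by gcongr; exact n1 v
          _ = (n + 1) * (s ^ 2 * ‖v‖ ^ 2) := by ring
          _ ≤ (n + 1) * (K * qf (W x) v) :=
            mul_le_mul_of_nonneg_left (h2.trans (by gcongr)) (by positivity)
          _ = qf (W x) v * (K * (n + 1)) := by ring).2
    rwa [div_pow, div_le_iff₀' (by positivity)] at h1
  · rw [← mul_pow]
    refine (P253W.C.eig n).up (W x) _ hp fun v => (h.up x hx v).trans ?_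
    calc C * (s ^ 2 * ‖v‖ ^ 2) ≤ K * (s ^ 2 * ((n + 1) * ∑ i, ‖v i‖ ^ 2)) := by
          gcongr
          exact n2 v
      _ = _ := by ring

variable {ρ e C r C₁ : ℝ} {G : ℂ → Mx n} {m : ℂ → ℝ} {τ₀ : ℂ}

/-- the geodesic which belongs to a point of the source -/
theorem geo {L : Loc ρ e C r C₁ G m τ₀} {c : Ch n} (h : L.Is c) (hr : 0 < r) {q : P n}
    (hq : q ∈ c.source) : q.1 ∈ ball τ₀ L.δ ∧ ∃ γ γ' : ℝ → Cm n, IsGeo L.W (ball 0 1) γ γ' ∧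
      γ 0 = L.p q.1 ∧ γ' 0 = q.2 ᵥ* L.Θ q.1 ∧ γ 1 = (c q).2 := by
  have h1 : q.1 ∈ ball τ₀ L.δ := (h.src ▸ hq).2
  have h2 := (L.p_an _ h1).2
  have h3 := h.sml q hq
  have h4 := L.geo.small.2
  obtain ⟨γ', a, b⟩ := L.geo.geo (L.p q.1) (mem_ball_zero_iff.2 (by linarith))
    (q.2 ᵥ* L.Θ q.1) (mem_ball_zero_iff.2 (by linarith))
  refine ⟨h1, _, γ', fun t ht => ⟨closedBall_subset_ball' ?_ (b t ht).1, (b t ht).2⟩,
    by simp [L.geo.zero], a, by simp [h.fwd]⟩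
  rw [dist_zero_right]
  linarith

end Md

open Md in
/-- **MOD** -/
theorem mod : MOD := by
  intro n M _ _ _ _ _ _ _ _ _ _ _ _ μ F A T _ hgeo h1 h2 hnu tr uq f k θ t C ρ e C' ρ' Ψ m hf hF hM
    hS hm he
  have e0 := hS.e_pos
  have e1 : e ≤ 1 := by nlinarith [mul_nonneg n.cast_nonneg e0.le]
  have t0 : 0 < t := zero_lt_one.trans_le hS.t_mem.1
  obtain ⟨r, C₁, r0, c1, hg⟩ := hgeo C
  obtain ⟨C₂, ρ₁, c2, hc⟩ := h1 e C r C₁ e0 e1 r0 c1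
  obtain ⟨ρ₃, hθ⟩ := hF.hol
  obtain ⟨ρ₄, hw⟩ := hF.met (e / 2) (half_pos e0)
  obtain ⟨ρ₅, hn⟩ := hM t C ρ e Ψ hS (e / 2) (half_pos e0)
  obtain ⟨R, r1, r2, r3, r4, r5, r6⟩ : ∃ R, ρ ≤ R ∧ ρ' ≤ R ∧ ρ₁ ≤ R ∧ ρ₃ ≤ R ∧ ρ₄ ≤ R ∧ ρ₅ ≤ R :=
    ⟨max ρ (max ρ' (max ρ₁ (max ρ₃ (max ρ₄ ρ₅)))), by simp⟩
  have sb : ∀ {a}, a ≤ R → ex R ⊆ ex a := fun h _ hτ => h.trans_lt hτ
  have r8 : ∀ τ ∈ ex R, 8 < ‖τ‖ := fun τ hτ => (hS.ρ_ge.trans r1).trans_lt hτ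
  have oR : IsOpen (ex R) := isOpen_lt continuous_const continuous_norm
  have hθ' : ∀ i, Al f (θ i) (ex R) := fun i e he =>
    (hθ i e he).mono (inter_subset_inter_left _ (sb r4))
  obtain ⟨g1, g2⟩ := tr.gr f θ (ex R) t oR t0.le (hf.mono (subset_univ _)) hθ'
  set G := Gr F t f θ with hG
  have cmp : ∀ τ ∈ ex R, ∀ y, wn k τ y ≤ ‖τ‖ ^ e * qf (G τ) y ∧
      qf (G τ) y ≤ ‖τ‖ ^ e * wn k τ y := fun τ hτ y => by
    have p0 : 0 < ‖τ‖ := by linarith [r8 τ hτ]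
    obtain ⟨a1, a2⟩ := hw τ (sb r5 hτ) y
    obtain ⟨-, b1, b2⟩ := hn τ (sb r6 hτ) 0 (mem_ball_self one_pos) (∑ i, y i • θ i τ)
    have w0 : 0 ≤ wn k τ y := Finset.sum_nonneg fun _ _ => by positivity
    rw [(g2 τ).2]
    constructor
    · rw [Real.rpow_neg p0.le, inv_mul_le_iff₀ (by positivity)] at a1
      refine (a1.trans (mul_le_mul_of_nonneg_left b2 (by positivity))).trans_eq ?_
      rw [← mul_assoc, ← Real.rpow_add p0, add_halves]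
    · refine (b1.trans a2).trans (mul_le_mul_of_nonneg_right ?_ w0)
      exact Real.rpow_le_rpow_of_exponent_le (by linarith [r8 τ hτ]) (half_le_self e0.le)
  have gp : ∀ τ ∈ ex R, ∀ y, y ≠ 0 → 0 < qf (G τ) y := fun τ hτ y hy => by
    have p0 : 0 < ‖τ‖ := by linarith [r8 τ hτ]
    exact (mul_pos_iff_of_pos_left (Real.rpow_pos_of_pos p0 e)).1
      ((wn_pos k p0 hy).trans_le (cmp τ hτ y).1)
  have pd : ∀ τ ∈ ex R, (G τ).PosDef := fun τ hτ => pd_of (g2 τ).1 (gp τ hτ)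
  have hL : ∀ i : ex R, ∃ (L : Loc R e C r C₁ G m i) (c : Ch n), L.Is c ∧ Reg c ∧
      Fib C₂ e G c i (L.Θ i) ∧ L.W = F.pull (Ψ i) t ∧ ∀ τ ∈ ball i.1 L.δ, Ψ i (L.p τ) = f τ ∧
        ∀ y, dn (Ψ i) (L.p τ) (y ᵥ* L.Θ τ) = ∑ j, y j • θ j τ := by
    rintro ⟨τ₀, h0⟩
    have sk := hS.sk τ₀ (sb r1 h0)
    have im := hS.imm τ₀ (sb r1 h0)
    obtain ⟨ex', lg, gg⟩ := hg _ _ sk
    obtain ⟨δ, p, Θ, d0, d1, d2, p0, hp⟩ := tr.lift (Ψ τ₀) f θ τ₀ (ex R) (r / 4) im oR h0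
      (by positivity) (by linarith [gg.small.2]) (hf.mono (subset_univ _)) hθ'
      (hS.zero τ₀ (sb r1 h0))
    have ge : ∀ τ ∈ ball τ₀ δ, ∀ y, qf (G τ) y = qf (F.pull (Ψ τ₀) t (p τ)) (y ᵥ* Θ τ) :=
      fun τ hτ y => by rw [(g2 τ).2, F.qf_pull, (hp τ hτ).2.2.2.2.2, (hp τ hτ).2.2.1]
    let L : Loc R e C r C₁ G m τ₀ := ⟨δ, _, ex', lg, p, Θ, ⟨d0, d1⟩, d2, sk, gg, p0,
      fun τ hτ => ⟨(hp τ hτ).1, (hp τ hτ).2.1⟩, fun τ hτ => ⟨(hp τ hτ).2.2.2.2.1, fun h => by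
        obtain ⟨y, hy, h⟩ := Matrix.exists_vecMul_eq_zero_iff.2 h
        have := gp τ (d2 hτ) y hy
        rw [ge τ hτ, h] at this
        simp [qf] at this⟩, ge, fun τ hτ =>
      ⟨(hm.mem τ (sb r2 (d2 hτ))).1, hm.ric τ (sb r2 (d2 hτ)) _ _ _ im (fun y hy s hs => by
        have a1 := r8 τ (d2 hτ)
        have a2 : ‖τ₀‖ ≤ ‖τ‖ ^ 2 := by
          have := norm_sub_norm_le τ₀ τ
          rw [mem_ball', dist_eq_norm] at hτ
          nlinarith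
        have a3 := Real.log_le_log (by linarith [r8 τ₀ h0]) a2
        rw [Real.log_pow] at a3
        have := hS.R τ₀ (sb r1 h0) y hy s hs
        push_cast at a3
        linarith) (hp τ hτ).2.2.1 (hp τ hτ).2.2.2.1⟩⟩
    obtain ⟨c, a1, a2, a3⟩ := hc R G m τ₀ L r3
    exact ⟨L, c, a1, a2, a3, rfl, fun τ hτ => ⟨(hp τ hτ).2.2.1, (hp τ hτ).2.2.2.2.2⟩⟩
  choose L c hI hR hB hW hp using hL
  have im : ∀ i : ex R, Imm (Ψ i) := fun i => hS.imm i (sb r1 i.2)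
  have tb : ∀ i, ∀ z ∈ (c i).target, z.2 ∈ ball (0 : Cm n) 1 := fun i z hz =>
    mem_ball_zero_iff.2 (by linarith [((hI i).tgt z hz).2, (L i).geo.small.2])
  have key : ∀ i j, ∀ q ∈ (c i).source, q ∈ (c j).source → Ψ i (c i q).2 = Ψ j (c j q).2 :=
    fun i j q hi hj => by
      obtain ⟨a0, γ, γ', a1, a2, a3, a4⟩ := geo (hI i) r0 hi
      obtain ⟨b0, σ, σ', b1, b2, b3, b4⟩ := geo (hI j) r0 hj
      rw [← a4, ← b4]
      exact uq _ _ t γ γ' σ σ' (im i) (im j) t0 (hW i ▸ a1) (hW j ▸ b1)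
        (by rw [a2, b2, (hp i _ a0).1, (hp j _ b0).1])
        (by rw [a2, a3, b2, b3, (hp i _ a0).2, (hp j _ b0).2])
  obtain ⟨ix, hx⟩ : ∃ ix : ℂ → ex R, ∀ τ (h : τ ∈ ex R), ix τ = ⟨τ, h⟩ := by
    classical
    exact ⟨fun τ => if h : τ ∈ ex R then ⟨τ, h⟩ else ⟨(|R| + 1 : ℝ), by
      change R < _
      rw [Complex.norm_real, Real.norm_of_nonneg (by positivity)]
      linarith [le_abs_self R]⟩, fun τ h => dif_pos h⟩
  have sub : ∀ i, (c i).source ⊆ Nb R (4 * e) G := fun i q hq => ((hI i).src ▸ hq).1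
  have src : ∀ q ∈ Nb R (4 * e) G, q ∈ (c (ix q.1)).source := fun q hq => by
    rw [hx q.1 hq.1, (hI _).src]
    exact ⟨hq, mem_ball_self (L _).δ_mem.1⟩
  have trs : ∀ i j, ∀ z ∈ (c i).target, (c i).symm z ∈ (c j).source →
      AnalyticAt ℂ (fun z => c j ((c i).symm z)) z ∧ om F (Ψ i) z.2 =
        (fderiv ℂ (fun z => c j ((c i).symm z)) z).det * om F (Ψ j) (c j ((c i).symm z)).2 :=
    fun i j z hz h => by
      have a1 := (c i).continuousAt_symm hz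
      refine tr.trans _ _ _ z (im i) (im j) (tb i z hz) (tb j _ ((c j).map_source h))
        (((c j).continuousAt h).comp a1) ?_
      filter_upwards [(c i).open_target.mem_nhds hz, a1.eventually ((c j).open_source.mem_nhds h)]
        with q b1 b2
      have b3 := (c i).map_target b1
      rw [(hR j).fst _ b2, ← (hR i).fst _ b3, ← key i j _ b3 b2, (c i).right_inv b1]
      exact ⟨rfl, rfl⟩
  have wa : ∀ i, ∀ z ∈ (c i).target, AnalyticAt ℂ (fun z : P n => om F (Ψ i) z.2) z ∧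
      om F (Ψ i) z.2 ≠ 0 := fun i z hz =>
    ⟨(tr.om_an _ (im i) _ (tb i z hz)).1.comp analyticAt_snd, (tr.om_an _ (im i) _ (tb i z hz)).2⟩
  have wc : ∀ i j, ∀ x ∈ (c i).source, x ∈ (c j).source → om F (Ψ i) (c i x).2 =
      (fderiv ℂ (fun z => c j ((c i).symm z)) (c i x)).det * om F (Ψ j) (c j x).2 :=
    fun i j x hi hj => by
      have := (trs i j _ ((c i).map_source hi) (by rwa [(c i).left_inv hi])).2
      rwa [(c i).left_inv hi] at this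
  obtain ⟨ν, n1, n2⟩ := hnu (Nb R (4 * e) G) (ex R) (ex R) c (fun i z => om F (Ψ i) z.2) ix
    (isOpen_iff_mem_nhds.2 fun q hq =>
      mem_of_superset ((c _).open_source.mem_nhds (src q hq)) (sub _))
    oR.measurableSet (fun q hq => hq.1) sub src (fun i => (hR i).fst)
    (fun i j z hz h => (trs i j z hz h).1) (fun i z hz => (wa i z hz).1) wc
  set E : P n → M := fun q => Ψ (ix q.1) (c (ix q.1) q).2 with hE
  have eq : ∀ i, ∀ q ∈ (c i).source, E q = Ψ i (c i q).2 := fun i q hq =>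
    key _ i q (src q (sub i hq)) hq
  have eq' : ∀ i, ∀ z ∈ (c i).target, E ((c i).symm z) = Ψ i z.2 := fun i z hz => by
    rw [eq i _ ((c i).map_target hz), (c i).right_inv hz]
  have ev : ∀ i, ∀ z ∈ (c i).target, (fun q => F.u t (E ((c i).symm q))) =ᶠ[𝓝 z]
      fun q : P n => F.u t (Ψ i q.2) := fun i z hz =>
    mem_of_superset ((c i).open_target.mem_nhds hz) fun q hq => congrArg (F.u t) (eq' i q hq)
  obtain ⟨K, k1, k2, k3, k4⟩ : ∃ K, C₂ ≤ K ∧ 100 * C₁ ≤ K ∧ C' ≤ K ∧ (max C 1 * (n + 1)) ^ n ≤ K :=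
    ⟨max C₂ (max (100 * C₁) (max C' ((max C 1 * (n + 1)) ^ n))), by simp⟩
  refine ⟨⟨R, e, K, k, G, m, fun q => F.u t (E q), ⟨ex R, c, fun i z => om F (Ψ i) z.2, ν, sub,
    fun q hq => ⟨_, src q hq⟩, fun i j z hz h => (trs i j z hz h).1, wa, wc, n1⟩, ix,
    fun τ => (L (ix τ)).Θ τ, by linarith [hS.ρ_ge], e0, he, c2.trans k1,
    fun i => ⟨hF.pos i, hF.le i⟩, g1, pd, cmp, hm.sm.mono (sb r2),
    fun τ hτ => ⟨(hm.mem τ (sb r2 hτ)).1, (hm.mem τ (sb r2 hτ)).2.trans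
      (Real.rpow_le_rpow_of_exponent_le (by linarith [r8 τ hτ]) k3)⟩,
    (lintegral_mono_set (sb r2)).trans_lt hm.int,
    ⟨fun i z hz => (tr.u_psh _ (im i) t t0.le z (tb i z hz)).1.congr_of_eventuallyEq (ev i z hz),
      fun i z hz v => ((tr.u_psh _ (im i) t t0.le z (tb i z hz)).2 v).trans_eq ?_⟩, hR,
    fun i => jac_mono (h2 R e C r C₁ G m i (L i) (c i) e0 e1 (by linarith [hS.ρ_ge]) c1 (hI i)) k2
      fun z hz => ((L i).ric _ ((hI i).tgt z hz).1).1, src, fun τ hτ => ?_, fun τ hτ x h => ?_, n2⟩,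
    E, rfl, rfl, r1, fun τ hτ q hq => ?_, fun τ hτ y => ?_⟩
  · unfold levi2
    rw [← (ev i z hz).fderiv.fderiv_eq]
    rfl
  · change Fib K e G (c (ix τ)) τ ((L (ix τ)).Θ τ)
    rw [hx τ hτ]
    exact fib_mono (hB ⟨τ, hτ⟩) k1 (pd τ hτ)
  · change (τ, x) ∈ (c (ix τ)).target at h
    change 1 ≤ K * (_ * (Real.exp (-F.u t (E ((c (ix τ)).symm (τ, x)))) *
      ‖om F (Ψ (ix τ)) x‖ ^ 2)) ∧ _ * (Real.exp (-F.u t (E ((c (ix τ)).symm (τ, x)))) *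
      ‖om F (Ψ (ix τ)) x‖ ^ 2) ≤ K
    have p0 : 0 < ‖τ‖ := by linarith [r8 τ hτ]
    have hb := tb _ _ h
    rw [eq' _ _ h, tr.u_eq _ (im _) t t0.le x hb, hx τ hτ]
    obtain ⟨a1, a2⟩ := sk_det (hS.sk τ (sb r1 hτ)) hb
    have a3 : ‖τ‖ ^ (2 * n * e) * ((‖τ‖ ^ (-e)) ^ 2) ^ n = 1 := by
      rw [← pow_mul, ← Real.rpow_natCast, ← Real.rpow_mul p0.le, ← Real.rpow_add p0]
      push_cast
      ring_nf
      simp
    have a4 : 0 < ‖τ‖ ^ (2 * n * e) := by positivity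
    have a5 := (Complex.pos_iff.1 ((hS.sk τ (sb r1 hτ)).pos x hb).det_pos).1
    constructor
    · calc (1 : ℝ) = _ := a3.symm
        _ ≤ ‖τ‖ ^ (2 * n * e) * (K * (F.pull (Ψ τ) t x).det.re) := by
          gcongr
          exact a1.trans (by gcongr)
        _ = _ := by ring
    · calc _ ≤ ‖τ‖ ^ (2 * n * e) * (K * ((‖τ‖ ^ (-e)) ^ 2) ^ n) := by
            gcongr
            exact a2.trans (by gcongr)
        _ = K := by rw [mul_left_comm, a3, mul_one]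
  · change q ∈ (c (ix τ)).source at hq
    change (c (ix τ) q).2 ∈ _ ∧ E q = Ψ τ (c (ix τ) q).2
    refine ⟨tb _ _ ((c _).map_source hq), (eq _ q hq).trans ?_⟩
    rw [hx τ hτ]
  · change dn (Ψ τ) 0 (y ᵥ* (L (ix τ)).Θ τ) = _
    rw [hx τ hτ, ← (hp ⟨τ, hτ⟩ τ (mem_ball_self (L _).δ_mem.1)).2 y, (L ⟨τ, hτ⟩).p0]

end Vale.Agent.P253W.Y
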