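import Vale.Agent.P253W.Y.Mod
import Vale.Agent.P281.H124.Mean

/-!
# P253W, block Y: the measure of a holomorphic volume form on a fibred atlas
-/

open scoped ENNReal Topology
open MeasureTheory Set Metric Filter
open Vale.Agent.P272.K (Cm)

set_option linter.all false

noncomputable section

namespace Vale.Agent.P253W.Y

namespace Nu

variable {n : ℕ}

/-- the determinant of a map which preserves the first coordinate -/
theorem det_fib (L : P n →L[ℂ] P n) (h : ∀ ξ, (L ξ).1 = ξ.1) :
    L.det = ((ContinuousLinearMap.snd ℂ ℂ (Cm n)).comp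
      (L.comp (ContinuousLinearMap.inr ℂ ℂ (Cm n)))).det := by
  let b₂ := Pi.basisFun ℂ (Fin n)
  let b := (Module.Basis.singleton Unit ℂ).prod b₂
  rw [ContinuousLinearMap.det, ContinuousLinearMap.det, ← LinearMap.det_toMatrix b,
    ← LinearMap.det_toMatrix b₂, ← Matrix.fromBlocks_toBlocks (LinearMap.toMatrix b b _)]
  have e1 : (LinearMap.toMatrix b b (L : P n →ₗ[ℂ] P n)).toBlocks₁₂ = 0 := by
    ext i j
    simp [Matrix.toBlocks₁₂, LinearMap.toMatrix_apply, b, h]
  have e2 : (LinearMap.toMatrix b b (L : P n →ₗ[ℂ] P n)).toBlocks₁₁ = 1 := by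
    ext i j
    simp [Matrix.toBlocks₁₁, LinearMap.toMatrix_apply, b, h]
  rw [e1, e2, Matrix.det_fromBlocks_zero₁₂, Matrix.det_one, one_mul]
  congr 1
  ext i j
  have : b (Sum.inr j) = (0, b₂ j) := by ext1 <;> simp [b]
  simp [Matrix.toBlocks₂₂, LinearMap.toMatrix_apply, this, b]

/-- the integrand in a chart -/
def F (c : Ch n) (ω : P n → ℂ) (f : P n → ℝ≥0∞) : P n → ℝ≥0∞ :=
  c.target.indicator fun z => f (c.symm z) * ENNReal.ofReal (‖ω z‖ ^ 2)

open Classical in
/-- a measurable version of the inverse of a chart -/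
def sy (c : Ch n) : P n → P n := c.target.piecewise c.symm fun _ => 0

open Classical in
theorem meas_sy (c : Ch n) : Measurable (sy c) :=
  c.continuousOn_symm.measurable_piecewise continuousOn_const c.open_target.measurableSet

open Classical in
theorem F_eq (c : Ch n) (ω : P n → ℂ) (f g : P n → ℝ≥0∞) (z : P n) :
    F c ω (fun x => g x * f x) z = F c ω g z * f (sy c z) := by
  by_cases hz : z ∈ c.target
  · simp only [F, sy, indicator_of_mem hz, piecewise_eq_of_mem _ _ _ hz]
    ring
  · simp [F, indicator_of_notMem hz]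

theorem meas_F {c : Ch n} {ω : P n → ℂ} (hω : ContinuousOn ω c.target) {f : P n → ℝ≥0∞}
    (hf : Measurable f) : Measurable (F c ω f) := by
  classical
  have h1 : Measurable (F c ω fun _ => 1) := by
    have := (ENNReal.continuous_ofReal.comp_continuousOn (hω.norm.pow 2)).measurable_piecewise
      (g := fun _ => 0) continuousOn_const c.open_target.measurableSet
    convert this using 1
    funext z
    by_cases hz : z ∈ c.target <;> simp [F, hz]
  have h2 : F c ω f = fun z => F c ω (fun _ => 1) z * f (sy c z) := by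
    funext z
    rw [← F_eq]
    simp only [one_mul]
  rw [h2]
  exact h1.mul (hf.comp (meas_sy c))

theorem fib_eq (c : Ch n) (ω : P n → ℂ) (f : P n → ℝ≥0∞) (τ : ℂ) :
    ∫⁻ x in {x | (τ, x) ∈ c.target}, f (c.symm (τ, x)) * ENNReal.ofReal (‖ω (τ, x)‖ ^ 2) =
      ∫⁻ x, F c ω f (τ, x) := by
  exact (lintegral_indicator
    (c.open_target.preimage (Continuous.prodMk_right τ)).measurableSet _).symm

theorem fst_symm {c : Ch n} (hc : ∀ q ∈ c.source, (c q).1 = q.1) {z : P n} (hz : z ∈ c.target) :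
    (c.symm z).1 = z.1 := by
  rw [← hc _ (c.map_target hz), c.right_inv hz]

/-- change of variables on a fibre -/
theorem chg {c d : Ch n} {ω χ : P n → ℂ} (hc : ∀ q ∈ c.source, (c q).1 = q.1)
    (hd : ∀ q ∈ d.source, (d q).1 = q.1)
    (an : ∀ z ∈ c.target, c.symm z ∈ d.source → AnalyticAt ℂ (fun z => d (c.symm z)) z)
    (ch : ∀ x ∈ c.source, x ∈ d.source →
      ω (c x) = (fderiv ℂ (fun z => d (c.symm z)) (c x)).det * χ (d x))
    (τ : ℂ) (f : P n → ℝ≥0∞) (f1 : ∀ x ∉ c.source, f x = 0)
    (f2 : ∀ x ∈ c.source, x.1 = τ → x ∈ d.source) :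
    ∫⁻ x, F c ω f (τ, x) = ∫⁻ x, F d χ f (τ, x) := by
  set s : Set (Cm n) := {x | (τ, x) ∈ c.target} with hs
  have so : IsOpen s := c.open_target.preimage (Continuous.prodMk_right τ)
  have m1 : ∀ x ∈ s, c.symm (τ, x) ∈ d.source := fun x hx =>
    f2 _ (c.map_target hx) (fst_symm hc hx)
  set T : Cm n → Cm n := fun x => (d (c.symm (τ, x))).2 with hT
  have t1 : ∀ x ∈ s, d (c.symm (τ, x)) = (τ, T x) := fun x hx =>
    Prod.ext ((hd _ (m1 x hx)).trans (fst_symm hc hx)) rfl
  have inj : InjOn T s := fun x hx y hy e => by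
    have h1 := d.injOn (m1 x hx) (m1 y hy) (by rw [t1 x hx, t1 y hy, e])
    exact (Prod.ext_iff.1 (c.symm.injOn hx hy h1)).2
  let T' : Cm n → Cm n →L[ℂ] Cm n := fun x => (ContinuousLinearMap.snd ℂ ℂ (Cm n)).comp
    ((fderiv ℂ (fun z => d (c.symm z)) (τ, x)).comp (ContinuousLinearMap.inr ℂ ℂ (Cm n)))
  have dT : ∀ x ∈ s, HasFDerivAt T (T' x) x := fun x hx =>
    hasFDerivAt_snd.comp x (HasFDerivAt.comp x (f := fun x => (τ, x))
      (an _ hx (m1 x hx)).differentiableAt.hasFDerivAt (hasFDerivAt_prodMk_right τ x))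
  have e1 := lintegral_image_eq_lintegral_abs_det_fderiv_mul volume so.measurableSet
    (fun x hx => ((dT x hx).restrictScalars ℝ).hasFDerivWithinAt) inj fun y => F d χ f (τ, y)
  have e2 : ∫⁻ y, F d χ f (τ, y) = ∫⁻ y in T '' s, F d χ f (τ, y) := by
    refine (setLIntegral_eq_of_support_subset fun y hy => ?_).symm
    have h1 : (τ, y) ∈ d.target := mem_of_indicator_ne_zero hy
    have h2 : d.symm (τ, y) ∈ c.source := by
      by_contra h
      exact hy (by simp only [F, indicator_of_mem h1, f1 _ h, zero_mul])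
    have h3 : c (d.symm (τ, y)) = (τ, (c (d.symm (τ, y))).2) :=
      Prod.ext ((hc _ h2).trans (fst_symm hd h1)) rfl
    refine ⟨(c (d.symm (τ, y))).2, by rw [hs, mem_setOf, ← h3]; exact c.map_source h2, ?_⟩
    simp only [hT]
    rw [← h3, c.left_inv h2, d.right_inv h1]
  rw [e2, e1, ← fib_eq]
  refine setLIntegral_congr_fun so.measurableSet fun x hx => ?_
  have h1 : (τ, T x) ∈ d.target := t1 x hx ▸ d.map_source (m1 x hx)
  have h2 := ch _ (c.map_target hx) (m1 x hx)
  have h3 : ∀ ξ, (fderiv ℂ (fun z => d (c.symm z)) (τ, x) ξ).1 = ξ.1 := fun ξ => by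
    have a1 := (an _ hx (m1 x hx)).differentiableAt.hasFDerivAt.fst
    have a2 : (fun z => (d (c.symm z)).1) =ᶠ[𝓝 (τ, x)] Prod.fst := by
      filter_upwards [c.open_target.mem_nhds hx,
        (c.continuousAt_symm hx).eventually (d.open_source.mem_nhds (m1 x hx))] with z z1 z2
      exact (hd _ z2).trans (fst_symm hc z1)
    exact DFunLike.congr_fun (a1.unique (hasFDerivAt_fst.congr_of_eventuallyEq a2)) ξ
  rw [c.right_inv hx, det_fib _ h3] at h2
  simp only [F, indicator_of_mem h1]
  rw [← t1 x hx, d.left_inv (m1 x hx), P281.H124.abs_det_real, h2, norm_mul, mul_pow,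
    ENNReal.ofReal_mul (sq_nonneg _)]
  ring

end Nu

open Nu in
/-- **NU** -/
theorem nu (n : ℕ) : NU n := by
  intro N S I e w ix hN hS NS sub src fst an wa ch
  have wc : ∀ i, ContinuousOn (w i) (e i).target :=
    fun i z hz => (wa i z hz).continuousAt.continuousWithinAt
  have tm : ∀ i, ∀ z ∈ (e i).target, (e i).symm z ∈ N := fun i z hz => sub i ((e i).map_target hz)
  have fib : ∀ i (f : P n → ℝ≥0∞), (∀ x ∉ (e i).source, f x = 0) → ∀ τ,
      ∫⁻ x, F (e (ix τ)) (w (ix τ)) f (τ, x) = ∫⁻ x, F (e i) (w i) f (τ, x) := fun i f h τ =>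
    (chg (fst i) (fst _) (an i _) (ch i _) τ f h fun x hx hx' => hx' ▸ src x (sub i hx)).symm
  have star : ∀ i (f : P n → ℝ≥0∞), Measurable f → (∀ x ∉ (e i).source, f x = 0) →
      ∫⁻ z, F (e i) (w i) f z = ∫⁻ τ, ∫⁻ x, F (e (ix τ)) (w (ix τ)) f (τ, x) := fun i f hf h => by
    rw [Measure.volume_eq_prod, lintegral_prod _ (meas_F (wc i) hf).aemeasurable]
    exact lintegral_congr fun τ => (fib i f h τ).symm
  obtain ⟨T, T1, T2⟩ := TopologicalSpace.isOpen_iUnion_countable (fun i => (e i).source)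
    fun i => (e i).open_source
  obtain ⟨g, hg⟩ := (T1.insert (ix 0)).exists_eq_range (insert_nonempty _ _)
  set D : ℕ → Set (P n) := disjointed fun k => (e (g k)).source with hD
  have Dm : ∀ k, MeasurableSet (D k) :=
    MeasurableSet.disjointed fun k => (e (g k)).open_source.measurableSet
  have Ds : ∀ k, D k ⊆ (e (g k)).source := disjointed_subset _
  have DU : ∀ q ∈ N, q ∈ ⋃ k, D k := fun q hq => by
    rw [hD, iUnion_disjointed]
    obtain ⟨i, i1, i2⟩ := mem_iUnion₂.1 (T2 ▸ mem_iUnion.2 ⟨_, src q hq⟩ :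
      q ∈ ⋃ i ∈ T, (e i).source)
    obtain ⟨k, rfl⟩ : i ∈ range g := hg ▸ mem_insert_of_mem _ i1
    exact mem_iUnion.2 ⟨k, i2⟩
  have i1 : ∀ k, Measurable ((D k).indicator fun _ => (1 : ℝ≥0∞)) :=
    fun k => measurable_const.indicator (Dm k)
  set ν : Measure (P n) := Measure.sum fun k => (volume.withDensity
    (F (e (g k)) (w (g k)) ((D k).indicator fun _ => 1))).map (sy (e (g k))) with hν
  have key : ∀ f : P n → ℝ≥0∞, Measurable f →
      ∫⁻ x, f x ∂ν = ∫⁻ τ, ∫⁻ x, F (e (ix τ)) (w (ix τ)) f (τ, x) := fun f hf => by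
    have z : ∀ k, ∀ x ∉ (e (g k)).source, (D k).indicator (fun _ => 1) x * f x = 0 :=
      fun k x hx => by rw [indicator_of_notMem fun h => hx (Ds k h), zero_mul]
    have mk : ∀ k, Measurable fun x => (D k).indicator (fun _ => 1) x * f x :=
      fun k => (i1 k).mul hf
    have e1 : ∀ k, ∫⁻ x, f x ∂(volume.withDensity
        (F (e (g k)) (w (g k)) ((D k).indicator fun _ => 1))).map (sy (e (g k))) =
        ∫⁻ τ, ∫⁻ x, F (e (ix τ)) (w (ix τ)) (fun x => (D k).indicator (fun _ => 1) x * f x) (τ, x) :=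
      fun k => by
      rw [lintegral_map hf (meas_sy _), ← star (g k) _ (mk k) (z k)]
      refine (lintegral_withDensity_eq_lintegral_mul _ (meas_F (wc _) (i1 k))
        (hf.comp (meas_sy _))).trans (lintegral_congr fun x => (F_eq _ _ _ _ x).symm)
    rw [hν, lintegral_sum_measure, tsum_congr e1, ← lintegral_tsum fun k => ?_]
    · refine lintegral_congr fun τ => ?_
      refine (lintegral_tsum fun k => ((meas_F (wc _) (mk k)).comp
        measurable_prodMk_left).aemeasurable).symm.trans (lintegral_congr fun x => ?_)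
      by_cases hz : (τ, x) ∈ (e (ix τ)).target
      · obtain ⟨k, hk⟩ := mem_iUnion.1 (DU _ (tm _ _ hz))
        simp only [Function.comp, F, indicator_of_mem hz]
        rw [tsum_eq_single k fun l hl => ?_, indicator_of_mem hk, one_mul]
        rw [indicator_of_notMem (disjoint_left.1 (disjoint_disjointed _ hl.symm) hk), zero_mul,
          zero_mul]
      · simp [F, indicator_of_notMem hz]
    · simp only [fib (g k) _ (z k)]
      exact (meas_F (wc _) (mk k)).lintegral_prod_right'.aemeasurable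
  refine ⟨ν, fun i f hf h => ?_, fun f hf => ?_⟩
  · rw [key f hf, ← star i f hf h, F, lintegral_indicator (e i).open_target.measurableSet]
  · rw [← lintegral_indicator hN.measurableSet, key _ (hf.indicator hN.measurableSet),
      ← lintegral_indicator hS]
    refine lintegral_congr fun τ => ?_
    by_cases hτ : τ ∈ S
    · rw [indicator_of_mem hτ, fib_eq]
      refine lintegral_congr fun x => ?_
      by_cases hz : (τ, x) ∈ (e (ix τ)).target
      · simp only [F, indicator_of_mem hz, indicator_of_mem (tm _ _ hz)]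
      · simp only [F, indicator_of_notMem hz]
    · rw [indicator_of_notMem hτ]
      refine (lintegral_congr fun x => indicator_of_notMem (fun hz => hτ ?_) _).trans lintegral_zero
      have := NS _ (tm _ _ hz)
      rwa [fst_symm (fst _) hz] at this

end Vale.Agent.P253W.Y
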