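import Vale.Agent.P253W.Y.Mod
import Vale.Agent.P198.W.Conf
import Vale.Agent.P272.GJ.Green

/-!
# P253W, block Y: potentials of logarithmic size
-/

open scoped ContDiff Topology Real Convolution
open MeasureTheory Set Metric Filter
open Vale.Agent.P272.GJ
open P198W (lap)
open Vale.Agent.P253.R2.H451 (levi2)

noncomputable section

namespace Vale.Agent.P253W.Y

namespace Pot

theorem Gr_eq {r : ℝ} (hr : 0 < r) {z : ℂ} (hz : z ≠ 0) :
    π / 2 * Gr r z = Real.log r - Real.log ‖z‖ := by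
  rw [Gr, Real.log_div hr.ne' (norm_ne_zero_iff.2 hz)]
  field_simp

theorem loc_log : LocallyIntegrable fun z : ℂ => Real.log ‖z‖ := fun x => by
  have hr : 0 < ‖x‖ + 1 := by positivity
  refine ⟨ball 0 (‖x‖ + 1), isOpen_ball.mem_nhds (by simp), ?_⟩
  refine ((integrableOn_const (C := Real.log (‖x‖ + 1)) measure_ball_lt_top.ne).sub
    ((integrableOn_Gr hr).const_mul (π / 2))).congr
      (ae_restrict_of_ae ((Measure.ae_ne volume 0).mono fun z hz => ?_))
  simp [Gr_eq hr hz]

theorem lap_eq (φ : ℂ → ℝ) (z : ℂ) : lap φ z = 4 * ddb φ z := by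
  rw [ddb, mul_div_cancel₀ _ (by norm_num)]
  rfl

theorem log_repr {φ : ℂ → ℝ} (h : ContDiff ℝ 2 φ) (hs : HasCompactSupport φ) :
    ∫ z, Real.log ‖z‖ * lap φ z = 2 * π * φ 0 := by
  obtain ⟨r, hr, hsub⟩ := hs.isCompact.isBounded.subset_ball_lt 0 (0 : ℂ)
  have h0 : ∀ z ∉ tsupport φ, ddb φ z = 0 := fun z hz => by
    rw [ddb_eq h.contDiffAt, (notMem_tsupport_iff_eventuallyEq.1 hz).fderiv.fderiv_eq]
    simp
  have hc : Continuous (ddb φ) := continuous_iff_continuousAt.2 fun z =>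
    (contOn_ddb (r := ‖z‖ + 1) fun _ _ => h.contDiffAt).continuousAt
      (mem_of_superset (isOpen_ball.mem_nhds (by simp)) ball_subset_closedBall)
  have hcs : HasCompactSupport (ddb φ) := HasCompactSupport.intro hs h0
  have i1 := hc.integrable_of_hasCompactSupport (μ := volume) hcs
  have i2 : Integrable fun z => Real.log ‖z‖ * ddb φ z :=
    loc_log.integrable_smul_right_of_hasCompactSupport hc hcs
  have key : ∀ R, r ≤ R → Real.log R * (∫ z, ddb φ z) - ∫ z, Real.log ‖z‖ * ddb φ z =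
      π / 2 * -φ 0 := fun R hR => by
    have h1 := green_jensen (hr.trans_le hR) (φ := φ) fun _ _ => h.contDiffAt
    rw [Real.circleAverage_congr_sphere (f₂ := fun _ => 0) (fun z hz =>
      image_eq_zero_of_notMem_tsupport fun h2 => by
        have := mem_ball_zero_iff.1 (hsub h2)
        rw [mem_sphere_zero_iff_norm.1 hz] at this
        linarith [le_abs_self R]), Real.circleAverage_const, zero_sub,
      setIntegral_eq_integral_of_forall_compl_eq_zero fun z hz => by
        rw [h0 z fun h2 => hz (ball_subset_ball hR (hsub h2)), mul_zero]] at h1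
    rw [← h1, ← integral_const_mul, ← integral_const_mul, ← integral_sub (i1.const_mul _) i2]
    refine integral_congr_ae ((Measure.ae_ne volume 0).mono fun z hz => ?_)
    simp only [← mul_assoc, Gr_eq (hr.trans_le hR) hz, sub_mul]
  have k1 := key r le_rfl
  have k2 := key (r * Real.exp 1) (le_mul_of_one_le_right hr.le (Real.one_le_exp zero_le_one))
  rw [Real.log_mul hr.ne' (Real.exp_pos _).ne', Real.log_exp] at k2
  have k3 : ∫ z, ddb φ z = 0 := by linarith
  simp only [lap_eq, mul_left_comm _ (4 : ℝ), integral_const_mul]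
  rw [k3] at k1
  linarith

/-- the kernel -/
def K (τ s : ℂ) : ℝ := Real.log ‖τ - s‖ - Real.log ‖s‖

variable {f g : ℂ → ℝ}

theorem far (hg : Integrable g) {R : ℝ} (hR : 0 < R) (h0 : ∀ s, ‖s‖ < 2 * R → g s = 0) :
    ∃ F : ℂ → ℂ, DifferentiableOn ℂ F (ball 0 R) ∧ ∀ τ ∈ ball (0 : ℂ) R,
      Integrable (fun s => g s * K τ s) ∧ ∫ s, g s * K τ s = (F τ).re := by
  have h1 : ∀ τ ∈ ball (0 : ℂ) R, ∀ s : ℂ, 2 * R ≤ ‖s‖ → ‖-(τ / s)‖ ≤ 1 / 2 := fun τ hτ s hs => by
    rw [norm_neg, norm_div, div_le_iff₀ (by linarith)]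
    linarith [mem_ball_zero_iff.1 hτ]
  have h2 : ∀ τ ∈ ball (0 : ℂ) R, ∀ s : ℂ, 2 * R ≤ ‖s‖ → R ≤ ‖τ - s‖ := fun τ hτ s hs => by
    have := norm_sub_norm_le s τ
    rw [norm_sub_rev] at this
    linarith [mem_ball_zero_iff.1 hτ]
  have hm := (Complex.continuous_ofReal.comp_aestronglyMeasurable hg.aestronglyMeasurable)
  have hi : ∀ τ ∈ ball (0 : ℂ) R, Integrable fun s => (g s : ℂ) * Complex.log (1 + -(τ / s)) :=
    fun τ hτ => hg.norm.mono' (hm.mul (Complex.measurable_log.comp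
      (by fun_prop)).aestronglyMeasurable) (Eventually.of_forall fun s => by
        rcases lt_or_ge ‖s‖ (2 * R) with hs | hs
        · simp [h0 s hs]
        · rw [norm_mul, Complex.norm_real]
          refine mul_le_of_le_one_right (norm_nonneg _) ?_
          linarith [Complex.norm_log_one_add_half_le_self (h1 τ hτ s hs), h1 τ hτ s hs])
  have he : ∀ τ ∈ ball (0 : ℂ) R, ∀ s,
      Complex.reCLM ((g s : ℂ) * Complex.log (1 + -(τ / s))) = g s * K τ s := fun τ hτ s => by
    rcases lt_or_ge ‖s‖ (2 * R) with hs | hs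
    · simp [h0 s hs]
    · have h3 : s ≠ 0 := norm_pos_iff.1 (by linarith)
      rw [Complex.reCLM_apply, Complex.re_ofReal_mul, Complex.log_re,
        show 1 + -(τ / s) = -(τ - s) / s by field_simp; ring, norm_div, norm_neg,
        Real.log_div (hR.trans_le (h2 τ hτ s hs)).ne' (norm_ne_zero_iff.2 h3), K]
  refine ⟨fun τ => ∫ s, (g s : ℂ) * Complex.log (1 + -(τ / s)), fun τ hτ => ?_, fun τ hτ =>
    ⟨(Complex.reCLM.integrable_comp (hi τ hτ)).congr (Eventually.of_forall (he τ hτ)), ?_⟩⟩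
  · refine (hasDerivAt_integral_of_dominated_loc_of_deriv_le (μ := volume)
      (F' := fun τ s => (g s : ℂ) * (τ - s)⁻¹) (bound := fun s => ‖g s‖ * R⁻¹)
      (isOpen_ball.mem_nhds hτ)
      ((isOpen_ball.eventually_mem hτ).mono fun x hx => (hi x hx).aestronglyMeasurable) (hi τ hτ)
      (hm.mul (Measurable.aestronglyMeasurable (by fun_prop))) (ae_of_all _ fun s x hx => ?_)
      (hg.norm.mul_const _)
      (ae_of_all _ fun s x hx => ?_)).2.differentiableAt.differentiableWithinAt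
    · rcases lt_or_ge ‖s‖ (2 * R) with hs | hs
      · simp [h0 s hs]
      · rw [norm_mul, Complex.norm_real, norm_inv]
        exact mul_le_mul_of_nonneg_left (inv_anti₀ hR (h2 x hx s hs)) (norm_nonneg _)
    · rcases lt_or_ge ‖s‖ (2 * R) with hs | hs
      · simpa [h0 s hs] using hasDerivAt_const x (0 : ℂ)
      · have h3 : s ≠ 0 := norm_pos_iff.1 (by linarith)
        have h4 : x - s ≠ 0 := norm_pos_iff.1 (hR.trans_le (h2 x hx s hs))
        have h5 : HasDerivAt (fun y : ℂ => 1 + -(y / s)) (-(1 / s)) x :=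
          ((hasDerivAt_id x).div_const s).neg.const_add 1
        refine HasDerivAt.const_mul _ ((h5.clog (Complex.mem_slitPlane_of_norm_lt_one
          ((h1 x hx s hs).trans_lt (by norm_num)))).congr_deriv ?_)
        rw [show 1 + -(x / s) = -(x - s) / s by field_simp; ring]
        field_simp
  · rw [← Complex.reCLM_apply, ← Complex.reCLM.integral_comp_comm (hi τ hτ)]
    exact integral_congr_ae (Eventually.of_forall fun s => (he τ hτ s).symm)

theorem core (hf : ContDiff ℝ ∞ f) (hi : Integrable f) (τ : ℂ) :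
    Integrable (fun s => f s * K τ s) ∧ ContDiffAt ℝ ∞ (fun τ => ∫ s, f s * K τ s) τ ∧
      levi2 (fun τ => ∫ s, f s * K τ s) τ 1 = 2 * π * f τ := by
  have hR : 0 < ‖τ‖ + 1 := by positivity
  have hτ : τ ∈ ball (0 : ℂ) (‖τ‖ + 1) := by simp
  let χ : ContDiffBump (0 : ℂ) := ⟨2 * (‖τ‖ + 1), 3 * (‖τ‖ + 1), by positivity, by linarith⟩
  have g1 : ContDiff ℝ ∞ fun s => χ s * f s := χ.contDiff.mul hf
  have g2 : HasCompactSupport fun s => χ s * f s := χ.hasCompactSupport.mul_right
  have g3 : ∀ s, ‖s‖ < 2 * (‖τ‖ + 1) → χ s = 1 := fun s hs =>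
    χ.one_of_mem_closedBall (mem_closedBall_zero_iff.2 hs.le)
  obtain ⟨F, hF, hF'⟩ := far (hi.sub (g1.continuous.integrable_of_hasCompactSupport g2)) hR
    fun s hs => by simp [g3 s hs]
  have i1 : ∀ x, Integrable fun s => Real.log ‖x - s‖ * (χ s * f s) := fun x => by
    simpa using (loc_log.integrable_smul_right_of_hasCompactSupport
      (g1.continuous.comp (continuous_sub_left x))
      (P198W.hasCompactSupport_comp_sub g2 x)).comp_sub_left x
  have i2 : Integrable fun s => Real.log ‖s‖ * (χ s * f s) :=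
    loc_log.integrable_smul_right_of_hasCompactSupport g1.continuous g2
  have e0 : ∀ x s, f s * K x s = Real.log ‖x - s‖ * (χ s * f s) - (Real.log ‖s‖ * (χ s * f s) -
      (f - fun s => χ s * f s) s * K x s) := fun x s => by
    simp only [K, Pi.sub_apply]
    ring
  set P := (fun t : ℂ => Real.log ‖t‖) ⋆[ContinuousLinearMap.lsmul ℝ ℝ, volume] fun s => χ s * f s
    with hP
  set c : ℝ := ∫ s, Real.log ‖s‖ * (χ s * f s) with hc
  have e1 : (fun τ => ∫ s, f s * K τ s) =ᶠ[𝓝 τ] fun x => P x - ((c : ℂ) - F x).re := by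
    filter_upwards [isOpen_ball.mem_nhds hτ] with x hx
    simp only [e0]
    have i3 : Integrable fun s => Real.log ‖s‖ * (χ s * f s) -
      (f - fun s => χ s * f s) s * K x s := i2.sub (hF' x hx).1
    rw [integral_sub (i1 x) i3, integral_sub i2 (hF' x hx).1, (hF' x hx).2, hP,
      P198W.conv_apply, ← integral_sub_left_eq_self _ volume x]
    simp [hc]
  have a1 : AnalyticAt ℂ (fun x => (c : ℂ) - F x) τ :=
    analyticAt_const.sub (hF.analyticAt (isOpen_ball.mem_nhds hτ))
  have a2 : ContDiffAt ℝ ∞ (fun x => ((c : ℂ) - F x).re) τ :=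
    Complex.reCLM.contDiff.contDiffAt.comp τ (a1.contDiffAt.restrict_scalars ℝ)
  have a3 : ContDiffAt ℝ ∞ P τ := (P198W.conv_contDiff loc_log g1 g2).contDiffAt
  have two := P198W.two_le_infty
  refine ⟨((i1 τ).sub (i2.sub (hF' τ hτ).1)).congr (Eventually.of_forall fun s => (e0 τ s).symm),
    (a3.sub a2).congr_of_eventuallyEq e1, ?_⟩
  have h1 := P198W.lap_sub (a3.of_le two) (a2.of_le two)
  rw [P198W.lap_eq_zero a1.harmonicAt_re, hP, P198W.lap_convolution loc_log g1 g2,
    log_repr (φ := fun t => χ (τ - t) * f (τ - t))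
      ((g1.of_le two).comp (contDiff_const.sub contDiff_id))
      (P198W.hasCompactSupport_comp_sub g2 τ), ← hP, lap_eq,
    ddb_eq ((a3.sub a2).of_le two)] at h1
  rw [levi2, e1.fderiv.fderiv_eq, smul_eq_mul, mul_one]
  simp only [sub_zero, g3 τ (by linarith [norm_nonneg τ]), one_mul] at h1
  linarith

theorem bound (hi : Integrable f) (h0 : ∀ s, 0 ≤ f s) {N : ℝ} (hN : 0 ≤ N)
    (h1 : ∀ s, f s = 0 ∨ 1 ≤ ‖s‖ ∧ f s ≤ ‖s‖ ^ N) {τ : ℂ} (hτ : 2 ≤ ‖τ‖)
    (hK : Integrable fun s => f s * K τ s) :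
    |∫ s, f s * K τ s| ≤ (∫ s, f s) * ((N + 2) * Real.log ‖τ‖) + π / 2 := by
  have ht : 0 < ‖τ‖ := by linarith
  have hL : 0 ≤ Real.log ‖τ‖ := Real.log_nonneg (by linarith)
  have hNL := mul_nonneg hN hL
  have h2 : ∀ {x : ℝ}, 0 < x → x ≤ ‖τ‖ ^ 2 → Real.log x ≤ 2 * Real.log ‖τ‖ := fun hx h => by
    simpa using Real.log_le_log hx h
  have hr : 0 < ‖τ‖ ^ (-N) := by positivity
  have hr1 : ‖τ‖ ^ (-N) ≤ 1 := Real.rpow_le_one_of_one_le_of_nonpos (by linarith) (by linarith)
  set G := (ball (0 : ℂ) (‖τ‖ ^ (-N))).indicator (Gr (‖τ‖ ^ (-N))) with hG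
  have iG : Integrable fun s => G (s - τ) :=
    ((integrable_indicator_iff measurableSet_ball).2 (integrableOn_Gr hr)).comp_sub_right τ
  refine abs_le.2 ⟨?_, ?_⟩
  · have h3 := integral_mono_ae ((hi.mul_const (-((N + 2) * Real.log ‖τ‖))).sub
      (iG.const_mul (‖τ‖ ^ (2 * N) * (π / 2)))) hK ((Measure.ae_ne volume τ).mono fun s hs => ?_)
    · rw [integral_sub' (hi.mul_const _) (iG.const_mul _), integral_mul_const, integral_const_mul,
        integral_sub_right_eq_self, hG, integral_indicator measurableSet_ball, integral_Gr hr,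
        mul_right_comm, ← Real.rpow_natCast, ← Real.rpow_mul ht.le, ← Real.rpow_add ht] at h3
      rw [show 2 * N + -N * ((2 : ℕ) : ℝ) = 0 by push_cast; ring, Real.rpow_zero] at h3
      linarith
    have hd : 0 < ‖s - τ‖ := norm_pos_iff.2 (sub_ne_zero.2 hs)
    have hG0 : 0 ≤ G (s - τ) := indicator_nonneg (fun _ => Gr_nonneg) _
    simp only [Pi.sub_apply]
    rcases h1 s with h4 | ⟨h4, h5⟩
    · rw [h4, zero_mul, zero_mul, zero_sub, neg_nonpos]
      positivity
    have h6 := norm_sub_norm_le s τ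
    rw [K, norm_sub_rev]
    rcases lt_or_ge ‖s - τ‖ (‖τ‖ ^ (-N)) with h7 | h7
    · have h8 : ‖s‖ ≤ ‖τ‖ ^ 2 := by nlinarith
      have h9 : π / 2 * G (s - τ) = -N * Real.log ‖τ‖ - Real.log ‖s - τ‖ := by
        rw [hG, indicator_of_mem (mem_ball_zero_iff.2 h7), Gr_eq hr (sub_ne_zero.2 hs),
          Real.log_rpow ht]
      have h10 : f s ≤ ‖τ‖ ^ (2 * N) := by
        rw [Real.rpow_mul ht.le, Real.rpow_two]
        exact h5.trans (Real.rpow_le_rpow (norm_nonneg _) h8 hN)
      have h11 := mul_le_mul_of_nonneg_right h10 (by positivity : 0 ≤ π / 2 * G (s - τ))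
      have h12 := mul_le_mul_of_nonneg_left (h2 (by linarith) h8) (h0 s)
      rw [mul_assoc]
      rw [h9] at h11 ⊢
      linarith
    · rw [hG, indicator_of_notMem (by simpa using h7), mul_zero, sub_zero]
      refine mul_le_mul_of_nonneg_left ?_ (h0 s)
      rcases le_or_gt ‖s‖ (‖τ‖ ^ 2) with h8 | h8
      · have h9 := Real.log_le_log hr h7
        rw [Real.log_rpow ht] at h9
        linarith [h2 (by linarith) h8]
      · have h9 := Real.log_le_log (by linarith : 0 < ‖s‖)
          (by nlinarith : ‖s‖ ≤ ‖s - τ‖ * ‖τ‖)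
        rw [Real.log_mul hd.ne' ht.ne'] at h9
        linarith
  · have h3 := integral_mono hK (hi.mul_const ((N + 2) * Real.log ‖τ‖)) fun s => ?_
    · rw [integral_mul_const] at h3
      linarith [Real.pi_pos]
    rcases h1 s with h4 | ⟨h4, -⟩
    · simp [h4]
    refine mul_le_mul_of_nonneg_left ?_ (h0 s)
    have h5 := Real.log_nonneg h4
    rw [K]
    rcases (norm_nonneg (τ - s)).eq_or_lt with h6 | h6
    · rw [← h6, Real.log_zero]
      linarith
    · have h7 := Real.log_le_log h6 ((norm_sub_le τ s).trans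
        (by nlinarith [mul_le_mul h4 hτ zero_le_two (norm_nonneg s)] :
          ‖τ‖ + ‖s‖ ≤ ‖s‖ * ‖τ‖ ^ 2))
      rw [Real.log_mul (by linarith) (by positivity), Real.log_pow] at h7
      push_cast at h7
      linarith

end Pot

open Pot in
theorem pot : POT := by
  intro m ρ C η hm h0 hC hfin hη
  have ho : ∀ r, IsOpen (ex r) := fun r => isOpen_lt continuous_const continuous_norm
  have hi : IntegrableOn m (ex ρ) :=
    (lintegral_ofReal_ne_top_iff_integrable (hm.continuousOn.aestronglyMeasurable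
      (ho ρ).measurableSet) (ae_restrict_of_forall_mem (ho ρ).measurableSet h0)).1 hfin.ne
  have hN : 0 ≤ max C 0 := le_max_right _ _
  have h1 := tendsto_setIntegral_of_antitone (s := ex) (fun r => (ho r).measurableSet)
    (fun _ _ h _ hτ => h.trans_lt hτ) ⟨ρ, hi⟩
  rw [show ⋂ r, ex r = ∅ from eq_empty_of_forall_notMem fun τ hτ =>
    lt_irrefl ‖τ‖ (mem_iInter.1 hτ ‖τ‖), setIntegral_empty] at h1
  obtain ⟨R, h2, h3, h4⟩ := ((h1.eventually (gt_mem_nhds
    (by positivity : 0 < η / 2 / (max C 0 + 2)))).and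
    ((eventually_gt_atTop ρ).and (eventually_ge_atTop 1))).exists
  set f : ℂ → ℝ := fun s => Real.smoothTransition (‖s‖ ^ 2 - R ^ 2) * m s with hf
  have f0 : ∀ s, ‖s‖ ≤ R → f s = 0 := fun s hs => by
    rw [hf]
    simp only
    rw [Real.smoothTransition.zero_of_nonpos (by nlinarith [norm_nonneg s]), zero_mul]
  have f1 : ∀ s ∈ ex R, 0 ≤ f s ∧ f s ≤ m s := fun s hs =>
    ⟨mul_nonneg (Real.smoothTransition.nonneg _) (h0 s (h3.trans hs)),
      mul_le_of_le_one_left (h0 s (h3.trans hs)) (Real.smoothTransition.le_one _)⟩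
  have f2 : ContDiff ℝ ∞ f := contDiff_iff_contDiffAt.2 fun s => by
    rcases lt_or_ge ρ ‖s‖ with hs | hs
    · exact (Real.smoothTransition.contDiff.comp ((contDiff_norm_sq ℝ).sub
        contDiff_const)).contDiffAt.mul (hm.contDiffAt ((ho ρ).mem_nhds hs))
    · refine (contDiffAt_const (c := (0 : ℝ))).congr_of_eventuallyEq ?_
      filter_upwards [continuous_norm.continuousAt.eventually (gt_mem_nhds (hs.trans_lt h3))]
        with x hx using f0 x hx.le
  have f3 : ∀ s, 0 ≤ f s ∧ f s ≤ (ex R).indicator m s := fun s => by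
    by_cases hs : s ∈ ex R
    · rw [indicator_of_mem hs]
      exact f1 s hs
    · rw [indicator_of_notMem hs, f0 s (not_lt.1 hs)]
      exact ⟨le_rfl, le_rfl⟩
  have i1 : Integrable ((ex R).indicator m) := (integrable_indicator_iff (ho R).measurableSet).2
    (hi.mono_set fun _ hτ => h3.trans hτ)
  have i2 : Integrable f := i1.mono' f2.continuous.aestronglyMeasurable
    (Eventually.of_forall fun s => (Real.norm_of_nonneg (f3 s).1).trans_le (f3 s).2)
  have i3 := integral_mono i2 i1 fun s => (f3 s).2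
  rw [integral_indicator (ho R).measurableSet] at i3
  refine ⟨max (R + 1) (Real.exp (π / η)), fun τ => ∫ s, f s * K τ s,
    fun τ _ => (core f2 i2 τ).2.1.contDiffWithinAt, fun τ hτ => ?_⟩
  obtain ⟨h5, h6⟩ := max_lt_iff.1 (show _ < ‖τ‖ from hτ)
  have h7 : f τ = m τ := by
    rw [hf]
    simp only
    rw [Real.smoothTransition.one_of_one_le (by nlinarith), one_mul]
  have h8 := h0 τ (show ρ < ‖τ‖ by linarith)
  refine ⟨by rw [(core f2 i2 τ).2.2, h7]; nlinarith [Real.pi_gt_three], ?_⟩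
  have h9 := bound i2 (fun s => (f3 s).1) hN (fun s => (le_or_gt ‖s‖ R).imp (f0 s) fun hs =>
    ⟨h4.trans hs.le, ((f1 s hs).2.trans (hC s (h3.trans hs))).trans
      (Real.rpow_le_rpow_of_exponent_le (h4.trans hs.le) (le_max_left _ _))⟩)
    (by linarith) (core f2 i2 τ).1
  have h10 : π / η < Real.log ‖τ‖ := (Real.lt_log_iff_exp_lt (by linarith)).2 h6
  rw [div_lt_iff₀ hη] at h10
  have h11 := (lt_div_iff₀ (by positivity)).1 (i3.trans_lt h2)
  have h12 : 0 ≤ Real.log ‖τ‖ := Real.log_nonneg (by linarith)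
  nlinarith [mul_le_mul_of_nonneg_right h11.le h12]

end Vale.Agent.P253W.Y
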