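import Vale.Agent.P253W.Y.SolB

/-!
# P253W, block Y, row SOL: the solution of the `∂̄` problem
-/

open scoped ContDiff ENNReal Topology ComplexConjugate ComplexOrder Matrix
open MeasureTheory Set Metric Filter
open Vale.Agent.P272.K (Cm)

noncomputable section

namespace Vale.Agent.P253W.Y

namespace Sol

variable {n : ℕ}

theorem int_ex {ρ e : ℝ} (hρ : 1 ≤ ρ) (he : 0 < e) :
    ∫⁻ τ in ex ρ, ENNReal.ofReal (‖τ‖ ^ (-(2 + e))) < ⊤ := by
  have h := finite_integral_one_add_norm (E := ℂ) (μ := volume) (r := 2 + e) (by simpa using he)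
  refine lt_of_le_of_lt ?_ (ENNReal.mul_lt_top (ENNReal.ofReal_lt_top (r := 2 ^ (2 + e))) h)
  rw [← lintegral_const_mul' _ _ ENNReal.ofReal_ne_top]
  refine (setLIntegral_mono' (ex_op ρ).measurableSet fun τ hτ => ?_).trans
    (setLIntegral_le_lintegral _ _)
  have h1 : 1 ≤ ‖τ‖ := hρ.trans (le_of_lt hτ)
  rw [← ENNReal.ofReal_mul (by positivity)]
  refine ENNReal.ofReal_le_ofReal ?_
  have h2 : (2 * ‖τ‖) ^ (-(2 + e)) ≤ (1 + ‖τ‖) ^ (-(2 + e)) :=
    Real.rpow_le_rpow_of_nonpos (by positivity) (by linarith) (by linarith)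
  rw [Real.mul_rpow two_pos.le (norm_nonneg _), Real.rpow_neg two_pos.le] at h2
  exact (inv_mul_le_iff₀ (by positivity)).1 h2

namespace Hy

variable {B : Mod n} {ρ' R : ℝ} {a : ℂ → ℝ} (h : Hy B ρ' a R) {τ : ℂ} {q : P n}
include h

theorem exp_ph (ht : R ≤ ‖q.1‖) (j : Fin n) : Real.exp (-ph B a j q) = Real.exp (-a q.1) *
    Real.exp (-(‖q.1‖ ^ (3 * B.e) * Dq B.G q)) * Real.exp (-B.u q) *
      ‖q.1‖ ^ (-(2 * B.k j + be B)) := by
  rw [Real.rpow_def_of_pos (h.pos ht) (-_), ← Real.exp_add, ← Real.exp_add, ← Real.exp_add, ph, p0]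
  congr 1
  ring

theorem exp_le (ht : R ≤ ‖q.1‖) (j : Fin n) : ‖q.1‖ ^ (2 * B.k j) * Real.exp (-ph B a j q) ≤
    ‖q.1‖ ^ (B.e - be B) * Real.exp (-B.u q) := by
  have h0 := h.pos ht
  have h1 : Real.exp (-(‖q.1‖ ^ (3 * B.e) * Dq B.G q)) ≤ 1 :=
    Real.exp_le_one_iff.2 (neg_nonpos.2 (mul_nonneg (by positivity) (h.D_nn ht)))
  calc _ ≤ ‖q.1‖ ^ (2 * B.k j) * (‖q.1‖ ^ B.e * 1 * Real.exp (-B.u q) *
        ‖q.1‖ ^ (-(2 * B.k j + be B))) := by
        rw [h.exp_ph ht]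
        gcongr
        exact (h.expa ht).2
    _ = _ := by
        rw [show B.e - be B = 2 * B.k j + B.e + -(2 * B.k j + be B) by ring, Real.rpow_add h0,
          Real.rpow_add h0 (2 * B.k j) B.e]
        ring

theorem fub1 {g : P n → ℝ} (hg : ContinuousOn g (N1 B a R)) :
    ∫⁻ q in N1 B a R, ENNReal.ofReal (g q) ∂B.A.ν =
      ∫⁻ τ in ex B.ρ, ∫⁻ x in {x | (τ, x) ∈ (B.A.e (B.ix τ)).target},
        (N1 B a R).indicator (fun q => ENNReal.ofReal (g q)) ((B.A.e (B.ix τ)).symm (τ, x)) *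
          ENNReal.ofReal (‖B.A.w (B.ix τ) (τ, x)‖ ^ 2) := by
  classical
  have ms := h.N_op.measurableSet
  have fm : Measurable ((N1 B a R).indicator fun q => ENNReal.ofReal (g q)) :=
    (ENNReal.continuous_ofReal.comp_continuousOn hg).measurable_piecewise continuousOn_const ms
  rw [← B.fub _ fm, setLIntegral_indicator ms, inter_eq_left.2 h.N_sub]

/-- the fibres are small -/
theorem x_le {x : Cm n} (hx : (τ, x) ∈ (B.A.e (B.ix τ)).target)
    (hq : (B.A.e (B.ix τ)).symm (τ, x) ∈ N1 B a R) :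
    ‖x‖ ^ 2 ≤ 4 * B.C * ‖τ‖ ^ (2 * B.e - g0 B) := by
  have e1 : ((B.A.e (B.ix τ)).symm (τ, x)).1 = τ := (fst_ev B _ hx).self_of_nhds
  have F := B.fib τ (e1 ▸ h.ex0 hq.1.le)
  have e2 : (τ, ((B.A.e (B.ix τ)).symm (τ, x)).2) = (B.A.e (B.ix τ)).symm (τ, x) :=
    Prod.ext e1.symm rfl
  have h1 := (F.dir _ (e2 ▸ (B.A.e (B.ix τ)).map_target hx)).2
  rw [e2, (B.A.e (B.ix τ)).right_inv hx] at h1
  have h2 := h.D_mul hq (x := 2 * B.e) (y := 2 * B.e - g0 B) (by linarith)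
  rw [Dq, e1] at h2
  have h3 := (F.lo _).trans (mul_le_mul_of_nonneg_left h2 (zero_le_one.trans B.C_ge))
  have h4 := pow_le_pow_left₀ (norm_nonneg _) h1 2
  rw [mul_pow] at h4
  linarith

theorem fin {g : P n → ℝ} (hg : ContinuousOn g (N1 B a R)) (j : Fin n) {K : ℝ} (hK : 0 ≤ K)
    (hb : ∀ q ∈ N1 B a R, g q ≤ K * ‖q.1‖ ^ (3 * B.e - 2 * g0 B) *
      (‖q.1‖ ^ (2 * B.k j) * Real.exp (-ph B a j q))) :
    ∫⁻ q in N1 B a R, ENNReal.ofReal (g q) ∂B.A.ν < ⊤ := by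
  have hC := zero_le_one.trans B.C_ge
  rw [h.fub1 hg]
  refine lt_of_le_of_lt ?_ (ENNReal.mul_lt_top (ENNReal.mul_lt_top
    (ENNReal.ofReal_lt_top (r := K * B.C * (4 * B.C) ^ n))
    (measure_ball_lt_top (μ := volume) (x := (0 : Cm n)) (r := 1))) (int_ex B.ρ_ge B.e_pos))
  rw [← lintegral_const_mul' _ _ (ENNReal.mul_ne_top ENNReal.ofReal_ne_top measure_ball_lt_top.ne)]
  refine setLIntegral_mono' (ex_op _).measurableSet fun τ hτ => ?_
  have h0 : 0 < ‖τ‖ := (one_pos.trans_le B.ρ_ge).trans hτ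
  calc _ ≤ ∫⁻ x in {x | (τ, x) ∈ (B.A.e (B.ix τ)).target},
        (closedBall (0 : Cm n) √(4 * B.C * ‖τ‖ ^ (2 * B.e - g0 B))).indicator (fun _ =>
          ENNReal.ofReal (K * B.C * ‖τ‖ ^ (4 * B.e - 2 * g0 B - be B - 2 * n * B.e))) x := by
        refine setLIntegral_mono' ((B.A.e _).open_target.preimage
          (continuous_const.prodMk continuous_id)).measurableSet fun x hx => ?_
        by_cases hq : (B.A.e (B.ix τ)).symm (τ, x) ∈ N1 B a R
        swap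
        · rw [indicator_of_notMem hq, zero_mul]
          exact zero_le
        rw [indicator_of_mem hq, indicator_of_mem (mem_closedBall_zero_iff.2
          (Real.le_sqrt_of_sq_le (h.x_le hx hq))), ← ENNReal.ofReal_mul' (by positivity)]
        refine ENNReal.ofReal_le_ofReal ?_
        have e1 : ((B.A.e (B.ix τ)).symm (τ, x)).1 = τ := (fst_ev B _ hx).self_of_nhds
        have h1 := (hb _ hq).trans (mul_le_mul_of_nonneg_left (h.exp_le hq.1.le j) (by positivity))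
        rw [e1] at h1
        have h2 := (le_div_iff₀' (by positivity)).2 (B.den τ hτ x hx).2
        refine (mul_le_mul_of_nonneg_right h1 (by positivity)).trans ?_
        rw [mul_assoc, mul_assoc _ (Real.exp _)]
        refine (mul_le_mul_of_nonneg_left (mul_le_mul_of_nonneg_left h2 (by positivity))
          (by positivity)).trans_eq ?_
        rw [show 4 * B.e - 2 * g0 B - be B = 3 * B.e - 2 * g0 B + (B.e - be B) by ring,
          Real.rpow_sub h0 _ (2 * n * B.e), Real.rpow_add h0]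
        ring
    _ ≤ _ := by
        refine (setLIntegral_le_lintegral _ _).trans_eq ?_
        rw [lintegral_indicator_const measurableSet_closedBall,
          Measure.addHaar_closedBall _ _ (Real.sqrt_nonneg _), ← mul_assoc, mul_right_comm _ (volume _),
          ← ENNReal.ofReal_mul (by positivity), ← ENNReal.ofReal_mul (by positivity),
          show Module.finrank ℝ (Cm n) = 2 * n by simp [Module.finrank_pi_fintype, mul_comm],
          pow_mul, Real.sq_sqrt (by positivity), mul_pow _ (_ ^ _), ← Real.rpow_mul_natCast h0.le,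
          show -(2 + B.e) = 4 * B.e - 2 * g0 B - be B - 2 * n * B.e + (2 * B.e - g0 B) * n by
            unfold be; ring, Real.rpow_add h0]
        congr 2
        ring

theorem La_cont (j : Fin n) : ContinuousOn (La B a j) (N1 B a R) :=
  (show ContinuousOn _ _ from fun _ hq => (((contDiffAt_const.mul (h.r_sm hq.1.le _)).mul
    ((h.D_sm hq.1.le).pow 2)).mul (h.r_sm hq.1.le _)).continuousAt.continuousWithinAt).mul
    (Horl.cont_sm (h.ph_sm j)).neg.rexp

theorem La_fin (j : Fin n) : ∫⁻ q in N1 B a R, ENNReal.ofReal (La B a j q) ∂B.A.ν < ⊤ := by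
  have hC := zero_le_one.trans B.C_ge
  refine h.fin (h.La_cont j) j hC fun q hq => ?_
  have h1 := h.D_mul hq (x := 3 * B.e) (y := 3 * B.e - g0 B) (by linarith)
  have h2 := h.D_mul hq (x := 3 * B.e - g0 B) (y := 3 * B.e - 2 * g0 B) (by linarith)
  have h3 := (mul_le_mul_of_nonneg_right h1 (h.D_nn hq.1.le)).trans h2
  rw [La, mul_assoc _ _ (Real.exp _), mul_assoc B.C, sq, ← mul_assoc (_ ^ _)]
  gcongr

theorem y_fin (j : Fin n) {δ : ℝ} (hδ : 0 < δ) :
    h.A1.L2 (fun q => q.2 j) (fun q => ph B a j q + δ * ‖q.1‖ ^ 2) < ⊤ := by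
  refine h.fin (((Horl.cont_sm (h.y_sm j)).norm.pow 2).mul ((Horl.cont_sm (h.ph_sm j)).add
    (continuousOn_const.mul (Horl.cont_sm h.ka_psh.1))).neg.rexp) j (inv_pos.2 hδ).le fun q hq => ?_
  have h0 := h.pos hq.1.le
  have h1 : Real.exp (-(δ * ‖q.1‖ ^ 2)) ≤ δ⁻¹ * ‖q.1‖ ^ (3 * B.e - 2 * g0 B) :=
    calc _ ≤ (δ * ‖q.1‖ ^ 2)⁻¹ := by
          rw [Real.exp_neg]
          exact inv_anti₀ (by positivity) (by linarith [Real.add_one_le_exp (δ * ‖q.1‖ ^ 2)])
      _ ≤ _ := by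
          rw [mul_inv, ← Real.rpow_two, ← Real.rpow_neg h0.le]
          exact mul_le_mul_of_nonneg_left (Real.rpow_le_rpow_of_exponent_le (h.one hq.1.le)
            (by linarith [g0_le B, B.e_pos])) (by positivity)
  change ‖q.2 j‖ ^ 2 * Real.exp (-(ph B a j q + δ * ‖q.1‖ ^ 2)) ≤ _
  rw [neg_add, Real.exp_add, ← mul_assoc, mul_comm]
  gcongr
  exact h.y_le hq j

/-- the balls in the fibres -/
theorem ball_sub (ht : 2 * R < ‖τ‖) {x : Cm n} (hx : ‖x‖ < ‖τ‖ ^ (-((2 * n + 11) * B.e))) :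
    (τ, x) ∈ (B.A.e (B.ix τ)).target ∧ (B.A.e (B.ix τ)).symm (τ, x) ∈ N1 B a R := by
  have hR := h.R_gt
  have ht' : R ≤ ‖τ‖ := by linarith
  have h0 := h.pos ht'
  have he := B.e_pos
  have hC := B.C_ge
  have hn : 0 ≤ n * B.e := by positivity
  have F := B.fib τ (h.ex0 ht')
  have m := F.ball x (hx.trans_le (Real.rpow_le_rpow_of_exponent_le (h.one ht') (by linarith)))
  have e1 : ((B.A.e (B.ix τ)).symm (τ, x)).1 = τ := (fst_ev B _ m).self_of_nhds
  refine ⟨m, h.sub_N ⟨e1.symm ▸ ht, ?_⟩⟩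
  rw [Dq, e1]
  have h1 := pow_le_pow_left₀ (norm_nonneg _) ((F.inv x m).2.trans
    (mul_le_mul_of_nonneg_left hx.le two_pos.le)) 2
  have h2 := (F.up _).trans (mul_le_mul_of_nonneg_left h1 (zero_le_one.trans hC))
  refine lt_of_mul_lt_mul_left (h2.trans_lt ?_) (by positivity)
  rw [mul_pow, ← Real.rpow_mul_natCast h0.le, ← Real.rpow_add h0, ← mul_assoc,
    show 2 * B.e + -((4 * n + 23) * B.e) = B.e + -((2 * n + 11) * B.e) * (2 : ℕ) by push_cast; ring,
    Real.rpow_add h0]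
  exact mul_lt_mul_of_pos_right (by linarith [h.lam ht']) (by positivity)

theorem w_ge (j : Fin n) {x : Cm n} (hx : (τ, x) ∈ (B.A.e (B.ix τ)).target)
    (hq : (B.A.e (B.ix τ)).symm (τ, x) ∈ N1 B a R) :
    ‖τ‖ ^ (-2 - 2 * B.k j + (4 * n + 34) * B.e) * ‖τ‖ ^ (2 * n * ((2 * n + 11) * B.e)) ≤
      3 * B.C * (Real.exp (-ph B a j ((B.A.e (B.ix τ)).symm (τ, x))) * ‖B.A.w (B.ix τ) (τ, x)‖ ^ 2) := by
  have e1 : ((B.A.e (B.ix τ)).symm (τ, x)).1 = τ := (fst_ev B _ hx).self_of_nhds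
  have ht : R ≤ ‖τ‖ := e1 ▸ hq.1.le
  have h0 := h.pos ht
  have h1 : 1 ≤ ‖τ‖ ^ B.e * Real.exp (-a τ) := by
    rw [Real.exp_neg, ← div_eq_mul_inv, one_le_div (Real.exp_pos _)]
    exact (h.expa ht).1
  have h2 : 1 ≤ 3 * Real.exp (-(‖τ‖ ^ (3 * B.e) * Dq B.G ((B.A.e (B.ix τ)).symm (τ, x)))) := by
    rw [Real.exp_neg, ← div_eq_mul_inv, one_le_div (Real.exp_pos _)]
    have := h.D_one hq (x := 3 * B.e) (by linarith [g0_ge B, B.e_pos])
    rw [e1] at this
    exact (Real.exp_le_exp.2 this).trans Real.exp_one_lt_three.le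
  refine (le_mul_of_one_le_right (by positivity) (one_le_mul_of_one_le_of_one_le
    (one_le_mul_of_one_le_of_one_le h1 h2) (B.den τ (h.ex0 ht) x hx).1)).trans_eq ?_
  rw [h.exp_ph hq.1.le, e1, show -(2 * B.k j + be B) = -2 - 2 * B.k j + (4 * n + 34) * B.e +
    2 * n * ((2 * n + 11) * B.e) + B.e + 2 * n * B.e by unfold be g0; ring, Real.rpow_add h0 _ (2 * n * B.e),
    Real.rpow_add h0 _ B.e, Real.rpow_add h0 _ (2 * n * _), Atl.c]
  ring

theorem l2 (j : Fin n) {s : P n → ℂ} (hs : h.A1.Hol s)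
    (hl : h.A1.L2 (s - fun q => q.2 j) (ph B a j) < ⊤) :
    ∫⁻ τ in ex (2 * R), ENNReal.ofReal (‖τ‖ ^ (-2 - 2 * B.k j + (4 * n + 34) * B.e) *
      ‖τ‖ ^ (2 * n * ((2 * n + 11) * B.e))) *
    ∫⁻ x in ball (0 : Cm n) (‖τ‖ ^ (-((2 * n + 11) * B.e))), ENNReal.ofReal
      (‖s ((B.A.e (B.ix τ)).symm (τ, x)) - ((B.A.e (B.ix τ)).symm (τ, x)).2 j‖ ^ 2) < ⊤ := by
  have hC := zero_le_one.trans B.C_ge
  have hR := h.R_gt
  have sc : ContinuousOn s (N1 B a R) := Horl.contOn (A := h.A1) fun i z hz => (hs i z hz).continuousAt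
  refine lt_of_le_of_lt ?_ (ENNReal.mul_lt_top (ENNReal.ofReal_lt_top (r := 3 * B.C))
    ((h.fub1 (((sc.sub (Horl.cont_sm (h.y_sm j))).norm.pow 2).mul
      (Horl.cont_sm (h.ph_sm j)).neg.rexp)).ge.trans_lt hl))
  rw [← lintegral_const_mul' _ _ ENNReal.ofReal_ne_top]
  refine (setLIntegral_mono' (ex_op _).measurableSet fun τ hτ => ?_).trans
    (lintegral_mono_set fun τ (hτ : 2 * R < ‖τ‖) => h.ex0 (by linarith))
  rw [← lintegral_const_mul' _ _ ENNReal.ofReal_ne_top,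
    ← lintegral_const_mul' _ _ ENNReal.ofReal_ne_top]
  refine (setLIntegral_mono' measurableSet_ball fun x hx => ?_).trans
    (lintegral_mono_set fun x hx => (h.ball_sub hτ (mem_ball_zero_iff.1 hx)).1)
  obtain ⟨m, hq⟩ := h.ball_sub hτ (mem_ball_zero_iff.1 hx)
  rw [indicator_of_mem hq, ← ENNReal.ofReal_mul (by positivity),
    ← ENNReal.ofReal_mul' (by positivity), ← ENNReal.ofReal_mul (by positivity)]
  refine ENNReal.ofReal_le_ofReal ((mul_le_mul_of_nonneg_right (h.w_ge j m hq)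
    (by positivity)).trans_eq ?_)
  simp only [Pi.mul_apply, Pi.pow_apply, Pi.sub_apply, Pi.neg_apply]
  ring

end Hy

end Sol

open Sol in
/-- **SOL** -/
theorem sol (n : ℕ) : SOL n := by
  intro hH hL B ρ' a hp
  obtain ⟨R, hR⟩ := ((eventually_gt_atTop ρ').and
    ((tendsto_rpow_atTop B.e_pos).eventually_ge_atTop (100 * B.C))).exists
  have h : Hy B ρ' a R := ⟨hp, hR.1, hR.2⟩
  have : (volume : Measure (P n)).IsAddHaarMeasure := Measure.prod.instIsAddHaarMeasure _ _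
  have ex : ∀ j, ∃ s, h.A1.Hol s ∧ h.A1.L2 (s - fun q => q.2 j) (ph B a j) < ⊤ := fun j => by
    refine (hH (P n) (P n) _ h.N_op h.A1 (h.cpl hL) (ph B a j) (La B a j) (fun q => ‖q.1‖ ^ 2)
      (fun q => q.2 j) _ (h.ph_psh hL j) (h.y_sm j) (h.La_cont j) (fun q _ => ?_)
      ENNReal.toReal_nonneg (h.db hL j) (ENNReal.ofReal_toReal (h.La_fin j).ne).ge h.ka_psh
      (fun q _ => sq_nonneg _) fun δ hδ => h.y_fin j hδ).imp fun s hs =>
        ⟨hs.1, hs.2.trans_lt ENNReal.ofReal_lt_top⟩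
    have := B.C_ge
    unfold La
    positivity
  choose s hs hl using ex
  refine ⟨2 * R, fun q j => s j q, by linarith [h.R_gt, h.lt], fun i z hz hq => ?_,
    fun j => h.l2 j (hs j) (hl j)⟩
  exact analyticAt_pi_iff.2 fun j => hs j i z ⟨hz, h.sub_N hq⟩

end Vale.Agent.P253W.Y
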