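import Vale.Agent.P253W.Y.SubA

/-!
# P253W, block Y, row SUB: pointwise bounds in the tube
-/

open scoped ContDiff ENNReal Topology ComplexOrder Matrix
open MeasureTheory Set Metric Filter
open Vale.Agent.P272.K (Cm)
open Vale.Agent.P253.R2.H451 (levi2)

noncomputable section

namespace Vale.Agent.P253W.Y

namespace Sub

variable {n : ℕ} (B : Mod n) (a : ℂ → ℝ) (Z : P n → Cm n) (i : Fin n)

/-- the rescaled distance -/
def D2 (q : P n) : ℝ := ‖q.1‖ ^ ((4 * n + 30) * B.e) * Dq B.G q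

/-- the cutoff -/
def E2 (τ : ℂ) (s : ℝ) : ℝ := s * Real.exp (-s - a τ) * ‖τ‖ ^ (2 * B.e)

/-- the function whose supremum over the fibres is subharmonic -/
def g (q : P n) : ℝ := ‖Z q i‖ ^ 2 * max (1 - E2 B a q.1 (min (D2 B q) (1 / 2))) 0

/-- the hypotheses -/
structure Hy (ρ' ρ₁ : ℝ) : Prop where
  pot : B.Pot ρ' a
  l2 : B.L2 ρ' Z
  le : ρ' ≤ ρ₁
  big : ∀ t, ρ₁ < t → 100 * B.C ≤ t ^ B.e

variable {B a Z i} {ρ' ρ₁ : ℝ} {q : P n} {τ c : ℂ} {y : Cm n}

theorem g_nn (q : P n) : 0 ≤ g B a Z i q := mul_nonneg (sq_nonneg _) (le_max_right _ _)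

theorem wn_ge (k : Fin n → ℝ) (hτ : 0 < ‖τ‖) (y : Cm n) (j : Fin n) :
    ‖y j‖ ^ 2 ≤ ‖τ‖ ^ (2 * k j) * wn k τ y := by
  have h := Finset.single_le_sum (f := fun j => ‖y j‖ ^ 2 * ‖τ‖ ^ (-(2 * k j)))
    (fun _ _ => by positivity) (Finset.mem_univ j)
  rwa [Real.rpow_neg hτ.le, ← div_eq_mul_inv, div_le_iff₀' (by positivity)] at h

namespace Hy

variable (H : Hy B a Z ρ' ρ₁)
include H

theorem ex1 (h : ρ₁ < ‖τ‖) : τ ∈ ex ρ' := H.le.trans_lt h

theorem ex0 (h : ρ₁ < ‖τ‖) : τ ∈ ex B.ρ := H.pot.ge.trans_lt (H.ex1 h)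

theorem one (h : ρ₁ < ‖τ‖) : 1 ≤ ‖τ‖ := B.ρ_ge.trans (le_of_lt (H.ex0 h))

theorem pw {K x y : ℝ} (h : ρ₁ < ‖τ‖) (hK : K ≤ 100 * B.C) (h' : B.e + x ≤ y) :
    K * ‖τ‖ ^ x ≤ ‖τ‖ ^ y := Sub.pw (H.one h) (hK.trans (H.big _ h)) h'

theorem mono {x y : ℝ} (h : ρ₁ < ‖τ‖) (h' : x ≤ y) : ‖τ‖ ^ x ≤ ‖τ‖ ^ y :=
  Real.rpow_le_rpow_of_exponent_le (H.one h) h'

theorem D_nn (h : ρ₁ < ‖q.1‖) : 0 ≤ Dq B.G q := by
  have h0 := one_pos.trans_le (H.one h)
  have h1 := (B.G_cmp _ (H.ex0 h) q.2).1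
  exact nonneg_of_mul_nonneg_right ((Finset.sum_nonneg fun _ _ => by positivity).trans h1)
    (by positivity)

theorem D_lt (h : ρ₁ < ‖q.1‖) (h1 : D2 B q < 1) : Dq B.G q < ‖q.1‖ ^ (-((4 * n + 30) * B.e)) := by
  have h0 := one_pos.trans_le (H.one h)
  rw [Real.rpow_neg h0.le, ← one_div, lt_div_iff₀' (by positivity)]
  exact h1

theorem mem (h : ρ₁ < ‖q.1‖) (h1 : D2 B q < 1) :
    q ∈ Nb ρ' ((4 * n + 23) * B.e) B.G ∧ q ∈ (B.A.e (B.ix q.1)).source := by
  have := B.e_pos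
  have : 0 ≤ n * B.e := by positivity
  exact ⟨⟨H.ex1 h, (H.D_lt h h1).trans_le (H.mono h (by linarith))⟩,
    B.src q ⟨H.ex0 h, (H.D_lt h h1).trans_le (H.mono h (by linarith))⟩⟩

theorem exp_a (h : ρ₁ < ‖τ‖) :
    ‖τ‖ ^ (-B.e) ≤ Real.exp (-a τ) ∧ Real.exp (-a τ) ≤ ‖τ‖ ^ B.e := by
  have h0 := one_pos.trans_le (H.one h)
  have h1 := abs_le.1 (H.pot.bd τ (H.ex1 h))
  rw [Real.rpow_def_of_pos h0, Real.rpow_def_of_pos h0]
  exact ⟨Real.exp_le_exp.2 (by linarith [h1.2]), Real.exp_le_exp.2 (by linarith [h1.1])⟩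

theorem zero (h : ρ₁ < ‖q.1‖) (h1 : 1 / 2 ≤ D2 B q) : g B a Z i q = 0 := by
  have h0 := one_pos.trans_le (H.one h)
  have h2 : 1 / 2 * ‖q.1‖ ^ (-B.e) ≤ Real.exp (-(1 / 2) - a q.1) := by
    rw [sub_eq_add_neg, Real.exp_add]
    exact mul_le_mul (by linarith [Real.add_one_le_exp (-(1 / 2) : ℝ)]) (H.exp_a h).1
      (by positivity) (by positivity)
  have h3 := mul_le_mul_of_nonneg_right h2 (Real.rpow_nonneg h0.le (2 * B.e))
  rw [mul_assoc, ← Real.rpow_add h0, show -B.e + 2 * B.e = B.e by ring] at h3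
  rw [g, min_eq_right h1, max_eq_right, mul_zero]
  rw [E2]
  linarith [H.big _ h, B.C_ge]

theorem lt (h : ρ₁ < ‖q.1‖) (h1 : g B a Z i q ≠ 0) : D2 B q < 1 / 2 :=
  not_le.1 fun h2 => h1 (H.zero h h2)

theorem an (h : ρ₁ < ‖q.1‖) (h1 : D2 B q < 1) :
    AnalyticAt ℂ (fun z => Z ((B.A.e (B.ix q.1)).symm z) i) (B.A.e (B.ix q.1) q) :=
  analyticAt_pi_iff.1 (H.l2.hol _ _ ((B.A.e _).map_source (H.mem h h1).2)
    (by rw [(B.A.e _).left_inv (H.mem h h1).2]; exact (H.mem h h1).1)) i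

theorem D2_cont (h : ρ₁ < ‖q.1‖) : ContinuousAt (D2 B) q := by
  have h0 := one_pos.trans_le (H.one h)
  have h1 : ∀ j k, ContinuousAt (fun q : P n => B.G q.1 j k) q := fun j k =>
    ((B.G_sm j k).continuousOn.continuousAt
      ((isOpen_lt continuous_const continuous_norm).mem_nhds (H.ex0 h))).comp continuousAt_fst
  refine (continuousAt_fst.norm.rpow_const (Or.inl h0.ne')).mul ?_
  unfold Dq qf
  simp only [dotProduct, Matrix.mulVec, Pi.star_apply]
  exact Complex.continuous_re.continuousAt.comp (tendsto_finsetSum _ fun j _ =>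
    ContinuousAt.mul (by fun_prop) (tendsto_finsetSum _ fun k _ => (h1 j k).mul (by fun_prop)))

theorem a_sm (h : ρ₁ < ‖τ‖) : ContDiffAt ℝ 2 a τ :=
  (H.pot.sm.contDiffAt ((isOpen_lt continuous_const continuous_norm).mem_nhds (H.ex1 h))).of_le
    P253Z.Bu.two_le

theorem cont (h : ρ₁ < ‖q.1‖) : ContinuousAt (g B a Z i) q := by
  have h0 := one_pos.trans_le (H.one h)
  by_cases h1 : D2 B q < 1
  · have h2 := (H.mem h h1).2
    have h3 : ContinuousAt (fun q => Z q i) q := by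
      refine ((H.an (i := i) h h1).continuousAt.comp ((B.A.e _).continuousAt h2)).congr ?_
      filter_upwards [(B.A.e _).open_source.mem_nhds h2] with p hp
      rw [Function.comp, (B.A.e _).left_inv hp]
    have h4 := (H.D2_cont h).min (continuousAt_const (y := 1 / 2))
    exact (h3.norm.pow 2).mul ((continuousAt_const.sub ((h4.mul (h4.neg.sub
      ((H.a_sm h).continuousAt.comp continuousAt_fst)).rexp).mul
        (continuousAt_fst.norm.rpow_const (Or.inl h0.ne')))).max continuousAt_const)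
  · refine (continuousAt_const (y := 0)).congr ?_
    filter_upwards [(H.D2_cont h).eventually (lt_mem_nhds (a := 1 / 2) (by linarith)),
      continuousAt_fst.norm.eventually (lt_mem_nhds h)] with p h2 h3
    exact (H.zero h3 h2.le).symm

theorem supp (h : ρ₁ < ‖τ‖) (h1 : g B a Z i (τ, y) ≠ 0) : ‖y‖ ≤ ‖τ‖ ^ 2 := by
  have h0 := one_pos.trans_le (H.one h)
  have he := B.e_pos
  have he1 := B.e_le
  have : 0 ≤ n * B.e := by positivity
  refine (pi_norm_le_iff_of_nonneg (by positivity)).2 fun j =>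
    (pow_le_pow_iff_left₀ (norm_nonneg _) (by positivity) two_ne_zero).1 ?_
  have h2 := (H.D_lt (q := (τ, y)) h ((H.lt h h1).trans (by norm_num))).le
  refine ((wn_ge B.k h0 y j).trans (mul_le_mul_of_nonneg_left ((B.G_cmp τ (H.ex0 h) y).1.trans
    (mul_le_mul_of_nonneg_left h2 (by positivity))) (by positivity))).trans ?_
  rw [← Real.rpow_add h0, ← Real.rpow_add h0, ← pow_mul, ← Real.rpow_natCast]
  exact H.mono h (by push_cast; linarith [(B.k_mem j).2])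

theorem visc (lev : LEV n) (h : ρ₁ < ‖q.1‖) (h1 : 0 < g B a Z i q) {φ : ℂ → ℝ}
    (hφ : ContDiff ℝ 2 φ) (hm : IsLocalMax (fun p => g B a Z i p - φ p.1) q) :
    0 ≤ levi2 φ q.1 1 := by
  have h0 := one_pos.trans_le (H.one h)
  have he := B.e_pos
  have he1 := B.e_le
  have hC := B.C_ge
  have : 0 ≤ n * B.e := by positivity
  have h2 := H.lt h h1.ne'
  have h3 : D2 B q < 1 := h2.trans (by norm_num)
  have hs := (H.mem h h3).2
  have hF := H.an (i := i) h h3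
  have R := B.reg (B.ix q.1)
  have J := B.jac (B.ix q.1)
  set c := B.A.e (B.ix q.1)
  have hz := c.map_source hs
  have f1 : (c q).1 = q.1 := R.fst q hs
  obtain ⟨G, v, w, pt, -⟩ := J _ hz
  have k1 : ‖(c q).1‖ ^ ((4 * n + 30) * B.e) * Dq B.G (c.symm (c q)) = D2 B q := by
    rw [c.left_inv hs, f1, D2]
  obtain ⟨ξ, x1, x2, x3, x4⟩ := (lev _ _ G v w _ _ ((4 * n + 30) * B.e) (2 * B.e) a pt
    (f1 ▸ H.a_sm h) (f1 ▸ H.one h) (by positivity) (by linarith) (by positivity)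
    (mul_nonneg (by positivity) (B.m_mem _ (f1 ▸ H.ex0 h)).1)
    (by rw [f1, ← mul_assoc]; exact H.pw h le_rfl (by linarith)) (k1 ▸ h3.le)).2.2 (by
      rw [f1, c.left_inv hs]
      refine le_trans ?_ (H.pot.lev _ (H.ex1 h))
      rw [mul_assoc B.C, mul_div_assoc]
      gcongr
      rw [div_le_iff₀ (by positivity), ← Real.rpow_natCast, ← Real.rpow_add h0]
      refine (mul_le_mul_of_nonneg_left (H.D_lt h h3).le (by positivity)).trans ?_
      rw [← Real.rpow_add h0]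
      exact H.mono h (by push_cast; linarith)) (k1 ▸ h2.le) _ rfl
  have s1 : ∀ γ : ℝ, ContDiffAt ℝ 2 (fun p : P n => ‖p.1‖ ^ γ) (c q) := fun γ =>
    (contDiffAt_fst.norm ℝ (by rw [f1]; exact norm_pos_iff.1 h0)).rpow_const_of_ne
      (by rw [f1]; exact h0.ne')
  have s2 := (s1 ((4 * n + 30) * B.e)).mul pt.sm
  have s4 : ContDiffAt ℝ 2 (fun p : P n => a p.1) (c q) := (f1 ▸ H.a_sm h).comp _ contDiffAt_fst
  have s3 := (s2.mul (s2.neg.sub s4).exp).mul (s1 (2 * B.e))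
  have k2 : E2 B a q.1 (D2 B q) < 1 := by
    have := pos_of_mul_pos_right h1 (sq_nonneg _)
    rw [min_eq_left h2.le, lt_max_iff] at this
    exact sub_pos.1 (this.resolve_right (lt_irrefl _))
  rw [← f1]
  refine Sub.visc hF s3 hφ (by rw [k1, f1]; exact k2.le) x1 x2 x3 x4 ?_
  have k3 : IsLocalMax ((fun p => g B a Z i p - φ p.1) ∘ c.symm) (c q) :=
    IsLocalMax.comp_continuous (by rwa [c.left_inv hs]) (c.continuousAt_symm hz)
  refine k3.congr ?_
  filter_upwards [c.open_target.mem_nhds hz,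
    s2.continuousAt.eventually (gt_mem_nhds (k1 ▸ h2)),
    s3.continuousAt.eventually (gt_mem_nhds (a := 1) (by simp only [k1]; rw [f1]; exact k2))] with p p1 p2 p3
  have f2 : (c.symm p).1 = p.1 := by rw [← R.fst _ (c.map_target p1), c.right_inv p1]
  simp only [Function.comp, g, D2, E2, f2] at p3 ⊢
  rw [min_eq_left p2.le, max_eq_left (sub_nonneg.2 p3.le)]
  ring

theorem tube (h : ρ₁ < ‖τ‖) {x : Cm n} (hx : x ∈ ball (0 : Cm n) (‖τ‖ ^ (-((2 * n + 11) * B.e)))) :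
    DifferentiableAt ℂ (fun x => Z ((B.A.e (B.ix τ)).symm (τ, x)) i) x ∧
      ‖((B.A.e (B.ix τ)).symm (τ, x)).2 i‖ ^ 2 ≤ ‖τ‖ ^ (2 * B.k i - (4 * n + 22) * B.e) := by
  have h0 := one_pos.trans_le (H.one h)
  have he := B.e_pos
  have hC := B.C_ge
  have : 0 ≤ n * B.e := by positivity
  have F := B.fib τ (H.ex0 h)
  rw [mem_ball_zero_iff] at hx
  have hz := F.ball x (hx.trans_le (H.mono h (by linarith)))
  have f2 : ((B.A.e (B.ix τ)).symm (τ, x)).1 = τ := by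
    rw [← (B.reg _).fst _ ((B.A.e _).map_target hz), (B.A.e _).right_inv hz]
  have k1 := (F.up _).trans (mul_le_mul_of_nonneg_left (pow_le_pow_left₀ (norm_nonneg _)
    ((F.inv x hz).2.trans (mul_le_mul_of_nonneg_left hx.le two_pos.le)) 2) (by positivity))
  rw [mul_pow, ← Real.rpow_natCast (_ ^ _), ← Real.rpow_mul h0.le, ← le_div_iff₀' (by positivity),
    mul_div_assoc, mul_div_assoc, ← Real.rpow_sub h0] at k1
  have k2 := H.pw (K := 8 * B.C) (x := -((2 * n + 11) * B.e) * (2 : ℕ) - 2 * B.e)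
    (y := -((4 * n + 23) * B.e)) h (by linarith) (by push_cast; linarith)
  have k3 : qf (B.G τ) ((B.A.e (B.ix τ)).symm (τ, x)).2 < ‖τ‖ ^ (-((4 * n + 23) * B.e)) := by
    linarith [Real.rpow_pos_of_pos h0 (-((4 * n + 23) * B.e))]
  refine ⟨((analyticAt_pi_iff.1 (H.l2.hol _ _ hz ⟨f2.symm ▸ H.ex1 h, by rwa [Dq, f2]⟩) i).comp
    (analyticAt_const.prod analyticAt_id)).differentiableAt, ?_⟩
  refine ((wn_ge B.k h0 _ i).trans (mul_le_mul_of_nonneg_left ((B.G_cmp τ (H.ex0 h) _).1.trans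
    (mul_le_mul_of_nonneg_left k3.le (by positivity))) (by positivity))).trans_eq ?_
  rw [← Real.rpow_add h0, ← Real.rpow_add h0]
  congr 1
  ring

theorem fib {C : ℝ} (hC : 1 ≤ C) (mv : ∀ (h : Cm n → ℂ) (c : Cm n) (l : ℝ), 0 < l →
      DifferentiableOn ℂ h (ball c l) → ENNReal.ofReal (‖h c‖ ^ 2 * l ^ (2 * n)) ≤
      ENNReal.ofReal C * ∫⁻ x in ball c l, ENNReal.ofReal (‖h x‖ ^ 2)) (h : ρ₁ < ‖τ‖) (y : Cm n) :
    ENNReal.ofReal (g B a Z i (τ, y)) ≤
      ENNReal.ofReal (2 * 4 ^ n * C * ‖τ‖ ^ (2 * n * ((2 * n + 11) * B.e))) *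
        (∫⁻ x in ball (0 : Cm n) (‖τ‖ ^ (-((2 * n + 11) * B.e))), ENNReal.ofReal
          (‖Z ((B.A.e (B.ix τ)).symm (τ, x)) i - ((B.A.e (B.ix τ)).symm (τ, x)).2 i‖ ^ 2)) +
      ENNReal.ofReal (2 * 16 ^ n * C * ‖τ‖ ^ (2 * B.k i - (4 * n + 22) * B.e)) := by
  by_cases h1 : g B a Z i (τ, y) = 0
  · simp [h1]
  have h0 := one_pos.trans_le (H.one h)
  have he := B.e_pos
  have hB := B.C_ge
  have : 0 ≤ n * B.e := by positivity
  have F := B.fib τ (H.ex0 h)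
  have h3 : D2 B (τ, y) < 1 := (H.lt h h1).trans (by norm_num)
  have hs := (H.mem h h3).2
  have tb := fun x => H.tube (i := i) (x := x) h
  have hl : ‖τ‖ ^ (2 * n * ((2 * n + 11) * B.e)) * (‖τ‖ ^ (-((2 * n + 11) * B.e))) ^ (2 * n) = 1 := by
    rw [← Real.rpow_natCast (_ ^ _), ← Real.rpow_mul h0.le, ← Real.rpow_add h0]
    convert Real.rpow_zero _ using 2
    push_cast
    ring
  have hx : ‖(B.A.e (B.ix τ) (τ, y)).2‖ ≤ ‖τ‖ ^ (-((2 * n + 11) * B.e)) / 2 := by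
    refine (pow_le_pow_iff_left₀ (norm_nonneg _) (by positivity) two_ne_zero).1 ?_
    have k1 := pow_le_pow_left₀ (norm_nonneg _) (F.dir y hs).2 2
    have k2 := (F.lo y).trans (mul_le_mul_of_nonneg_left (mul_le_mul_of_nonneg_left
      (H.D_lt (q := (τ, y)) h h3).le (by positivity)) (by positivity))
    have k3 := H.pw (K := 16 * B.C) (x := 2 * B.e + -((4 * n + 30) * B.e))
      (y := -((2 * n + 11) * B.e) * (2 : ℕ)) h (by linarith) (by push_cast; linarith)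
    rw [← Real.rpow_add h0] at k2
    rw [div_pow, ← Real.rpow_natCast (_ ^ _), ← Real.rpow_mul h0.le]
    refine k1.trans (le_trans ?_ (div_le_div_of_nonneg_right k3 (by positivity)))
    linarith
  have hl0 := Real.rpow_pos_of_pos h0 (-((2 * n + 11) * B.e))
  set l := ‖τ‖ ^ (-((2 * n + 11) * B.e))
  set b := ‖τ‖ ^ (2 * B.k i - (4 * n + 22) * B.e)
  set u := ‖τ‖ ^ (2 * n * ((2 * n + 11) * B.e))
  have hb : 0 ≤ b := by positivity
  have hu : 0 ≤ u := by positivity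
  have hsub : ball (B.A.e (B.ix τ) (τ, y)).2 (l / 2) ⊆ ball 0 l :=
    ball_subset_ball' (by rw [dist_zero_right]; linarith)
  have k1 := mv _ _ _ (half_pos hl0) fun x hx => (tb x (hsub hx)).1.differentiableWithinAt
  have k2 : (τ, (B.A.e (B.ix τ) (τ, y)).2) = B.A.e (B.ix τ) (τ, y) :=
    Prod.ext ((B.reg _).fst _ hs).symm rfl
  rw [k2, (B.A.e _).left_inv hs] at k1
  have k3 := (lintegral_mono_set hsub).trans (setLIntegral_mono' (μ := volume) measurableSet_ball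
    (g := fun x => 2 * ENNReal.ofReal (‖Z ((B.A.e (B.ix τ)).symm (τ, x)) i -
      ((B.A.e (B.ix τ)).symm (τ, x)).2 i‖ ^ 2) + ENNReal.ofReal (2 * b))
    (f := fun x => ENNReal.ofReal (‖Z ((B.A.e (B.ix τ)).symm (τ, x)) i‖ ^ 2)) fun x hx => by
      rw [← ENNReal.ofReal_ofNat 2, ← ENNReal.ofReal_mul two_pos.le,
        ← ENNReal.ofReal_add (by positivity) (by positivity)]
      have j1 := (pow_le_pow_left₀ (norm_nonneg _) (norm_le_norm_sub_add
        (Z ((B.A.e (B.ix τ)).symm (τ, x)) i) (((B.A.e (B.ix τ)).symm (τ, x)).2 i)) 2).trans add_sq_le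
      exact ENNReal.ofReal_le_ofReal (by linarith [(tb x hx).2]))
  have k4 : volume (ball (0 : Cm n) l) ≤ ENNReal.ofReal (4 ^ n * l ^ (2 * n)) := by
    rw [volume_pi_ball _ hl0, pow_mul, ← mul_pow, ENNReal.ofReal_pow (by positivity)]
    simp only [Complex.volume_ball, Finset.prod_const, Finset.card_univ, Fintype.card_fin]
    gcongr
    rw [mul_comm, ENNReal.ofReal_mul (by norm_num), ENNReal.ofReal_pow hl0.le,
      ← ENNReal.ofReal_coe_nnreal]
    gcongr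
    exact Real.pi_le_four
  rw [lintegral_add_right _ measurable_const, lintegral_const_mul' _ _ ENNReal.ofNat_ne_top,
    setLIntegral_const] at k3
  have k5 : g B a Z i (τ, y) ≤ 4 ^ n * u * (‖Z (τ, y) i‖ ^ 2 * (l / 2) ^ (2 * n)) := by
    have j1 : 0 ≤ D2 B (τ, y) := mul_nonneg (by positivity) (H.D_nn h)
    have j2 : 0 ≤ E2 B a τ (min (D2 B (τ, y)) (1 / 2)) := by
      unfold E2
      positivity
    refine (mul_le_of_le_one_right (sq_nonneg _) (max_le (sub_le_self _ j2) zero_le_one)).trans_eq ?_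
    rw [div_pow, pow_mul 2, show (2 : ℝ) ^ 2 = 4 by norm_num]
    field_simp
    linear_combination (-‖Z (τ, y) i‖ ^ 2) * hl
  refine (ENNReal.ofReal_le_ofReal k5).trans ?_
  rw [ENNReal.ofReal_mul (by positivity)]
  refine (mul_le_mul_right (k1.trans (mul_le_mul_right (k3.trans (add_le_add le_rfl
    (mul_le_mul_right k4 _))) _)) _).trans_eq ?_
  rw [mul_add, mul_add, ← mul_assoc, ← mul_assoc, ← ENNReal.ofReal_ofNat 2]
  repeat rw [← ENNReal.ofReal_mul (by positivity)]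
  congr 2
  · congr 1
    ring
  · rw [show (16 : ℝ) = 4 * 4 by norm_num, mul_pow]
    linear_combination (2 * 4 ^ n * 4 ^ n * C * b) * hl

theorem bound (lev : LEV n) (vs : VS) (mv : MVN n) (i : Fin n) : ∃ A : ℝ, ∀ c : ℂ, 2 * ρ₁ < ‖c‖ →
    ∀ y, g B a Z i (c, y) ≤ A * ‖c‖ ^ (2 * B.k i - (4 * n + 22) * B.e) := by
  obtain ⟨C, hC, mv⟩ := mv
  have he := B.e_pos
  have he1 := B.e_le
  have hk := B.k_mem i
  have : 0 ≤ n * B.e := by positivity
  have hK := (ENNReal.ofReal_toReal (H.l2.l2 i).ne).ge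
  generalize hK' : ENNReal.toReal _ = K at hK
  have hK0 : 0 ≤ K := hK' ▸ ENNReal.toReal_nonneg
  refine ⟨2 * 4 ^ n * C * 16 * K * 2 + 2 * 16 ^ n * C * 16, fun c hc y => ?_⟩
  have h1 : 1 ≤ ρ₁ := B.ρ_ge.trans (H.pot.ge.trans H.le)
  have c0 : 0 < ‖c‖ := by linarith
  have hτ : ∀ τ ∈ closedBall c (‖c‖ / 2), ‖c‖ / 2 ≤ ‖τ‖ ∧ ‖τ‖ ≤ 2 * ‖c‖ ∧ ρ₁ < ‖τ‖ := fun τ h => by
    have k1 := abs_le.1 ((abs_norm_sub_norm_le τ c).trans (mem_closedBall_iff_norm.1 h))
    exact ⟨by linarith [k1.1], by linarith [k1.2], by linarith [k1.1]⟩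
  have hL := isCompact_closedBall (0 : Cm n) ((2 * ‖c‖) ^ 2)
  have h0L : (0 : Cm n) ∈ closedBall 0 ((2 * ‖c‖) ^ 2) := mem_closedBall_self (by positivity)
  let S : ℂ → ℝ := fun τ => sSup ((fun y => g B a Z i (τ, y)) '' closedBall 0 ((2 * ‖c‖) ^ 2))
  have c1 : ∀ τ ∈ closedBall c (‖c‖ / 2), Continuous fun y => g B a Z i (τ, y) := fun τ h =>
    continuous_iff_continuousAt.2 fun y => (H.cont (q := (τ, y)) (hτ τ h).2.2).comp
      (continuousAt_const.prodMk continuousAt_id)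
  have s1 : ∀ τ ∈ closedBall c (‖c‖ / 2), ∀ y, g B a Z i (τ, y) ≤ S τ := fun τ h y => by
    have k1 := hL.bddAbove_image (c1 τ h).continuousOn
    by_cases k2 : g B a Z i (τ, y) = 0
    · exact k2.trans_le ((g_nn _).trans (le_csSup k1 ⟨0, h0L, rfl⟩))
    · exact le_csSup k1 ⟨y, mem_closedBall_zero_iff.2 ((H.supp (hτ τ h).2.2 k2).trans
        (pow_le_pow_left₀ (norm_nonneg _) (hτ τ h).2.1 2)), rfl⟩
  have s2 : ∀ τ ∈ closedBall c (‖c‖ / 2), ∃ y, S τ = g B a Z i (τ, y) := fun τ h =>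
    (hL.exists_sSup_image_eq ⟨0, h0L⟩ (c1 τ h).continuousOn).imp fun _ h => h.2
  have key := vs S c _ (half_pos c0) (continuousOn_iff_continuous_domRestrict.2
    (hL.continuous_sSup (f := fun (τ : closedBall c (‖c‖ / 2)) y => g B a Z i (τ, y))
      (continuous_iff_continuousAt.2 fun p => (H.cont (q := (p.1, p.2)) (hτ _ p.1.2).2.2).comp
        (f := fun p : closedBall c (‖c‖ / 2) × Cm n => ((p.1 : ℂ), p.2)) (by fun_prop))))
    (fun τ h => (g_nn _).trans (s1 τ h 0)) fun τ h φ hφ hm => by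
      have hN := mem_of_superset (isOpen_ball.mem_nhds h) ball_subset_closedBall
      obtain ⟨y, hy⟩ := s2 τ (ball_subset_closedBall h)
      rcases (g_nn (B := B) (a := a) (Z := Z) (i := i) (τ, y)).eq_or_lt with k1 | k1
      · refine levi2_min hφ ?_
        filter_upwards [hm, hN] with s k2 k3
        linarith [(g_nn _).trans (s1 s k3 0)]
      · refine H.visc (q := (τ, y)) lev (hτ τ (ball_subset_closedBall h)).2.2 k1 hφ ?_
        filter_upwards [continuousAt_fst.eventually hm, continuousAt_fst.eventually hN] with p k2 k3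
        linarith [s1 p.1 k3 p.2]
  set p := -2 - 2 * B.k i + (4 * n + 34) * B.e with hp
  set s := 2 * B.k i - (4 * n + 22) * B.e with hs
  have k1 := key.trans (setLIntegral_mono' measurableSet_ball (g := fun τ =>
      ENNReal.ofReal (2 * 4 ^ n * C * 16 * ‖c‖ ^ (-p)) * (ENNReal.ofReal (‖τ‖ ^ p *
        ‖τ‖ ^ (2 * n * ((2 * n + 11) * B.e))) * ∫⁻ x in ball (0 : Cm n)
          (‖τ‖ ^ (-((2 * n + 11) * B.e))), ENNReal.ofReal
          (‖Z ((B.A.e (B.ix τ)).symm (τ, x)) i - ((B.A.e (B.ix τ)).symm (τ, x)).2 i‖ ^ 2)) +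
      ENNReal.ofReal (2 * 16 ^ n * C * (16 * ‖c‖ ^ s))) fun τ h => by
    obtain ⟨y, hy⟩ := s2 τ (ball_subset_closedBall h)
    obtain ⟨t1, t2, t3⟩ := hτ τ (ball_subset_closedBall h)
    have t0 : 0 < ‖τ‖ := by linarith
    rw [hy, ← mul_assoc, ← ENNReal.ofReal_mul (by positivity)]
    refine (H.fib hC (fun h c l k1 k2 => (mv h c l k1 k2).1) t3 y).trans (add_le_add
      (mul_le_mul_left (ENNReal.ofReal_le_ofReal ?_) _) (ENNReal.ofReal_le_ofReal
        (mul_le_mul_of_nonneg_left (cmp c0 t1 t2 (abs_le.2 ⟨by linarith, by linarith⟩))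
          (by positivity))))
    have j1 := mul_le_mul_of_nonneg_right
      (cmp (s := -p) c0 t1 t2 (abs_le.2 ⟨by linarith, by linarith⟩)) (Real.rpow_nonneg t0.le p)
    rw [← Real.rpow_add t0, neg_add_cancel, Real.rpow_zero] at j1
    nlinarith [mul_le_mul_of_nonneg_left j1 (show 0 ≤ 2 * 4 ^ n * C *
      ‖τ‖ ^ (2 * n * ((2 * n + 11) * B.e)) by positivity)])
  rw [lintegral_add_right _ measurable_const, lintegral_const_mul' _ _ ENNReal.ofReal_ne_top,
    setLIntegral_const, Complex.volume_ball, ← ENNReal.ofReal_pow (half_pos c0).le,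
    ← ENNReal.ofReal_coe_nnreal, NNReal.coe_real_pi, ← ENNReal.ofReal_mul (by positivity)] at k1
  have k2 := k1.trans (add_le_add (mul_le_mul_right ((lintegral_mono_set fun τ h =>
    H.ex1 (hτ τ (ball_subset_closedBall h)).2.2).trans hK) _) le_rfl)
  have c2 := mem_closedBall_self (x := c) (half_pos c0).le
  rw [← ENNReal.ofReal_mul ((g_nn _).trans (s1 c c2 0)), ← ENNReal.ofReal_mul (by positivity),
    ← ENNReal.ofReal_mul (by positivity), ← ENNReal.ofReal_add (by positivity) (by positivity),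
    ENNReal.ofReal_le_ofReal_iff (by positivity)] at k2
  have k3 : ‖c‖ ^ (-p) ≤ ‖c‖ ^ s * (2 * ((‖c‖ / 2) ^ 2 * Real.pi)) := by
    refine (H.mono (y := s + (2 : ℕ)) (hτ c c2).2.2 (by push_cast; linarith)).trans ?_
    rw [Real.rpow_add c0, Real.rpow_natCast]
    exact mul_le_mul_of_nonneg_left (by nlinarith [Real.two_le_pi, sq_nonneg ‖c‖]) (by positivity)
  refine (s1 c c2 y).trans (le_of_mul_le_mul_right (a := (‖c‖ / 2) ^ 2 * Real.pi) ?_ (by positivity))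
  nlinarith [mul_le_mul_of_nonneg_left k3 (show 0 ≤ 2 * 4 ^ n * C * 16 * K by positivity)]

theorem half (h : ρ₁ < ‖q.1‖) (h1 : Dq B.G q < ‖q.1‖ ^ (-((4 * n + 34) * B.e))) :
    ‖Z q i‖ ^ 2 ≤ 2 * g B a Z i q := by
  have h0 := one_pos.trans_le (H.one h)
  have he := B.e_pos
  have hC := B.C_ge
  have h2 : D2 B q ≤ ‖q.1‖ ^ (-(4 * B.e)) := by
    refine (mul_le_mul_of_nonneg_left h1.le (by positivity)).trans_eq ?_
    rw [← Real.rpow_add h0]
    congr 1
    ring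
  have h3 : 0 ≤ min (D2 B q) (1 / 2) := le_min (mul_nonneg (by positivity) (H.D_nn h)) (by norm_num)
  have h4 : E2 B a q.1 (min (D2 B q) (1 / 2)) ≤ ‖q.1‖ ^ (-(4 * B.e)) * ‖q.1‖ ^ B.e *
      ‖q.1‖ ^ (2 * B.e) := mul_le_mul_of_nonneg_right (mul_le_mul ((min_le_left _ _).trans h2)
    ((Real.exp_le_exp.2 (by linarith)).trans (H.exp_a h).2) (by positivity) (by positivity))
    (by positivity)
  rw [← Real.rpow_add h0, ← Real.rpow_add h0] at h4
  have h5 := H.pw (K := 2) (x := -(4 * B.e) + B.e + 2 * B.e) (y := 0) h (by linarith) (by linarith)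
  rw [Real.rpow_zero] at h5
  have h6 := mul_le_mul_of_nonneg_left (le_max_of_le_left (c := 0) (show 1 / 2 ≤
    1 - E2 B a q.1 (min (D2 B q) (1 / 2)) by linarith)) (sq_nonneg ‖Z q i‖)
  rw [g]
  linarith

end Hy

end Sub

theorem sub (n : ℕ) : SUB n := fun lev vs mv B ρ' a Z pot l2 => by
  have hT := tendsto_rpow_atTop B.e_pos
  obtain ⟨r₁, h₁⟩ := eventually_atTop.1 (hT.eventually_ge_atTop (100 * B.C))
  have H : Sub.Hy B a Z ρ' (max ρ' r₁) :=
    ⟨pot, l2, le_max_left _ _, fun t ht => h₁ t ((le_max_right _ _).trans ht.le)⟩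
  choose A hA using H.bound lev vs mv
  obtain ⟨r₂, h₂⟩ := eventually_atTop.1 (hT.eventually_ge_atTop (∑ i, 2 * A i))
  have h1 : 1 ≤ max ρ' r₁ := B.ρ_ge.trans (pot.ge.trans H.le)
  refine ⟨max (2 * max ρ' r₁) r₂, le_max_of_le_left (by linarith [H.le]), fun q hq => ?_⟩
  have k1 := (le_max_left _ _).trans_lt hq.1
  have k2 : max ρ' r₁ < ‖q.1‖ := by linarith
  have h0 := one_pos.trans_le (H.one k2)
  refine le_trans ?_ (Sub.pw (x := -((4 * n + 22) * B.e)) (H.one k2)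
    (h₂ _ ((le_max_right _ _).trans hq.1.le)) (by linarith [B.e_pos]))
  rw [Finset.sum_mul]
  refine Finset.sum_le_sum fun i _ => (mul_le_mul_of_nonneg_right ((H.half k2 hq.2).trans
    (mul_le_mul_of_nonneg_left (hA i q.1 k1 q.2) two_pos.le)) (by positivity)).trans_eq ?_
  rw [mul_assoc, mul_assoc, mul_assoc, ← Real.rpow_add h0]
  congr 3
  ring

end Vale.Agent.P253W.Y
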