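import Vale.Agent.P253W.Y.Defs
import Vale.Agent.P253W.V.Arf
import Mathlib.Analysis.SpecialFunctions.JapaneseBracket

/-!
# P253W, block Y: the choice of the time
-/

open scoped Manifold ContDiff Bundle ENNReal Topology ComplexConjugate ComplexOrder Matrix
open Bundle IsManifold MeasureTheory Set Metric Filter Vale.Agent.P253.Mfd Vale.Agent.P253Z
open Vale.Agent.P272.K (Cm dz Chart)
open Vale.Agent.P253W.V.Arf (qf_eq qf_nonneg qf_sub chart_sm nv_eq nv_nonneg)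

noncomputable section

namespace Vale.Agent.P253W.Y

namespace Tm

theorem slab {a : ℝ → ℝ} (ha : Continuous a) (an : Antitone a) {h : ℝ} (h0 : 0 ≤ h) (h2 : h ≤ 2) :
    ∫ t in (1 : ℝ)..2, (a t - a (t + h)) ≤ h * (a 1 - a 4) := by
  have i := ha.intervalIntegrable (μ := volume)
  rw [intervalIntegral.integral_sub (i _ _)
    ((ha.comp' (continuous_add_const h)).intervalIntegrable _ _),
    intervalIntegral.integral_comp_add_right a,
    intervalIntegral.integral_interval_sub_interval_comm (i _ _) (i _ _) (i _ _)]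
  have e1 := intervalIntegral.integral_mono_on (show 1 ≤ 1 + h by linarith) (i _ _)
    (intervalIntegrable_const (c := a 1)) fun t ht => an ht.1
  have e2 := intervalIntegral.integral_mono_on (show 2 ≤ 2 + h by linarith)
    (intervalIntegrable_const (c := a 4)) (i _ _) fun t ht => an (by linarith [ht.2])
  simp only [intervalIntegral.integral_const, add_sub_cancel_left, smul_eq_mul] at e1 e2
  linarith

theorem two_lt {τ : ℂ} (h : τ ∈ ex (Real.exp 2)) : 2 < Real.log ‖τ‖ :=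
  (Real.lt_log_iff_exp_lt ((Real.exp_pos 2).trans h)).2 h

/-- averaging in time -/
theorem pick {a r : ℂ × ℝ → ℝ} {C : ℝ} (ha : Continuous a) (hr : Continuous r) (r0 : ∀ q, 0 ≤ r q)
    (an : ∀ τ, Antitone fun s => a (τ, s))
    (hd : ∀ τ, a (τ, 1) - a (τ, 4) = ∫ s in (1 : ℝ)..4, r (τ, s))
    (hC : ∀ s ∈ Icc (1 : ℝ) 4, ∫⁻ τ, ENNReal.ofReal (r (τ, s)) ≤ ENNReal.ofReal C) :
    ∃ t ∈ Icc (1 : ℝ) 2, ∫⁻ τ in ex (Real.exp 2),
      ENNReal.ofReal (Real.log ‖τ‖ * (a (τ, t) - a (τ, t + 4 / Real.log ‖τ‖))) < ⊤ := by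
  by_contra! h
  have am := ha.measurable
  have rm := hr.measurable
  have h1 : ∫⁻ t in Ioc (1 : ℝ) 2, ∫⁻ τ in ex (Real.exp 2),
      ENNReal.ofReal (Real.log ‖τ‖ * (a (τ, t) - a (τ, t + 4 / Real.log ‖τ‖))) = ⊤ := by
    rw [setLIntegral_congr_fun measurableSet_Ioc fun t ht => top_le_iff.1 (h t ⟨ht.1.le, ht.2⟩),
      setLIntegral_const, ENNReal.top_mul (by simp)]
  rw [lintegral_lintegral_swap (Measurable.aemeasurable (by unfold Function.uncurry; fun_prop))]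
    at h1
  have h2 : ∫⁻ τ, ∫⁻ s in Ioc (1 : ℝ) 4, ENNReal.ofReal (r (τ, s)) < ⊤ := by
    rw [lintegral_lintegral_swap (Measurable.aemeasurable (by unfold Function.uncurry; fun_prop))]
    refine (setLIntegral_mono' measurableSet_Ioc fun s hs => hC s ⟨hs.1.le, hs.2⟩).trans_lt ?_
    rw [setLIntegral_const]
    exact ENNReal.mul_lt_top ENNReal.ofReal_lt_top measure_Ioc_lt_top
  refine ((setLIntegral_mono' (g := fun τ => ENNReal.ofReal 4 *
    ∫⁻ s in Ioc (1 : ℝ) 4, ENNReal.ofReal (r (τ, s)))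
    (isOpen_lt continuous_const continuous_norm).measurableSet fun τ hτ => ?_).trans_lt
    ((setLIntegral_le_lintegral _ _).trans_lt ?_)).ne h1
  · have K := two_lt hτ
    have k0 : 0 ≤ 4 / Real.log ‖τ‖ := by positivity
    have c1 : Continuous fun s => a (τ, s) := by fun_prop
    have c2 : Continuous fun s => r (τ, s) := by fun_prop
    have c3 : Continuous fun t => Real.log ‖τ‖ * (a (τ, t) - a (τ, t + 4 / Real.log ‖τ‖)) := by
      fun_prop
    rw [← ofReal_integral_eq_lintegral_ofReal (c3.intervalIntegrable 1 2).1 (.of_forall fun t =>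
      mul_nonneg (by linarith) (sub_nonneg.2 (an τ (le_add_of_nonneg_right k0)))),
      ← ofReal_integral_eq_lintegral_ofReal (c2.intervalIntegrable 1 4).1 (.of_forall fun t => r0 _),
      ← ENNReal.ofReal_mul (by norm_num), ← intervalIntegral.integral_of_le (by norm_num),
      ← intervalIntegral.integral_of_le (by norm_num), ← hd, intervalIntegral.integral_const_mul]
    refine ENNReal.ofReal_le_ofReal ((mul_le_mul_of_nonneg_left (slab c1 (an τ) k0
      ((div_le_iff₀ (by linarith)).2 (by linarith))) (by linarith)).trans_eq ?_)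
    rw [← mul_assoc, mul_div_cancel₀ _ (by linarith)]
  · rw [lintegral_const_mul' _ _ ENNReal.ofReal_ne_top]
    exact ENNReal.mul_lt_top ENNReal.ofReal_lt_top h2

variable {n : ℕ} {M : Type} [MetricSpace M] [ChartedSpace (Cm n) M] [IsManifold 𝓘(ℂ, Cm n) 1 M]
  [IsManifold 𝓘(ℝ, Cm n) ∞ M] [RiemannianBundle fun x : M => TangentSpace 𝓘(ℝ, Cm n) x]
  {F : Flow n M} {f : ℂ → M}

/-- the speed is smooth in space and time -/
theorem nv_sm (a : B1a n M) (b : F.Bas1) (hf : H1 n f univ) {q : ℂ × ℝ} (hq : 0 < q.2) :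
    ContDiffAt ℝ ∞ (fun q : ℂ × ℝ => F.nv q.2 (f q.1) (d1 n f q.1)) q := by
  have hp := mem_chart_source (Cm n) (f q.1)
  have he := a.chart (f q.1)
  obtain ⟨h1, h2⟩ := chart_sm isOpen_univ hf he
  have h0 := h1.mem_nhds (⟨trivial, hp⟩ : q.1 ∈ univ ∩ f ⁻¹' (pc n (f q.1)).source)
  have h3 := (((h2.deriv_of_isOpen (m := ∞) h1 (by simp)).restrict_scalars ℝ).contDiffAt h0).comp q
    contDiffAt_fst
  have h4 := fun j k => ((b.g_sm _ he j k).contDiffAt (prod_mem_nhds (Ici_mem_nhds hq)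
    ((pc n (f q.1)).open_target.mem_nhds ((pc n (f q.1)).map_source hp)))).comp q
    (f := fun y : ℂ × ℝ => (y.2, pc n (f q.1) (f y.1)))
    (contDiffAt_snd.prodMk (((h2.restrict_scalars ℝ).contDiffAt h0).comp q contDiffAt_fst))
  have h5 : ContDiffAt ℝ ∞ (fun y : ℂ × ℝ => qf (F.g y.2 (pc n (f q.1)) (pc n (f q.1) (f y.1)))
      (deriv (fun s => pc n (f q.1) (f s)) y.1)) q := by
    simp only [qf_eq]
    have h6 := contDiffAt_pi.1 h3
    exact Complex.reCLM.contDiff.contDiffAt.comp q (ContDiffAt.sum fun j _ => ContDiffAt.sum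
      fun k _ => (h4 j k).mul ((h6 j).mul (Complex.conjCLE.contDiff.contDiffAt.comp q (h6 k))))
  refine h5.congr_of_eventuallyEq ?_
  filter_upwards [prod_mem_nhds h0 (Ici_mem_nhds hq)] with y hy
    using nv_eq a b isOpen_univ hf he hy.2 trivial hy.1.2

omit [IsManifold 𝓘(ℂ, Cm n) 1 M] [IsManifold 𝓘(ℝ, Cm n) ∞ M] in
theorem nv_t (a : B1a n M) (b : F.Bas2) {t : ℝ} (ht : 0 < t) (x : M) (v : Cm n) :
    HasDerivAt (fun s => F.nv s x v) (-F.rc t x v) t := by
  have h := HasDerivAt.fun_sum (u := Finset.univ) fun j _ => HasDerivAt.fun_sum (u := Finset.univ)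
    fun k _ => (b.g_t t ht _ (a.chart x) _ (mem_chart_target _ x) j k).mul_const (v j * conj (v k))
  simp only [Flow.nv, Flow.rc, qf_eq]
  refine (Complex.reCLM.hasFDerivAt.comp_hasDerivAt t h).congr_deriv ?_
  simp only [Flow.ρx, neg_mul, Finset.sum_neg_distrib, Complex.reCLM_apply, Complex.neg_re]

theorem rc_cont (a : B1a n M) (b : F.Bas1) (b2 : F.Bas2) (hf : H1 n f univ) :
    ContinuousOn (fun q : ℂ × ℝ => F.rc q.2 (f q.1) (d1 n f q.1)) {q | 0 < q.2} := by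
  have h : ContDiffOn ℝ ∞ (fun q : ℂ × ℝ => F.nv q.2 (f q.1) (d1 n f q.1)) {q | 0 < q.2} :=
    fun q hq => (nv_sm a b hf hq).contDiffWithinAt
  refine ((h.continuousOn_fderiv_of_isOpen (isOpen_lt continuous_const continuous_snd)
    (by simp)).clm_apply (continuousOn_const (c := (0, 1)))).neg.congr fun q hq => ?_
  exact neg_eq_iff_eq_neg.1 ((nv_t a b2 hq _ _).unique
    (((nv_sm a b hf hq).differentiableAt (by simp)).hasFDerivAt.comp_hasDerivAt q.2
      (f := fun s => (q.1, s)) ((hasDerivAt_const _ _).prodMk (hasDerivAt_id _))))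

theorem tail {x : ℝ} (hx : 4 ≤ x) : x ^ (-5 : ℝ) ≤ (1 + x ^ 2) ^ (-4 / 2 : ℝ) := by
  rw [show (-4 / 2 : ℝ) = -2 by norm_num, Real.rpow_neg (by linarith), Real.rpow_neg (by positivity),
    Real.rpow_ofNat, Real.rpow_ofNat]
  refine inv_anti₀ (by positivity) ?_
  have h : 1 + x ^ 2 ≤ 2 * x ^ 2 := by nlinarith
  calc (1 + x ^ 2) ^ 2 ≤ (2 * x ^ 2) ^ 2 := by gcongr
    _ = 4 * x ^ 4 := by ring
    _ ≤ x * x ^ 4 := by gcongr
    _ = x ^ 5 := by ring

variable (F f) in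
/-- the speed -/
def sp (t : ℝ) (τ : ℂ) : ℝ := F.nv t (f τ) (d1 n f τ)

variable (F f) in
/-- the loss of speed -/
def ls (t : ℝ) (τ : ℂ) : ℝ := Real.log ‖τ‖ * (sp F f t τ - sp F f (t + 4 / Real.log ‖τ‖) τ)

omit [IsManifold 𝓘(ℂ, Cm n) 1 M] [IsManifold 𝓘(ℝ, Cm n) ∞ M] in
theorem anti (a : B1a n M) (h : F.S3a) (τ : ℂ) {s t : ℝ} (hs : 0 ≤ s) (l : s ≤ t) :
    sp F f t τ ≤ sp F f s τ :=
  sub_nonneg.1 ((qf_nonneg (h.g_anti s t hs l _ (a.chart _) _ (mem_chart_target _ _)).1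
    _).trans_eq (qf_sub _ _ _))

theorem time (a : B1a n M) (b : F.Bas1) (b2 : F.Bas2) (h : F.S3a) (hf : H1 n f univ) {C : ℝ}
    (hm : ∀ t ∈ Icc (1 : ℝ) 4,
      ∫⁻ τ : ℂ, ENNReal.ofReal (F.rc t (f τ) (d1 n f τ)) ≤ ENNReal.ofReal C) :
    ∃ t ∈ Icc (1 : ℝ) 2, ∫⁻ τ in ex (Real.exp 2), ENNReal.ofReal (ls F f t τ) < ⊤ := by
  have c0 : Continuous fun q : ℂ × ℝ => (q.1, max q.2 1) := by fun_prop
  have m0 : ∀ s : ℝ, 0 < max s 1 := fun s => lt_max_of_lt_right one_pos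
  have c1 := (rc_cont a b b2 hf).comp_continuous c0 fun q => m0 _
  have c2 := ContinuousOn.comp_continuous (s := {q : ℂ × ℝ | 0 < q.2})
    (fun q hq => (nv_sm a b hf hq).continuousAt.continuousWithinAt) c0 fun q => m0 _
  obtain ⟨t, ht, hi⟩ := pick (a := fun q => sp F f (max q.2 1) q.1)
    (r := fun q => F.rc (max q.2 1) (f q.1) (d1 n f q.1)) (C := C) c2 c1
    (fun q => qf_nonneg (h.ric_pos _ (m0 _).le _ (a.chart _) _
      (mem_chart_target _ _)).posSemidef _)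
    (fun τ s t l => anti a h τ (m0 s).le (max_le_max l le_rfl)) (fun τ => by
      have e : ∀ s ∈ uIcc (1 : ℝ) 4, max s 1 = s := fun s hs =>
        max_eq_left (by rw [uIcc_of_le (by norm_num)] at hs; exact hs.1)
      have i := ((c1.comp (Continuous.prodMk_right τ)).intervalIntegrable (μ := volume) 1 4).neg
      have := intervalIntegral.integral_eq_sub_of_hasDerivAt (f := fun s => sp F f s τ)
        (f' := fun s => -F.rc (max s 1) (f τ) (d1 n f τ)) (fun s hs => by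
          rw [e s hs]
          exact nv_t a b2 (e s hs ▸ m0 s) (f τ) (d1 n f τ)) i
      rw [intervalIntegral.integral_neg] at this
      simp only [e 1 left_mem_uIcc, e 4 right_mem_uIcc]
      linarith) fun s hs => by simpa only [max_eq_left hs.1] using hm s hs
  refine ⟨t, ht, lt_of_eq_of_lt (setLIntegral_congr_fun
    (isOpen_lt continuous_const continuous_norm).measurableSet fun τ hτ => ?_) hi⟩
  have := two_lt hτ
  simp only [ls, max_eq_left ht.1,
    max_eq_left (ht.1.trans (le_add_of_nonneg_right (by positivity : 0 ≤ 4 / Real.log ‖τ‖)))]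

theorem ls_sm (a : B1a n M) (b : F.Bas1) (hf : H1 n f univ) {t : ℝ} (ht : 0 < t) {τ : ℂ}
    (K : 2 < Real.log ‖τ‖) : ContDiffAt ℝ ∞ (ls F f t) τ := by
  have h0 : τ ≠ 0 := fun h => by norm_num [h] at K
  have l : ContDiffAt ℝ ∞ (fun τ : ℂ => Real.log ‖τ‖) τ :=
    (contDiffAt_norm ℝ h0).log (norm_ne_zero_iff.2 h0)
  have h1 : ContDiffAt ℝ ∞ (fun τ : ℂ => (τ, t)) τ := contDiffAt_id.prodMk contDiffAt_const
  have h2 : ContDiffAt ℝ ∞ (fun τ : ℂ => (τ, t + 4 / Real.log ‖τ‖)) τ :=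
    contDiffAt_id.prodMk (contDiffAt_const.add (contDiffAt_const.div l (by linarith)))
  have h3 := (nv_sm a b hf ht).comp τ h1
  have h4 := (nv_sm a b hf (by positivity)).comp τ h2
  exact l.mul (h3.sub h4)

omit [IsManifold 𝓘(ℂ, Cm n) 1 M] [IsManifold 𝓘(ℝ, Cm n) ∞ M] in
theorem ricb (a : B1a n M) (h : F.S3a) (dh : DH n) : ∃ C : ℝ, 1 ≤ C ∧ ∀ (N : ℕ) (t r q : ℝ) (τ : ℂ)
    (Ψ : Cm n → M) (y V : Cm n), 1 ≤ N → t ∈ Icc (1 : ℝ) 2 → 2 < Real.log ‖τ‖ →
    C * N * Real.log ‖τ‖ * r ≤ q → q ≤ 1 / 2 → 0 ≤ sp F f t τ → Imm Ψ →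
    (∀ y ∈ ball (0 : Cm n) 1, ∀ s ∈ Icc (1 : ℝ) 4, s * F.R s (Ψ y) ≤ Real.log ‖τ‖) →
    Ψ y = f τ → dn Ψ y V = d1 n f τ →
    RicB (F.pull Ψ t) y V r (C * N * ls F f t τ + q ^ N * Real.log ‖τ‖ * sp F f t τ) := by
  obtain ⟨C, C1, dh⟩ := dh
  refine ⟨C, C1, fun N t r q τ Ψ y V N1 ht K h1 h2 k2 hΨ hR e1 e2 d c c' V' V'' d0 d1 c0 v0 hc H
    s hs => ?_⟩
  obtain ⟨lf, hl⟩ := h.lfp _ Ψ isOpen_ball hΨ.1 hΨ.2
  unfold ls
  set L := Real.log ‖τ‖
  have CN : 0 < C * N := by positivity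
  have t0 : 0 < t := one_pos.trans_le ht.1
  have L0 : 0 < L := by linarith
  have l0 : 0 < 1 / L := by positivity
  have l1 : 1 / L ≤ 1 / 2 := one_div_le_one_div_of_le two_pos K.le
  have l2 : t * Real.exp (1 / L) ≤ t + 4 / L := by
    have := (abs_le.1 (Real.abs_exp_sub_one_le (x := 1 / L) (by rw [abs_of_pos l0]; linarith))).2
    rw [abs_of_pos l0] at this
    rw [show 4 / L = 4 * (1 / L) by ring]
    nlinarith [ht.2]
  have l3 : 4 / L ≤ 2 := (div_le_iff₀ L0).2 (by linarith)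
  have q0 : 0 ≤ C * N * d * √(L / t) := by positivity
  have q1 : C * N * d * √(L / t) ≤ q := by
    have s1 : √(L / t) ≤ L := Real.sqrt_le_iff.2 ⟨L0.le,
      (div_le_self L0.le ht.1).trans (by nlinarith)⟩
    rw [mul_right_comm]
    exact (mul_le_mul (mul_le_mul_of_nonneg_left s1 CN.le) d1 d0 (by positivity)).trans h1
  have := dh _ _ lf t d L N c c' V' V'' t0 d0 (by linarith) N1 hc
    (fun s hs => ⟨(H s hs).1, (H s hs).2.1, (H s hs).2.2.1, (H s hs).2.2.2.1, (H s hs).2.2.2.2,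
      fun t' ht' => by
        rw [(hl t' (t0.trans_le ht'.1) _ (H s hs).1).2]
        exact hR _ (H s hs).1 t' ⟨ht.1.trans ht'.1, by linarith [ht'.2, ht.2]⟩⟩)
    (q1.trans h2) s hs
  simp only [F.qf_pull, c0, v0, e1, e2] at this
  have z1 := mul_le_mul_of_nonneg_right
    (mul_le_mul_of_nonneg_right (pow_le_pow_left₀ q0 q1 N) L0.le) k2
  have z2 := mul_le_mul_of_nonneg_left (sub_le_sub_left
    (anti (f := f) a h τ (by positivity) l2) (sp F f t τ)) (mul_pos CN L0).le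
  have z3 := this.trans (add_le_add z2 z1)
  have z4 := mul_nonneg (mul_pos CN L0).le
    (sub_nonneg.2 (anti (f := f) a h τ t0.le (le_add_of_nonneg_right (div_pos four_pos L0).le)))
  have z5 := mul_nonneg (mul_nonneg (pow_nonneg (q0.trans q1) N) L0.le) k2
  rw [← mul_assoc]
  by_contra! k
  nlinarith [ht.1]

end Tm

open Tm

/-- **TM** -/
theorem tm : TM := by
  intro n M _ _ _ _ _ _ _ _ _ _ _ _ μ F A T p f ν hf cv
  have a : B1a n M := b1a
  obtain ⟨C, C1, dh⟩ := ricb (f := f) a p.s3a p.dh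
  obtain ⟨Cv, ρv, hv⟩ := cv.vel
  obtain ⟨t, ht, hi⟩ := time a p.b1 p.b2 p.s3a hf cv.mass.choose_spec
  refine ⟨t, ht, fun e he => ?_⟩
  obtain ⟨N, N1, hN⟩ : ∃ N : ℕ, 1 ≤ N ∧ |Cv| + 6 ≤ e * N :=
    ⟨⌈(|Cv| + 6) / e⌉₊ + 1, by simp, by
      have := (div_le_iff₀ he).1 (Nat.le_ceil ((|Cv| + 6) / e))
      push_cast
      linarith⟩
  have CN : 0 < C * N := by positivity
  obtain ⟨ρ, hρ⟩ := eventually_atTop.1 (((isLittleO_log_rpow_atTop he).bound (inv_pos.2 CN)).and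
    (((tendsto_rpow_neg_atTop he).eventually_le_const one_half_pos).and
      ((eventually_gt_atTop ρv).and ((eventually_ge_atTop (C * N)).and
        ((eventually_gt_atTop (Real.exp 2)).and (eventually_ge_atTop 4))))))
  have t0 : 0 < t := one_pos.trans_le ht.1
  have key : ∀ τ ∈ ex ρ, 2 < Real.log ‖τ‖ ∧ Real.log ‖τ‖ ≤ ‖τ‖ ∧ 0 ≤ sp F f t τ ∧
      sp F f t τ ≤ ‖τ‖ ^ |Cv| ∧ 0 ≤ ls F f t τ ∧ ls F f t τ ≤ ‖τ‖ * ‖τ‖ ^ |Cv| := fun τ hτ => by
    obtain ⟨-, -, h3, -, h5, h6⟩ := hρ _ (le_of_lt hτ)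
    have K := two_lt h5
    have k0 : 0 < 4 / Real.log ‖τ‖ := by positivity
    have k1 := (Real.log_le_sub_one_of_pos (by linarith : 0 < ‖τ‖)).trans (sub_le_self _ zero_le_one)
    have k2 := (anti (f := f) a p.s3a τ zero_le_one ht.1).trans ((hv τ h3).trans
      (Real.rpow_le_rpow_of_exponent_le (by linarith) (le_abs_self Cv)))
    have k3 := sub_nonneg.2 (anti (f := f) a p.s3a τ t0.le (le_add_of_nonneg_right k0.le))
    exact ⟨K, k1, nv_nonneg a p.is t0.le _ _, k2, mul_nonneg (by linarith) k3, mul_le_mul k1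
      ((sub_le_self _ (nv_nonneg a p.is (add_pos t0 k0).le _ _)).trans k2) k3 (by linarith)⟩
  refine ⟨|Cv| + 3, ρ, fun τ => C * N * ls F f t τ + (1 + ‖τ‖ ^ 2) ^ (-4 / 2 : ℝ),
    fun τ hτ => ((contDiffAt_const.mul (ls_sm a p.b1 hf t0 (key τ hτ).1)).add
      ((contDiffAt_const.add (contDiff_norm_sq ℝ).contDiffAt).rpow_const_of_ne
        (by positivity))).contDiffWithinAt, fun τ hτ => ?_, ?_,
    fun τ hτ Ψ y V hΨ hR e1 e2 d c c' V' V'' d0 d1 c0 v0 hc H s hs => ?_⟩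
  · obtain ⟨-, -, -, -, k3, k4⟩ := key τ hτ
    obtain ⟨-, -, -, h4, -, h6⟩ := hρ _ (le_of_lt hτ)
    refine ⟨by positivity, ?_⟩
    have y1 : 1 ≤ ‖τ‖ ^ |Cv| := Real.one_le_rpow (by linarith) (abs_nonneg _)
    have y2 : (1 + ‖τ‖ ^ 2) ^ (-4 / 2 : ℝ) ≤ 1 :=
      Real.rpow_le_one_of_one_le_of_nonpos (by nlinarith) (by norm_num)
    have y3 := mul_le_mul h4 k4 k3 (by linarith)
    have y4 := mul_le_mul (show 4 * 4 ≤ ‖τ‖ * ‖τ‖ by nlinarith) y1 zero_le_one (by positivity)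
    rw [Real.rpow_add (by linarith), Real.rpow_ofNat]
    nlinarith
  · have i := (integrable_rpow_neg_one_add_norm_sq (E := ℂ) (μ := volume) (r := 4)
      (by simp; norm_num)).lintegral_lt_top
    refine (lintegral_mono fun τ => ENNReal.ofReal_add_le).trans_lt ?_
    rw [lintegral_add_right _ (by fun_prop)]
    refine ENNReal.add_lt_top.2 ⟨?_, (setLIntegral_le_lintegral _ _).trans_lt i⟩
    simp only [ENNReal.ofReal_mul CN.le]
    rw [lintegral_const_mul' _ _ ENNReal.ofReal_ne_top]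
    exact ENNReal.mul_lt_top ENNReal.ofReal_lt_top
      ((lintegral_mono_set fun τ hτ => (hρ _ (le_of_lt hτ)).2.2.2.2.1).trans_lt hi)
  · obtain ⟨K, k1, k2, k3, -⟩ := key τ hτ
    obtain ⟨h1, h2, -, -, -, h6⟩ := hρ _ (le_of_lt hτ)
    have x0 : 0 < ‖τ‖ := by linarith
    rw [Real.norm_of_nonneg (by linarith), Real.norm_of_nonneg (by positivity),
      le_inv_mul_iff₀ CN] at h1
    refine (dh N t _ _ τ Ψ y V N1 ht K ?_ h2 k2 hΨ hR e1 e2 d c c' V' V'' d0 d1 c0 v0 hc H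
      s hs).trans (add_le_add_right (le_trans ?_ (tail h6)) _)
    · rw [show -e = e + -(2 * e) by ring, Real.rpow_add x0]
      exact mul_le_mul_of_nonneg_right h1 (by positivity)
    · refine (mul_le_mul (mul_le_mul_of_nonneg_left k1 (by positivity)) k3 k2
        (by positivity)).trans ?_
      rw [← Real.rpow_mul_natCast x0.le, ← Real.rpow_add_one x0.ne', ← Real.rpow_add x0]
      exact Real.rpow_le_rpow_of_exponent_le (by linarith) (by linarith)

end Vale.Agent.P253W.Y
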