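import Vale.Agent.P253W.Y.Defs
import Vale.Agent.P253W.Y.G.Nat
import Vale.Agent.P253W.V.Lfp

/-!
# P253W, block Y: uniqueness of geodesics on the manifold
-/

open scoped Manifold ContDiff Bundle ENNReal Topology Matrix
open Bundle IsManifold MeasureTheory Set Metric Filter Vale.Agent.P253.Mfd Vale.Agent.P253Z
open Vale.Agent.P272.K (Cm dz)

noncomputable section

namespace Vale.Agent.P253W.Y

namespace Unq

/-- local uniqueness to the right -/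
theorem right {E : Type} [NormedAddCommGroup E] [NormedSpace ℝ E] {v : E → E} {f g : ℝ → E}
    {s₀ : ℝ} (hs : s₀ ∈ Ico (0 : ℝ) 1) (hv : ContDiffAt ℝ 1 v (g s₀))
    (hf : ∀ᶠ s in 𝓝[Icc 0 1] s₀, HasDerivWithinAt f (v (f s)) (Icc 0 1) s)
    (hg : ∀ s ∈ Icc (0 : ℝ) 1, HasDerivWithinAt g (v (g s)) (Icc 0 1) s) (h0 : f s₀ = g s₀) :
    ∀ᶠ s in 𝓝[>] s₀, f s = g s := by
  obtain ⟨K, U, hU, hK⟩ := hv.exists_lipschitzOnWith
  have hs' := Ico_subset_Icc_self hs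
  have h1 : ∀ᶠ s in 𝓝[Icc 0 1] s₀, f s ∈ U :=
    (hf.self_of_nhdsWithin hs').continuousWithinAt.preimage_mem_nhdsWithin (h0 ▸ hU)
  have h2 : ∀ᶠ s in 𝓝[Icc 0 1] s₀, g s ∈ U :=
    (hg s₀ hs').continuousWithinAt.preimage_mem_nhdsWithin hU
  have h3 : 𝓝[≥] s₀ ≤ 𝓝[Icc 0 1] s₀ := nhdsWithin_le_iff.2 (Icc_mem_nhdsGE_of_mem hs)
  obtain ⟨b, hb, h⟩ := mem_nhdsGE_iff_exists_Icc_subset.1
    ((((hf.and (h1.and h2)).filter_mono h3)).and (Ico_mem_nhdsGE_of_mem hs))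
  have hI : Icc s₀ b ⊆ Icc 0 1 := fun s hs => Ico_subset_Icc_self (h hs).2
  have := ODE_solution_unique_of_mem_Icc_right (v := fun _ => v) (s := fun _ => U) (K := K)
    (a := s₀) (b := b) (f := f) (g := g) (fun _ _ => hK)
    (fun s hs => (h hs).1.1.continuousWithinAt.mono hI)
    (fun s hs => (h (Ico_subset_Icc_self hs)).1.1.mono_of_mem_nhdsWithin
      (Icc_mem_nhdsGE_of_mem (h (Ico_subset_Icc_self hs)).2))
    (fun s hs => (h (Ico_subset_Icc_self hs)).1.2.1)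
    (fun s hs => (hg s (hI hs)).continuousWithinAt.mono hI)
    (fun s hs => (hg s (hI (Ico_subset_Icc_self hs))).mono_of_mem_nhdsWithin
      (Icc_mem_nhdsGE_of_mem (h (Ico_subset_Icc_self hs)).2))
    (fun s hs => (h (Ico_subset_Icc_self hs)).1.2.2) h0
  filter_upwards [Ioc_mem_nhdsGT hb] with s hs using this (Ioc_subset_Icc_self hs)

theorem ka {n : ℕ} {U : Set (Cm n)} {W : ℝ → Cm n → Mx n} (l : LF U W) {t : ℝ} (ht : 0 < t) :
    Ka U (W t) :=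
  ⟨l.op, fun j k => (l.sm j k).comp (f := fun y => (t, y)) (contDiffOn_const.prodMk contDiffOn_id)
    fun _ hy => ⟨ht, hy⟩, l.pos t ht, l.cl t ht⟩

variable {n : ℕ} {M : Type} [MetricSpace M] [ChartedSpace (Cm n) M] [IsManifold 𝓘(ℂ, Cm n) 1 M]
  [RiemannianBundle fun x : M => TangentSpace 𝓘(ℝ, Cm n) x] {F : Flow n M}

/-- the transition map between two immersions -/
theorem loc (hT : TRs F) {Ψ₁ Ψ₂ : Cm n → M} (h1 : Imm Ψ₁) (h2 : Imm Ψ₂) {y₁ y₂ : Cm n}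
    (m1 : y₁ ∈ ball (0 : Cm n) 1) (m2 : y₂ ∈ ball (0 : Cm n) 1) (h : Ψ₁ y₁ = Ψ₂ y₂) :
    ∃ φ : Cm n → Cm n, (∀ᶠ y in 𝓝 y₁, AnalyticAt ℂ φ y ∧ φ y ∈ ball (0 : Cm n) 1 ∧
      Ψ₂ (φ y) = Ψ₁ y ∧ jm Ψ₁ y = jm Ψ₂ (φ y) * jc φ y) ∧
      ∀ᶠ y' in 𝓝 y₂, ∀ y, Ψ₁ y = Ψ₂ y' → φ y = y' := by
  obtain ⟨e, he, hz, hΨ⟩ := V.LfpA.chart_of isOpen_ball h2.1 m2 (h2.2 _ m2)
  have oV : IsOpen (ball (0 : Cm n) 1 ∩ Ψ₁ ⁻¹' e.source) :=
    h1.1.continuousOn.isOpen_inter_preimage isOpen_ball e.open_source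
  have an : ∀ y ∈ ball (0 : Cm n) 1 ∩ Ψ₁ ⁻¹' e.source, AnalyticAt ℂ (fun y => e (Ψ₁ y)) y :=
    fun y hy => P268.analyticAt_of_differentiableOn oV (mdifferentiableOn_iff_differentiableOn.1
      (((contMDiffOn_of_mem_maximalAtlas he).mdifferentiableOn one_ne_zero).comp
        (h1.1.mono inter_subset_left) inter_subset_right)) hy
  have eq : ∀ y ∈ ball (0 : Cm n) 1 ∩ Ψ₁ ⁻¹' e.source, Ψ₂ (e (Ψ₁ y)) = Ψ₁ y := fun y hy => by
    rw [← hΨ _ (e.map_source hy.2), e.left_inv hy.2]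
  have hy₁ : y₁ ∈ ball (0 : Cm n) 1 ∩ Ψ₁ ⁻¹' e.source :=
    ⟨m1, by rw [mem_preimage, h, ← hΨ _ hz]; exact e.map_target hz⟩
  have e1 : e (Ψ₁ y₁) = y₂ := by rw [h, ← hΨ _ hz, e.right_inv hz]
  refine ⟨fun y => e (Ψ₁ y), ?_, ?_⟩
  · filter_upwards [oV.mem_nhds hy₁, (an _ hy₁).continuousAt.preimage_mem_nhds
      (isOpen_ball.mem_nhds (e1 ▸ m2))] with y hy hb
    refine ⟨an y hy, hb, eq y hy, ?_⟩
    have e2 : jm Ψ₁ y = jm (fun x => Ψ₂ (e (Ψ₁ x))) y := by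
      ext p i
      refine P272.K.C2.dz_congr i ?_
      filter_upwards [oV.mem_nhds hy] with x hx
      rw [eq y hy, eq x hx]
    refine Matrix.toLin'.injective (LinearMap.ext fun v => ?_)
    have e3 := hT.chain Ψ₂ (fun x => e (Ψ₁ x)) y v h2 (an y hy).differentiableAt hb
    rw [Matrix.toLin'_apply, Matrix.toLin'_apply, e2, ← Matrix.mulVec_mulVec,
      G.jc_mulVec (an y hy).differentiableAt]
    exact e3
  · filter_upwards [e.open_target.mem_nhds hz] with y' hy' y hy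
    rw [hy, ← hΨ _ hy', e.right_inv hy']

end Unq

theorem unq : UNQ := by
  intro n M _ _ _ _ _ _ _ _ _ _ _ _ μ F A T p hN hT Ψ₁ Ψ₂ t c₁ c₁' c₂ c₂' h1 h2 ht g1 g2 e0 e0'
  have ka : ∀ Ψ : Cm n → M, Imm Ψ → Ka (ball 0 1) (F.pull Ψ t) := fun Ψ h =>
    Unq.ka (p.s3a.lfp _ Ψ isOpen_ball h.1 h.2).1 ht
  let v : Cm n × Cm n → Cm n × Cm n := fun q => (q.2, -(q.2 ᵥ* Gm (F.pull Ψ₂ t) q.1 q.2))
  let S : Set ℝ := {s | Ψ₁ (c₁ s) = Ψ₂ (c₂ s) ∧ dn Ψ₁ (c₁ s) (c₁' s) = dn Ψ₂ (c₂ s) (c₂' s)}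
  have hg : ∀ s ∈ Icc (0 : ℝ) 1, HasDerivWithinAt (fun s => (c₂ s, c₂' s)) (v (c₂ s, c₂' s))
      (Icc 0 1) s := fun s hs => (g2 s hs).2.1.prodMk (g2 s hs).2.2
  have key : ∀ s₀ ∈ Icc (0 : ℝ) 1, Ψ₁ (c₁ s₀) = Ψ₂ (c₂ s₀) → ∃ f : ℝ → Cm n × Cm n,
      ∀ᶠ s in 𝓝[Icc 0 1] s₀, HasDerivWithinAt f (v (f s)) (Icc 0 1) s ∧
        (s ∈ S ↔ f s = (c₂ s, c₂' s)) := by
    intro s₀ hs₀ h
    obtain ⟨φ, ha, hb⟩ := Unq.loc hT h1 h2 (g1 s₀ hs₀).1 (g2 s₀ hs₀).1 h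
    refine ⟨fun s => (φ (c₁ s), fderiv ℂ φ (c₁ s) (c₁' s)), ?_⟩
    filter_upwards [(g1 s₀ hs₀).2.1.continuousWithinAt.eventually ha.eventually_nhds,
      (g2 s₀ hs₀).2.1.continuousWithinAt.eventually hb, self_mem_nhdsWithin] with s k1 k2 hs
    obtain ⟨an, mb, eq, jq⟩ := k1.self_of_nhds
    have hJ := G.jc_mulVec an.differentiableAt
    have hd : dn Ψ₁ (c₁ s) (c₁' s) = dn Ψ₂ (φ (c₁ s)) (fderiv ℂ φ (c₁ s) (c₁' s)) := by
      rw [dn, dn, jq, ← Matrix.mulVec_mulVec, hJ]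
    refine ⟨?_, fun k => ?_, fun k => ?_⟩
    · have n1 := hN.1 _ _ _ _ φ (c₁ s) (c₁' s) (c₁' s) (ka _ h1) (ka _ h2) (g1 s hs).1 mb an (by
        filter_upwards [k1] with y hy
        simp only [Flow.pull, pb, hy.2.2.1, hy.2.2.2, Matrix.transpose_mul, Matrix.map_mul,
          Matrix.mul_assoc])
      have d1 : HasFDerivAt (fun y => jc φ y *ᵥ c₁' s)
          (((fderiv ℂ (fderiv ℂ φ) (c₁ s)).flip (c₁' s)).restrictScalars ℝ) (c₁ s) := by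
        have h1 : HasFDerivAt (fun y => fderiv ℂ φ y (c₁' s))
            ((fderiv ℂ (fderiv ℂ φ) (c₁ s)).flip (c₁' s)) (c₁ s) := by
          simpa using an.fderiv.differentiableAt.hasFDerivAt.clm_apply
            (hasFDerivAt_const (c₁' s) (c₁ s))
        refine (h1.restrictScalars ℝ).congr_of_eventuallyEq ?_
        filter_upwards [k1] with y hy using G.jc_mulVec hy.1.differentiableAt _
      have d2 : HasFDerivAt (fun q : Cm n × Cm n => fderiv ℂ φ q.1 q.2) _ (c₁ s, c₁' s) :=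
        (an.fderiv.differentiableAt.hasFDerivAt.comp (c₁ s, c₁' s) hasFDerivAt_fst).clm_apply
          hasFDerivAt_snd
      have d3 := (d2.restrictScalars ℝ).comp_hasDerivWithinAt s
        ((g1 s hs).2.1.prodMk (g1 s hs).2.2)
      refine ((an.differentiableAt.hasFDerivAt.restrictScalars ℝ).comp_hasDerivWithinAt s
        (g1 s hs).2.1).prodMk (d3.congr_deriv ?_)
      rw [d1.fderiv, hJ, hJ] at n1
      simp [← n1]
    · have k3 := k2 _ k.1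
      have k4 := k.2
      rw [hd, k3, dn, dn] at k4
      rw [k3, Matrix.mulVec_injective_iff_isUnit.2
        ((Matrix.isUnit_iff_isUnit_det _).2 (h2.2 _ (g2 s hs).1).isUnit) k4]
    · obtain ⟨k3, k4⟩ := Prod.ext_iff.1 k
      exact ⟨by rw [← eq]; exact congrArg Ψ₂ k3, by rw [hd]; exact congrArg₂ (dn Ψ₂) k3 k4⟩
  have cl : IsClosed (S ∩ Icc 0 1) := by
    refine isClosed_of_closure_subset fun s₀ h => ?_
    have hs : s₀ ∈ Icc (0 : ℝ) 1 := closure_minimal inter_subset_right isClosed_Icc h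
    have fr : ∃ᶠ s in 𝓝[Icc 0 1] s₀, s ∈ S :=
      frequently_nhdsWithin_iff.2 (mem_closure_iff_frequently.1 h)
    have ct : ∀ {Ψ : Cm n → M} {c c' : ℝ → Cm n}, Imm Ψ → IsGeo (F.pull Ψ t) (ball 0 1) c c' →
        ContinuousWithinAt (fun s => Ψ (c s)) (Icc 0 1) s₀ := fun k g =>
      (k.1.continuousOn.continuousAt (isOpen_ball.mem_nhds (g s₀ hs).1)).comp_continuousWithinAt
        (g s₀ hs).2.1.continuousWithinAt
    obtain ⟨f, hf⟩ := key s₀ hs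
      (tendsto_nhds_unique_of_frequently_eq (ct h1 g1) (ct h2 g2) (fr.mono fun s k => k.1))
    obtain ⟨k1, k2⟩ := hf.self_of_nhdsWithin hs
    exact ⟨k2.2 (tendsto_nhds_unique_of_frequently_eq k1.continuousWithinAt
      (hg s₀ hs).continuousWithinAt ((fr.and_eventually hf).mono fun s k => k.2.2.1 k.1)), hs⟩
  refine (cl.Icc_subset_of_forall_mem_nhdsWithin ⟨e0, e0'⟩ (fun s₀ h => ?_)
    (right_mem_Icc.2 zero_le_one)).1
  have hs := Ico_subset_Icc_self h.2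
  obtain ⟨f, hf⟩ := key s₀ hs h.1.1
  filter_upwards [Unq.right (v := v) h.2
    (contDiffAt_snd.prodMk (hN.2 _ _ _ _ (ka _ h2) (g2 s₀ hs).1).neg)
    (hf.mono fun s k => k.1) hg ((hf.self_of_nhdsWithin hs).2.1 h.1),
    hf.filter_mono (nhdsWithin_le_iff.2 (Icc_mem_nhdsGT_of_mem h.2))] with s k1 k2 using k2.2.2 k1

end Vale.Agent.P253W.Y
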