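import Vale.Agent.P253W.Y.Mod
import Vale.Agent.P253W.V.Trig

/-!
# P253W, block Y: mean value inequalities
-/

open scoped ENNReal Topology Laplacian
open MeasureTheory Set Metric Filter InnerProductSpace
open Vale.Agent.P272.K (Cm)
open Vale.Agent.P253.R2.H451 (levi2)

noncomputable section

namespace Vale.Agent.P253W.Y

namespace Vs

variable {W : Type} [NormedAddCommGroup W] [NormedSpace ℂ W]

theorem mean [MeasurableSpace W] [BorelSpace W] [SecondCountableTopology W] (μ : Measure W)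
    [μ.IsAddHaarMeasure] [SFinite μ]
    (hrot : ∀ c : ℂ, ‖c‖ = 1 → MeasurePreserving (fun v : W => c • v) μ μ) {r : ℝ} {z₀ : W}
    {F : W → ℝ≥0∞} (hF : ContinuousOn F (ball z₀ r)) {a : ℝ≥0∞}
    (h : ∀ v : W, ‖v‖ < r → ENNReal.ofReal (2 * Real.pi) * a ≤
      ∫⁻ θ in Ioc (0 : ℝ) (2 * Real.pi), F (z₀ + circleMap 0 1 θ • v)) :
    a * μ (ball z₀ r) ≤ ∫⁻ z in ball z₀ r, F z ∂μ := by
  classical
  let H : W → ℝ≥0∞ := (ball z₀ r).piecewise F fun _ => 0
  have hH : Measurable H := hF.measurable_piecewise continuousOn_const isOpen_ball.measurableSet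
  have h1 : ∀ θ : ℝ, ∫⁻ v, H (z₀ + circleMap 0 1 θ • v) ∂μ = ∫⁻ z, H z ∂μ := fun θ =>
    ((measurePreserving_add_left μ z₀).comp (hrot _ (by simp))).lintegral_comp hH
  have hm : Measurable (Function.uncurry fun (θ : ℝ) (v : W) => H (z₀ + circleMap 0 1 θ • v)) :=
    hH.comp (continuous_const.add (((continuous_circleMap 0 1).comp continuous_fst).smul
      continuous_snd)).measurable
  have h2 : ENNReal.ofReal (2 * Real.pi) * (a * μ (ball 0 r)) ≤
      ENNReal.ofReal (2 * Real.pi) * ∫⁻ z, H z ∂μ :=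
    calc ENNReal.ofReal (2 * Real.pi) * (a * μ (ball 0 r))
        = ∫⁻ _ in ball (0 : W) r, ENNReal.ofReal (2 * Real.pi) * a ∂μ := by
          rw [setLIntegral_const, mul_assoc]
      _ ≤ ∫⁻ v in ball (0 : W) r, ∫⁻ θ in Ioc (0 : ℝ) (2 * Real.pi),
            H (z₀ + circleMap 0 1 θ • v) ∂volume ∂μ := by
          refine setLIntegral_mono' isOpen_ball.measurableSet fun v hv =>
            (h v (mem_ball_zero_iff.1 hv)).trans (le_of_eq (lintegral_congr fun θ => ?_))
          have h3 : z₀ + circleMap 0 1 θ • v ∈ ball z₀ r := by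
            simpa [mem_ball, dist_eq_norm, norm_smul] using hv
          simp only [H, piecewise_eq_of_mem _ _ _ h3]
      _ ≤ ∫⁻ v, ∫⁻ θ in Ioc (0 : ℝ) (2 * Real.pi), H (z₀ + circleMap 0 1 θ • v) ∂volume ∂μ :=
          setLIntegral_le_lintegral _ _
      _ = ∫⁻ θ in Ioc (0 : ℝ) (2 * Real.pi), ∫⁻ v, H (z₀ + circleMap 0 1 θ • v) ∂μ :=
          (lintegral_lintegral_swap hm.aemeasurable).symm
      _ = _ := by
          simp only [h1]
          rw [setLIntegral_const, Real.volume_Ioc, sub_zero, mul_comm]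
  rw [show ∫⁻ z in ball z₀ r, F z ∂μ = ∫⁻ z, H z ∂μ from
    (lintegral_indicator isOpen_ball.measurableSet _).symm, Measure.addHaar_ball_center]
  exact (ENNReal.mul_le_mul_iff_right (by simpa using Real.pi_pos) ENNReal.ofReal_ne_top).1 h2

theorem of_avg {k : ℂ → ℝ} {a : ℝ} (h : a ≤ Real.circleAverage k 0 1) :
    ENNReal.ofReal (2 * Real.pi) * ENNReal.ofReal a ≤
      ∫⁻ θ in Ioc (0 : ℝ) (2 * Real.pi), ENNReal.ofReal |k (circleMap 0 1 θ)| := by
  have hpi : (0 : ℝ) < 2 * Real.pi := by positivity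
  rw [Real.circleAverage_def, smul_eq_mul, le_inv_mul_iff₀ hpi,
    intervalIntegral.integral_of_le hpi.le] at h
  rw [← ENNReal.ofReal_mul hpi.le]
  refine (ENNReal.ofReal_le_ofReal (h.trans (le_abs_self _))).trans ?_
  rw [← Real.enorm_eq_ofReal_abs]
  refine (enorm_integral_le_lintegral_enorm _).trans (le_of_eq ?_)
  simp only [Real.enorm_eq_ofReal_abs]

theorem levi_eq (h : ℂ → ℝ) (τ : ℂ) : levi2 h τ 1 = Δ h τ := by
  simp [levi2, laplacian_eq_iteratedFDeriv_complexPlane, iteratedFDeriv_two_apply]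

theorem lap_sq (c τ : ℂ) : Δ (fun s : ℂ => ‖s - c‖ ^ 2) τ = 4 := by
  have h1 : (fderiv ℝ fun s : ℂ => ‖s - c‖ ^ 2) = fun y => (2 : ℝ) • innerSL ℝ (y - c) := by
    funext y
    have := ((hasFDerivAt_id y).sub_const c).norm_sq.fderiv
    simp only [id] at this
    rw [this]
    ext v
    simp
  have h2 : HasFDerivAt (fun y : ℂ => (2 : ℝ) • innerSL ℝ (y - c)) ((2 : ℝ) • innerSL ℝ) τ := by
    exact (((innerSL ℝ (E := ℂ)).hasFDerivAt).comp τ
      ((hasFDerivAt_id τ).sub_const c)).const_smul (2 : ℝ)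
  rw [← levi_eq, levi2, h1, h2.fderiv]
  change 2 * inner ℝ (1 : ℂ) 1 + 2 * inner ℝ (Complex.I • (1 : ℂ)) (Complex.I • 1) = (4 : ℝ)
  simp only [real_inner_self_eq_norm_sq]
  norm_num

theorem circ {g : ℂ → ℝ} {c v : ℂ} (hg : ContinuousOn g (closedBall c ‖v‖))
    (hv : ∀ τ ∈ ball c ‖v‖, ∀ h : ℂ → ℝ, ContDiff ℝ 2 h → IsLocalMax (fun s => g s - h s) τ →
      0 ≤ levi2 h τ 1) : g c ≤ Real.circleAverage (fun τ => g (c + τ • v)) 0 1 := by
  rcases eq_or_ne v 0 with rfl | h0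
  · simp [Real.circleAverage_const]
  have hk : ContinuousOn (fun τ : ℂ => g (c + τ • v)) (sphere 0 1) :=
    hg.comp (by fun_prop) fun τ hτ => by
      simp [mem_sphere_zero_iff_norm.1 hτ]
  have hn := norm_pos_iff.2 h0
  refine le_of_forall_pos_le_add fun δ hδ => ?_
  obtain ⟨p, hp, hp0⟩ := V.trig_row _ (δ / 3) hk (by positivity)
  set ε := δ / 3 / ‖v‖ ^ 2 with hε
  have hε0 : 0 < ε := by positivity
  have hq : Differentiable ℂ fun s : ℂ => p.eval ((s - c) / v) :=
    p.differentiable.comp (by fun_prop)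
  have hq2 : ContDiff ℝ 2 fun s : ℂ => (p.eval ((s - c) / v)).re :=
    Complex.reCLM.contDiff.comp (hq.contDiff.restrict_scalars ℝ)
  have hn2 : ContDiff ℝ 2 fun s : ℂ => ‖s - c‖ ^ 2 :=
    (contDiff_id.sub contDiff_const).norm_sq ℝ
  let h : ℂ → ℝ := (fun s : ℂ => (p.eval ((s - c) / v)).re) - ε • fun s : ℂ => ‖s - c‖ ^ 2
  have hh : ContDiff ℝ 2 h := hq2.sub (hn2.const_smul ε)
  obtain ⟨τ, hτ, hm⟩ := (isCompact_closedBall c ‖v‖).exists_isMaxOn
    ⟨c, mem_closedBall_self hn.le⟩ (hg.sub hh.continuous.continuousOn)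
  have hs : ‖τ - c‖ = ‖v‖ := by
    refine (mem_closedBall_iff_norm.1 hτ).eq_of_not_lt fun hl => ?_
    have hb : τ ∈ ball c ‖v‖ := mem_ball_iff_norm.2 hl
    have h3 := hv τ hb h hh (hm.isLocalMax (mem_of_superset (isOpen_ball.mem_nhds hb)
      ball_subset_closedBall))
    rw [levi_eq, hq2.contDiffAt.laplacian_sub (f₂ := ε • fun s : ℂ => ‖s - c‖ ^ 2)
      (hn2.const_smul ε).contDiffAt, laplacian_smul _ hn2.contDiffAt, lap_sq,
      ((hq.analyticAt τ).harmonicAt_re).2.eq_of_nhds] at h3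
    simp only [Pi.zero_apply, smul_eq_mul] at h3
    linarith
  have h4 := hm (mem_closedBall_self hn.le)
  have h5 := hp ((τ - c) / v) (by simp [hs, hn.ne'])
  have h6 : c + ((τ - c) / v) • v = τ := by rw [smul_eq_mul]; field_simp; ring
  have h7 : Real.circleAverage (fun τ => (p.eval τ).re) 0 1 ≤
      Real.circleAverage (fun τ => g (c + τ • v) + δ / 3) 0 1 := by
    refine Real.circleAverage_mono ((Complex.continuous_re.comp
      p.continuous).continuousOn.circleIntegrable') ((hk.add continuousOn_const).circleIntegrable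
        zero_le_one) fun τ hτ => ?_
    linarith [(abs_lt.1 (hp τ (by simpa using hτ))).2]
  have h8 := Real.circleAverage_fun_add (hk.circleIntegrable zero_le_one)
    (circleIntegrable_const (δ / 3) 0 1)
  rw [h8, Real.circleAverage_const] at h7
  have h9 : ε * ‖v‖ ^ 2 = δ / 3 := by rw [hε]; field_simp
  simp only [h6] at h5
  simp only [h, mem_ofPred_eq, Pi.sub_apply, Pi.smul_apply, sub_self, zero_div, norm_zero, hs,
    smul_eq_mul] at h4
  linarith [(abs_lt.1 h5).1]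

theorem rot (c : ℂ) (hc : ‖c‖ = 1) : MeasurePreserving (fun v : ℂ => c • v) volume volume :=
  (rotation ⟨c, mem_sphere_zero_iff_norm.2 hc⟩).measurePreserving

theorem rotn (n : ℕ) (c : ℂ) (hc : ‖c‖ = 1) :
    MeasurePreserving (fun v : Cm n => c • v) volume volume :=
  volume_preserving_pi (f := fun (_ : Fin n) (z : ℂ) => c • z) fun _ => rot c hc

theorem hol {r : ℝ} {z₀ : W} {G : W → ℂ} (hG : DifferentiableOn ℂ G (ball z₀ r)) {v : W}
    (hv : ‖v‖ < r) : ENNReal.ofReal (2 * Real.pi) * ENNReal.ofReal (‖G z₀‖ ^ 2) ≤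
      ∫⁻ θ in Ioc (0 : ℝ) (2 * Real.pi), ENNReal.ofReal (‖G (z₀ + circleMap 0 1 θ • v)‖ ^ 2) := by
  have hd : DifferentiableOn ℂ (fun t : ℂ => G (z₀ + t • v) ^ 2) (closedBall 0 1) := by
    refine DifferentiableOn.pow (hG.comp (by fun_prop) fun t ht => ?_) 2
    rw [mem_closedBall_zero_iff] at ht
    rw [mem_ball, dist_eq_norm, add_sub_cancel_left, norm_smul]
    exact (mul_le_of_le_one_left (norm_nonneg _) ht).trans_lt hv
  have h1 : DiffContOnCl ℂ (fun t : ℂ => G (z₀ + t • v) ^ 2) (ball 0 |1|) := by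
    rw [abs_one]
    exact hd.diffContOnCl_ball le_rfl
  have h2 := h1.circleAverage
  have hpi : (0 : ℝ) < 2 * Real.pi := by positivity
  rw [Real.circleAverage_def, zero_smul, add_zero, inv_smul_eq_iff₀ hpi.ne',
    intervalIntegral.integral_of_le hpi.le] at h2
  simp only [← norm_pow, ofReal_norm]
  rw [← Real.enorm_eq_ofReal hpi.le, ← enorm_smul, ← h2]
  exact enorm_integral_le_lintegral_enorm _

theorem val {n : ℕ} {h : Cm n → ℂ} {c : Cm n} {l : ℝ} (hl : 0 < l)
    (hh : DifferentiableOn ℂ h (ball c l)) : ENNReal.ofReal (‖h c‖ ^ 2 * l ^ (2 * n)) ≤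
      ∫⁻ x in ball c l, ENNReal.ofReal (‖h x‖ ^ 2) := by
  refine le_trans ?_ (mean volume (rotn n) (ENNReal.continuous_ofReal.comp_continuousOn
    (hh.continuousOn.norm.pow 2)) fun v hv => hol hh hv)
  rw [ENNReal.ofReal_mul (by positivity), volume_pi_ball _ hl, pow_mul,
    ENNReal.ofReal_pow (by positivity)]
  simp only [Complex.volume_ball, Finset.prod_const, Finset.card_univ, Fintype.card_fin]
  rw [ENNReal.ofReal_pow (sq_nonneg l)]
  gcongr
  rw [ENNReal.ofReal_pow hl.le]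
  refine le_mul_of_one_le_right' ?_
  have : (1 : ℝ) ≤ Real.pi := by linarith [Real.pi_gt_three]
  exact_mod_cast this

end Vs

theorem vs : VS := fun g c R _ hg h0 hv => by
  refine Vs.mean volume Vs.rot (ENNReal.continuous_ofReal.comp_continuousOn
    (hg.mono ball_subset_closedBall)) fun v hR => ?_
  have hs : closedBall c ‖v‖ ⊆ closedBall c R := closedBall_subset_closedBall hR.le
  exact (Vs.of_avg (Vs.circ (hg.mono hs) fun τ hτ => hv τ (ball_subset_ball hR.le hτ))).trans_eq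
    (lintegral_congr fun θ => congrArg _ (abs_of_nonneg (h0 _ (hs (by simp)))))

theorem mvn (n : ℕ) : MVN n := by
  have h1 : (1 : ℝ) ≤ 16 * 2 ^ (2 * n) := by
    linarith [one_le_pow₀ (n := 2 * n) (one_le_two (α := ℝ))]
  refine ⟨16 * 2 ^ (2 * n), h1, fun h c l hl hh => ⟨(Vs.val hl hh).trans
    (le_mul_of_one_le_left' (ENNReal.one_le_ofReal.2 h1)), ?_⟩⟩
  set A := ∫⁻ x in ball c l, ENNReal.ofReal (‖h x‖ ^ 2)
  rcases eq_or_ne A ⊤ with hA | hA
  · rw [hA, ENNReal.mul_top (by simp)]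
    exact le_top
  have hL : 0 < (l / 2) ^ (2 * n) := by positivity
  set B := Real.sqrt (A.toReal / (l / 2) ^ (2 * n))
  have hB : B ^ 2 * (l / 2) ^ (2 * n) = A.toReal := by
    rw [Real.sq_sqrt (by positivity), div_mul_cancel₀ _ hL.ne']
  have h2 : ∀ x ∈ ball c (l / 2), ‖h x‖ ≤ B := fun x hx => by
    have hs : ball x (l / 2) ⊆ ball c l := ball_subset_ball' (by linarith [mem_ball.1 hx])
    have h3 := (Vs.val (half_pos hl) (hh.mono hs)).trans (lintegral_mono_set hs)
    rw [ENNReal.ofReal_le_iff_le_toReal hA, ← le_div_iff₀ hL] at h3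
    exact Real.le_sqrt_of_sq_le h3
  have h4 := Complex.norm_fderiv_le_div_of_mapsTo_ball (R₂ := 2 * B)
    (hh.mono (ball_subset_ball (half_le_self hl.le))) (fun x hx => by
      rw [mem_closedBall_iff_norm]
      linarith [norm_sub_le (h x) (h c), h2 x hx, h2 c (mem_ball_self (half_pos hl))]) (half_pos hl)
  rw [← ENNReal.ofReal_toReal hA, ← ENNReal.ofReal_mul (by positivity), ← hB]
  refine ENNReal.ofReal_le_ofReal ((mul_le_mul_of_nonneg_right
    (pow_le_pow_left₀ (norm_nonneg _) h4 2) (by positivity)).trans_eq ?_)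
  rw [div_pow l, pow_add]
  field_simp
  ring

end Vale.Agent.P253W.Y
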