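import Vale.Agent.P253W.Y.Hord
import Vale.Agent.P253Z.HOR

/-!
# P253W, block Y: the theorem of Hörmander for an atlas with values in `ℂⁿ`
-/

open scoped ContDiff ENNReal Topology ComplexConjugate ComplexOrder Matrix
open MeasureTheory Set Metric Filter
open Vale.Agent.P253.R2.H451 (levi2)
open Vale.Agent.P272.K (Cm dz dzb cHess jacM Chart)
open Vale.Agent.P284.H608.K Vale.Agent.P284.H286.K
open Vale.Agent.P253Z.HORa (ev_dt hn_dt top_eq dt_comp)

noncomputable section

namespace Vale.Agent.P253W.Y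

namespace Hd

theorem two_le : (2 : WithTop ℕ∞) ≤ (⊤ : ℕ∞) := WithTop.coe_le_coe.2 (le_top (a := (2 : ℕ∞)))

variable {n : ℕ}

section loc

variable {u : Cm n → ℝ} {z : Cm n}

theorem quad (hu : ContDiffAt ℝ 2 u z) (x : Cm n) :
    star x ⬝ᵥ cHess u z *ᵥ x = (levi2 u z (star x) / 4 : ℝ) := by
  rw [P272.K.N.cHess_eq_lev ((hu.fderiv_right (m := 1) le_rfl).differentiableAt one_ne_zero),
    P272.K.N.lev_quadratic (hu.isSymmSndFDerivAt (by simp)).eq]
  rfl

theorem psd (hu : ContDiffAt ℝ 2 u z) {c : ℝ} {μ : Cm n}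
    (h : ∀ v, ‖∑ j, μ j * v j‖ ^ 2 ≤ c * (levi2 u z v / 4)) :
    ((c : ℂ) • cHess u z - Matrix.of fun j k => μ j * conj (μ k)).PosSemidef := by
  refine .of_dotProduct_mulVec_nonneg (Matrix.IsHermitian.sub ?_ ?_) fun x => ?_
  · unfold Matrix.IsHermitian
    rw [Matrix.conjTranspose_smul, (P272.K.cHess_isHermitian hu).eq]
    simp
  · ext j k
    simp [mul_comm]
  · have e : star x ⬝ᵥ (Matrix.of fun j k => μ j * conj (μ k)) *ᵥ x =
        ((‖∑ j, μ j * star x j‖ ^ 2 : ℝ) : ℂ) := by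
      rw [Complex.ofReal_pow, ← Complex.mul_conj', map_sum, Finset.sum_mul_sum]
      simp only [dotProduct, Matrix.mulVec, Matrix.of_apply, Finset.mul_sum, Pi.star_apply,
        RCLike.star_def, map_mul, Complex.conj_conj]
      exact Finset.sum_congr rfl fun j _ => Finset.sum_congr rfl fun k _ => by ring
    rw [Matrix.sub_mulVec, dotProduct_sub, Matrix.smul_mulVec, dotProduct_smul, quad hu, e,
      smul_eq_mul, ← Complex.ofReal_mul, ← Complex.ofReal_sub, Complex.zero_le_real, sub_nonneg]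
    exact h _

theorem levi_I (u : Cm n → ℝ) (z v : Cm n) : levi2 u z (Complex.I • v) = levi2 u z v := by
  unfold levi2
  rw [smul_smul, Complex.I_mul_I, neg_one_smul, map_neg, map_neg, add_comm]
  simp

theorem sum_dz (g : Cm n → ℂ) (z v : Cm n) : 2 * ∑ j, dz j g z * v j =
    fderiv ℝ g z v - Complex.I * fderiv ℝ g z (Complex.I • v) := by
  rw [P272.K.fderiv_eq, P272.K.fderiv_eq, Finset.mul_sum, Finset.mul_sum, ← Finset.sum_sub_distrib]
  refine Finset.sum_congr rfl fun j _ => ?_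
  simp only [Pi.smul_apply, smul_eq_mul, map_mul, Complex.conj_I]
  linear_combination (dz j g z * v j - dzb j g z * conj (v j)) * Complex.I_mul_I

theorem sum_dzb (g : Cm n → ℂ) (z v : Cm n) : 2 * ∑ j, dzb j g z * conj (v j) =
    fderiv ℝ g z v + Complex.I * fderiv ℝ g z (Complex.I • v) := by
  rw [P272.K.fderiv_eq, P272.K.fderiv_eq, Finset.mul_sum, Finset.mul_sum, ← Finset.sum_add_distrib]
  refine Finset.sum_congr rfl fun j _ => ?_
  simp only [Pi.smul_apply, smul_eq_mul, map_mul, Complex.conj_I]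
  linear_combination (dzb j g z * conj (v j) - dz j g z * v j) * Complex.I_mul_I

theorem psd_gg {η : Cm n → ℝ} (hu : ContDiffAt ℝ 2 u z)
    (h : ∀ v, v ≠ 0 → fderiv ℝ η z v ^ 2 ≤ levi2 u z v) :
    (((2 : ℝ) : ℂ) • cHess u z - Matrix.of fun j k => dz j (fun y => (η y : ℂ)) z *
      conj (dz k (fun y => (η y : ℂ)) z)).PosSemidef := by
  refine psd hu fun v => ?_
  by_cases hv : v = 0
  · simp [hv, levi2]
  have h1 := h v hv
  have h2 := h _ (smul_ne_zero Complex.I_ne_zero hv)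
  have h3 := congrArg (fun t => ‖t‖ ^ 2) (sum_dz (fun y => (η y : ℂ)) z v)
  rw [levi_I] at h2
  simp only [P272.K.N.fderiv_ofReal_comp, ContinuousLinearMap.comp_apply, Complex.ofRealCLM_apply,
    norm_mul, mul_pow, Complex.norm_ofNat] at h3
  rw [Complex.sq_norm (_ - _), Complex.normSq_apply] at h3
  simp only [Complex.sub_re, Complex.sub_im, Complex.mul_re, Complex.mul_im, Complex.I_re,
    Complex.I_im, Complex.ofReal_re, Complex.ofReal_im] at h3
  nlinarith

theorem psd_bb {g : Cm n → ℂ} {c : ℝ} (hu : ContDiffAt ℝ 2 u z) (h : ∀ v,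
    ‖fderiv ℝ g z v + Complex.I * fderiv ℝ g z (Complex.I • v)‖ ^ 2 ≤ c * levi2 u z v) :
    ((c : ℂ) • cHess u z - P284Z.L.bb g z).PosSemidef := by
  have h1 := psd hu (c := c) (μ := fun j => conj (dzb j g z)) fun v => by
    have h2 := h v
    rw [← sum_dzb, norm_mul, mul_pow, Complex.norm_ofNat, ← Complex.norm_conj, map_sum] at h2
    simp only [map_mul, Complex.conj_conj] at h2
    linarith
  simp only [Complex.conj_conj] at h1
  exact h1

theorem det_jm {τ : Cm n → Cm n} (h : DifferentiableAt ℂ τ z) :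
    (fderiv ℂ τ z).det = (P272.K.jmat τ z).det := by
  rw [ContinuousLinearMap.det, ← LinearMap.det_toMatrix']
  congr 1
  ext p i
  rw [LinearMap.toMatrix'_apply, P272.K.jmat_apply h]
  rfl

end loc

variable {M : Type} [TopologicalSpace M] [MeasurableSpace M] (A : Atl (Cm n) M univ)

theorem c_ch {V : Type} (f : M → V) {i j : A.I} {x : M} (hi : x ∈ (A.e i).source)
    (hj : x ∈ (A.e j).source) :
    A.c f i =ᶠ[𝓝 (A.e i x)] fun z => A.c f j (A.e j ((A.e i).symm z)) := by
  have h := ((A.e i).continuousAt_symm ((A.e i).map_source hi)).eventually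
    ((A.e j).open_source.mem_nhds (by rwa [(A.e i).left_inv hi]))
  exact h.mono fun z hz => congrArg f ((A.e j).left_inv hz).symm

theorem cont {V : Type} [TopologicalSpace V] {f : M → V}
    (h : ∀ i, ∀ z ∈ (A.e i).target, ContinuousAt (A.c f i) z) : Continuous f :=
  continuous_iff_continuousAt.2 fun x => by
    obtain ⟨i, hi⟩ := A.cover x trivial
    refine ((h i _ ((A.e i).map_source hi)).comp ((A.e i).continuousAt hi)).congr ?_
    exact mem_of_superset ((A.e i).open_source.mem_nhds hi) fun y hy =>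
      congrArg f ((A.e i).left_inv hy)

theorem an_ch {i j : A.I} {x : M} (hi : x ∈ (A.e i).source) (hj : x ∈ (A.e j).source) :
    AnalyticAt ℂ (fun z => A.e j ((A.e i).symm z)) (A.e i x) :=
  A.hol i j _ ((A.e i).map_source hi) (by rwa [(A.e i).left_inv hi])

/-- the density of the volume of `i∂∂̄ψ` -/
def rho (ψ : M → ℝ) (x : M) : ℝ :=
  (cHess (A.c ψ (A.cover x trivial).choose) (A.e (A.cover x trivial).choose x)).det.re /
    ‖A.w (A.cover x trivial).choose (A.e (A.cover x trivial).choose x)‖ ^ 2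

variable {A} {ψ φ : M → ℝ}

theorem wch (hψ : A.Sm ψ) (i j : A.I) (x : M) (hi : x ∈ (A.e i).source)
    (hj : x ∈ (A.e j).source) : cHess (A.c ψ i) (A.e i x) = (jacM (A.e i) (A.e j) x)ᵀ *
      cHess (A.c ψ j) (A.e j x) * (jacM (A.e i) (A.e j) x).map (starRingEnd ℂ) := by
  have h := P272.K.cHess_comp (f := A.c ψ j) (τ := fun z => A.e j ((A.e i).symm z))
    (z := A.e i x) (by
      rw [(A.e i).left_inv hi]
      exact (hψ j _ ((A.e j).map_source hj)).of_le two_le) (an_ch A hi hj).contDiffAt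
  rw [P272.K.cHess_congr (c_ch A ψ hi hj), h, (A.e i).left_inv hi]
  rfl

theorem rho_eq (hψ : A.Sm ψ) {i : A.I} {x : M} (hi : x ∈ (A.e i).source) :
    rho A ψ x = (cHess (A.c ψ i) (A.e i x)).det.re / ‖A.w i (A.e i x)‖ ^ 2 := by
  have hj := (A.cover x trivial).choose_spec
  unfold rho
  generalize (A.cover x trivial).choose = j at hj
  have h1 := A.ch i j x hi hj
  have h2 := (A.an i _ ((A.e i).map_source hi)).2
  rw [det_jm (an_ch A hi hj).differentiableAt] at h1
  change _ = (jacM (A.e i) (A.e j) x).det * _ at h1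
  have h3 : ‖(jacM (A.e i) (A.e j) x).det‖ ≠ 0 := fun h => h2 (by
    rw [h1, norm_eq_zero.1 h, zero_mul])
  rw [wch hψ i j x hi hj, Matrix.det_mul, Matrix.det_mul, Matrix.det_transpose, h1,
    ← RingHom.mapMatrix_apply, ← RingHom.map_det, mul_right_comm, Complex.mul_conj', norm_mul,
    mul_pow, ← Complex.ofReal_pow, Complex.re_ofReal_mul, mul_div_mul_left _ _ (pow_ne_zero 2 h3)]

theorem wsm (hψ : A.Sm ψ) (i : A.I) (z : Cm n) (hz : z ∈ (A.e i).target) (j k : Fin n) :
    ContDiffAt ℝ ∞ (fun z => cHess (A.c ψ i) z j k) z :=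
  P272.K.C2.contDiffAt_cHess (hψ i z hz) (WithTop.coe_le_coe.2 le_top) j k

theorem rho_cont (hψ : A.Sm ψ) : Continuous (rho A ψ) := cont A fun i z hz => by
  have h1 : ContinuousAt (cHess (A.c ψ i)) z :=
    continuousAt_pi.2 fun j => continuousAt_pi.2 fun k => (wsm hψ i z hz j k).continuousAt
  refine ((P284Z.L.S3.cont_det h1).div ((A.an i z hz).1.continuousAt.norm.pow 2)
    (pow_ne_zero 2 (norm_ne_zero_iff.2 (A.an i z hz).2))).congr ?_
  filter_upwards [(A.e i).open_target.mem_nhds hz] with y hy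
  rw [Atl.c, rho_eq hψ ((A.e i).map_target hy), (A.e i).right_inv hy]
  rfl

variable [BorelSpace M] (hψ : A.Sm ψ)
  (hp : ∀ i, ∀ z ∈ (A.e i).target, (cHess (A.c ψ i) z).PosDef) (hφ : A.Sm φ)

include hψ in
theorem lint (g : M → ℝ≥0∞) : ∫⁻ x, g x ∂(A.ν.withDensity fun x => ENNReal.ofReal (rho A ψ x)) =
    ∫⁻ x, ENNReal.ofReal (rho A ψ x) * g x ∂A.ν :=
  lintegral_withDensity_eq_lintegral_mul_non_measurable _
    (rho_cont hψ).measurable.ennreal_ofReal (Eventually.of_forall fun _ => ENNReal.ofReal_lt_top) g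

/-- the trivial bundle with the weight `φ` on the Kähler manifold with the metric `i∂∂̄ψ` -/
def ka : KA n M where
  I := A.I
  e := A.e
  w i := cHess (A.c ψ i)
  φ i := A.c φ i
  a _ _ _ := 1
  μ := A.ν.withDensity fun x => ENNReal.ofReal (rho A ψ x)
  cover x := A.cover x trivial
  wsm := wsm hψ
  wpos := hp
  wcl i z hz j k l := P272.K.C2.dz_dz_comm l j (P272.K.C2.contDiffAt_dzb k
    (P272.K.C2.contDiffAt_ofReal (hψ i z hz)) (WithTop.coe_le_coe.2 le_top))
  φsm := hφ
  hol i j z := A.hol i j z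
  wch := wch hψ
  ahol _ _ _ _ _ := analyticAt_const
  coc _ _ _ _ _ _ _ := (mul_one _).symm
  aself _ _ _ := rfl
  φch i j x hi hj := by simp [Atl.c, (A.e i).left_inv hi, (A.e j).left_inv hj]
  hμ i f hf h0 := by
    rw [lint hψ, A.hν i _ ((rho_cont hψ).measurable.ennreal_ofReal.fun_mul hf)
      fun x hx => by rw [h0 x hx, mul_zero]]
    refine setLIntegral_congr_fun (A.e i).open_target.measurableSet fun z hz => ?_
    have h1 := norm_ne_zero_iff.2 (A.an i z hz).2
    have h2 := (Complex.lt_def.1 (hp i z hz).det_pos).1.le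
    simp only [rho_eq hψ ((A.e i).map_target hz), (A.e i).right_inv hz]
    rw [mul_right_comm, ← ENNReal.ofReal_mul (div_nonneg h2 (sq_nonneg _)),
      div_mul_cancel₀ _ (pow_ne_zero 2 h1), mul_comm]

theorem cut {η : M → ℝ} (h1 : A.Sm η) (h0 : ∀ x ∈ univ, 0 ≤ η x)
    (h2 : ∀ a, IsCompact {x | x ∈ univ ∧ η x ≤ a}) (h3 : ∀ i, ∀ z ∈ (A.e i).target, ∀ v, v ≠ 0 →
      fderiv ℝ (A.c η i) z v ^ 2 ≤ levi2 (A.c ψ i) z v) : Nonempty (ka hψ hp hφ).Cut := by
  obtain ⟨L, hL⟩ := P284Z.L.S3.th_bd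
  refine ⟨⟨fun ν x => P284Z.L.S3.th (η x / (ν + 1)), fun ν => L / (ν + 1) ^ 2 * 2,
    fun ν i z hz => P284Z.L.S3.th_sm.contDiffAt.comp z ((h1 i z hz).div_const _),
    fun ν => ⟨_, h2 (2 * (ν + 1)), fun x hx => P284Z.L.S3.th_zero ?_⟩,
    fun _ _ => Real.smoothTransition.nonneg _, fun ν x => ?_,
    fun _ _ => Real.smoothTransition.le_one _, fun x => ?_, fun ν i z hz => ?_, ?_⟩⟩
  · rw [le_div_iff₀ (by positivity)]
    exact (not_le.1 fun h => hx ⟨trivial, h⟩).le
  · refine Real.smoothTransition.monotone (sub_le_sub_left ?_ _)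
    push_cast
    exact div_le_div_of_nonneg_left (h0 x trivial) (by positivity) (by linarith)
  · have h4 : ∀ᶠ x' in 𝓝 x, η x' < η x + 1 :=
      (cont A fun i z hz => (h1 i z hz).continuousAt).continuousAt.eventually
        (gt_mem_nhds (lt_add_one _))
    filter_upwards [tendsto_natCast_atTop_atTop.eventually_ge_atTop (η x)] with ν hν
    refine h4.mono fun x' h => P284Z.L.S3.th_one ?_
    rw [div_le_one (by positivity)]
    linarith
  · have hd : DifferentiableAt ℝ (A.c η i) z := (h1 i z hz).differentiableAt (by simp)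
    refine P284Z.L.S3.cut_grad hL hd EventuallyEq.rfl ?_
    have e : P284.H650.gg (A.c η i) (A.c η i) z = Matrix.of fun j l =>
        dz j (fun y => ((A.c η i y : ℝ) : ℂ)) z * conj (dz l (fun y => ((A.c η i y : ℝ) : ℂ)) z) :=
      Matrix.ext fun j l => congrArg (fun t => dz j (fun y => ((A.c η i y : ℝ) : ℂ)) z * t)
        (P284Z.L.S1.dzb_real _ hd l)
    exact e ▸ psd_gg ((hψ i z hz).of_le two_le) (h3 i z hz)
  · have := ((tendsto_one_div_add_atTop_nhds_zero_nat (𝕜 := ℝ)).pow 2).const_mul (L * 2)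
    simp only [ne_eq, OfNat.ofNat_ne_zero, not_false_eq_true, zero_pow, mul_zero] at this
    exact this.congr fun ν => by rw [div_pow]; ring

open Classical in
/-- the form given by a function -/
def fm (s : M → ℂ) : (ka hψ hp hφ).Fm n := fun (i : A.I) z =>
  if z ∈ (A.e i).target then A.c s i z • A.w i z • P284Z.L.dt n else 0

variable {hψ hp hφ} {s t : M → ℂ} {i : A.I} {z : Cm n}

theorem fm_in (hz : z ∈ (A.e i).target) : fm hψ hp hφ s i z = A.c s i z • A.w i z • P284Z.L.dt n :=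
  if_pos hz

theorem fm_near (hz : z ∈ (A.e i).target) :
    fm hψ hp hφ s i =ᶠ[𝓝 z] fun y => A.c s i y • A.w i y • P284Z.L.dt n :=
  mem_of_superset ((A.e i).open_target.mem_nhds hz) fun _ hy => fm_in hy

theorem fm_form (s : M → ℂ) : (ka hψ hp hφ).IsForm (fm hψ hp hφ s) where
  off _ _ hz := if_neg hz
  change (i j : A.I) x hi hj := by
    change fm hψ hp hφ s i (A.e i x) = (1 : ℂ) •
      (fm hψ hp hφ s j (A.e j x)).compContinuousLinearMap
        (fderiv ℂ (fun z => A.e j ((A.e i).symm z)) (A.e i x))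
    have e : ∀ (c : ℂ) (L : Cm n →L[ℂ] Cm n), (c • P284Z.L.dt n).compContinuousLinearMap L =
      c • (P284Z.L.dt n).compContinuousLinearMap L := fun _ _ => rfl
    rw [fm_in ((A.e i).map_source hi), fm_in ((A.e j).map_source hj), smul_smul, smul_smul, e,
      dt_comp, LinearMap.det_toMatrix', A.ch i j x hi hj, one_smul, smul_smul, Atl.c, Atl.c,
      (A.e i).left_inv hi, (A.e j).left_inv hj]
    congr 1
    rw [ContinuousLinearMap.det]
    ring

theorem fm_sub : fm hψ hp hφ s - fm hψ hp hφ t = fm hψ hp hφ (s - t) := by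
  funext i z
  change fm hψ hp hφ s i z - fm hψ hp hφ t i z = _
  unfold fm Atl.c
  split_ifs
  · ext v
    simp only [ContinuousAlternatingMap.sub_apply, ContinuousAlternatingMap.smul_apply,
      smul_eq_mul, Pi.sub_apply]
    ring
  · exact sub_zero _

omit [BorelSpace M] in
include hψ hp in
theorem rho_pos (x : M) : 0 < rho A ψ x := by
  obtain ⟨i, hi⟩ := A.cover x trivial
  have hz := (A.e i).map_source hi
  rw [rho_eq hψ hi]
  exact div_pos (Complex.lt_def.1 (hp i _ hz).det_pos).1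
    (pow_pos (norm_pos_iff.2 (A.an i _ hz).2) 2)

theorem fm_nl (s : M → ℂ) : (ka hψ hp hφ).nl (fm hψ hp hφ s) = A.L2 s φ := by
  unfold Atl.L2
  rw [Measure.restrict_univ]
  refine (lint hψ _).trans (lintegral_congr fun x => ?_)
  have hx := mem_ix (ka hψ hp hφ) x
  unfold KA.dn
  generalize (ka hψ hp hφ).ix x = i at hx
  have hz := (A.e i).map_source hx
  have h1 := (rho_pos (hψ := hψ) (hp := hp) x).ne'
  rw [← ENNReal.ofReal_mul (rho_pos (hψ := hψ) (hp := hp) x).le, Complex.re_ofReal_mul]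
  change ENNReal.ofReal (_ * (Real.exp (-A.c φ i (A.e i x)) * (hn (cHess (A.c ψ i) (A.e i x))
    (fm hψ hp hφ s i (A.e i x)) (fm hψ hp hφ s i (A.e i x))).re)) = _
  rw [fm_in hz, P284Z.L.S1.hn_smul, P284Z.L.S1.hn_smul, hn_dt (hp i _ hz)]
  rw [rho_eq hψ hx] at h1 ⊢
  simp only [Atl.c, (A.e i).left_inv hx]
  congr 1
  obtain ⟨h2, -⟩ := div_ne_zero_iff.1 h1
  have h3 := norm_ne_zero_iff.2 (A.an i _ hz).2
  field_simp

theorem exists_sec {η : (ka hψ hp hφ).Fm n} (h : (ka hψ hp hφ).IsForm η) :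
    ∃ s, η = fm hψ hp hφ s := by
  choose k hk using fun x => A.cover x trivial
  refine ⟨fun x => ev (η (k x) (A.e (k x) x)) id / A.w (k x) (A.e (k x) x),
    funext fun (i : A.I) => funext fun z => ?_⟩
  by_cases hz : z ∈ (A.e i).target
  swap
  · rw [h.off i z hz, (fm_form _).off i z hz]
  have hx := (A.e i).map_target hz
  have h1 := h.change i (k _) _ hx (hk _)
  have h2 := (fm_form (hψ := hψ) (hp := hp) (hφ := hφ)
    fun x => ev (η (k x) (A.e (k x) x)) id / A.w (k x) (A.e (k x) x)).change i (k _) _ hx (hk _)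
  rw [← (A.e i).right_inv hz]
  refine h1.trans (Eq.trans ?_ h2.symm)
  congr 2
  have hz' := (A.e _).map_source (hk ((A.e i).symm z))
  refine (top_eq _).trans ((fm_in hz').trans ?_).symm
  rw [smul_smul, Atl.c, (A.e _).left_inv (hk _), div_mul_cancel₀ _ (A.an _ _ hz').2]
  rfl

end Hd

open Hd in
theorem hord_cm {r : ℕ} {M : Type} [TopologicalSpace M] [T2Space M] [MeasurableSpace M]
    [BorelSpace M] (A : Atl (Cm (r + 1)) M univ) (hC : A.Cpl) {φ Λ : M → ℝ} {s₀ : M → ℂ} {C₀ : ℝ}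
    (hφ : A.Psh φ) (h1 : A.Sm s₀) (h3 : ∀ x, 0 ≤ Λ x) (h4 : 0 ≤ C₀) (h5 : A.Db s₀ φ Λ)
    (h6 : ∫⁻ x, ENNReal.ofReal (Λ x) ∂A.ν ≤ ENNReal.ofReal C₀) (h2 : A.L2 s₀ φ < ⊤) :
    ∃ s, A.Hol s ∧ A.L2 (s - s₀) φ ≤ ENNReal.ofReal C₀ := by
  obtain ⟨ψ, η, hψ, hη, η0, ηc, hl⟩ := hC
  have hp : ∀ i, ∀ z ∈ (A.e i).target, (cHess (A.c ψ i) z).PosDef := fun i z hz =>
    .of_dotProduct_mulVec_pos (P272.K.cHess_isHermitian ((hψ i z hz).of_le two_le)) fun x hx => by
      rw [quad ((hψ i z hz).of_le two_le), Complex.zero_lt_real]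
      linarith [(hl i z hz _ (star_ne_zero.2 hx)).1]
  have k1 := P284.H752.k1Stmt
  have k3 := k3 (r + 1) M (ka hψ hp hφ.1)
  obtain ⟨χ⟩ := cut hψ hp hφ.1 hη η0 ηc fun i z hz v hv => (hl i z hz v hv).2
  have hp' : ∀ i, ∀ z ∈ (A.e i).target, (cHess (A.c φ i) z).PosSemidef := fun i z hz =>
    .of_dotProduct_mulVec_nonneg (P272.K.cHess_isHermitian ((hφ.1 i z hz).of_le two_le))
      fun x => by
        rw [quad ((hφ.1 i z hz).of_le two_le), Complex.zero_le_real]
        linarith [hφ.2 i z hz (star x)]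
  have g1 := fm_form (hψ := hψ) (hp := hp) (hφ := hφ.1) s₀
  have g2 : (ka hψ hp hφ.1).Smooth (fm hψ hp hφ.1 s₀) := fun i z hz =>
    ((h1 i z hz).smul (((A.an i z hz).1.contDiffAt.restrict_scalars ℝ).smul_const _)
      ).congr_of_eventuallyEq (fm_near hz)
  obtain ⟨η, a1, a2, -, a4⟩ := eng (r + 1) M _ χ hp' r _ g1 g2 ((fm_nl s₀).trans_lt h2)
    (funext fun i => funext fun z => P284.H136.K8.af_zero _) C₀ fun τ hτ => by
      rw [mul_comm]
      refine P284.H752.K8.int_cs (S := univ) (B := fun x => Λ x / Hd.rho A ψ x) (k3.intT r τ hτ).2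
        (dA_nonneg k1 hp' τ) (fun x => ?_)
        (fun x _ => div_nonneg (h3 x) (rho_pos (hψ := hψ) (hp := hp) x).le) h4 ?_
      swap
      · rw [Measure.restrict_univ]
        refine ((lint hψ _).trans (lintegral_congr fun x => ?_)).trans_le h6
        have := rho_pos (hψ := hψ) (hp := hp) x
        rw [← ENNReal.ofReal_mul this.le, mul_div_cancel₀ _ this.ne']
      obtain ⟨i, hx⟩ := A.cover x trivial
      have hz := (A.e i).map_source hx
      have e1 : (ka hψ hp hφ.1).S (fm hψ hp hφ.1 s₀) i (A.e i x) = SL (cHess (A.c ψ i))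
          (fun y => A.c s₀ i y • A.w i y • P284Z.L.dt (r + 1)) (A.e i x) := by
        refine (if_pos hz).trans ?_
        unfold SL
        rw [funext (P284Z.L.S1.dbV_congr (fm_near hz))]
        rfl
      have h9 := P284Z.L.S1.hn_SL (w := cHess (A.c ψ i)) (σ := fun y => A.w i y • P284Z.L.dt (r + 1))
        (hp i _ hz) ((h1 i _ hz).differentiableAt (by simp))
        ((A.an i _ hz).1.differentiableAt.smul_const _)
        (psd_bb ((hφ.1 i _ hz).of_le two_le) (h5 i _ hz)) (τ i (A.e i x))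
      rw [P284Z.L.S1.hn_smul, hn_dt (hp i _ hz), ← e1] at h9
      rw [indicator_univ, k3.dn_eq r τ _ hτ.form (k3.S_form r _ g1 g2).1 i x hx,
        k3.dA_eq r τ hτ.form i x hx, norm_mul, mul_pow, Complex.norm_real,
        Real.norm_of_nonneg (Real.exp_pos _).le, rho_eq hψ hx]
      refine (mul_le_mul_of_nonneg_left h9 (sq_nonneg _)).trans (le_of_eq ?_)
      change Real.exp (-A.c φ i (A.e i x)) ^ 2 * _ = Real.exp (-A.c φ i (A.e i x)) *
        (Ad (cHess (A.c ψ i) (A.e i x)) (cHess (A.c φ i) (A.e i x)) (τ i (A.e i x))).re * _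
      rw [Real.exp_neg, show A.c Λ i (A.e i x) = Λ x from congrArg Λ ((A.e i).left_inv hx)]
      field_simp
  obtain ⟨s, rfl⟩ := exists_sec a1
  refine ⟨s, fun i z hz => ?_, by rwa [fm_sub, fm_nl] at a4⟩
  refine ((((ContinuousAlternatingMap.apply ℂ (Cm (r + 1)) ℂ fun i => Pi.single i 1).analyticAt
    _).comp (a2 i z hz)).div (A.an i z hz).1 (A.an i z hz).2).congr ?_
  filter_upwards [(A.e i).open_target.mem_nhds hz] with y hy
  have h7 := ev_dt (1 : Equiv.Perm (Fin (r + 1)))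
  rw [Pi.div_apply, Function.comp_apply, fm_in hy, div_eq_iff (A.an i y hy).2]
  change A.c s i y * (A.w i y * ev (P284Z.L.dt (r + 1)) (fun i => (1 : Equiv.Perm (Fin (r + 1))) i)) = _
  rw [h7]
  simp

end Vale.Agent.P253W.Y
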