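import Vale.Agent.P253W.Y.Defs
import Vale.Agent.P253Z.BUS

/-!
# P253W, block Y, row CHT2: the estimates in the chart
-/

open scoped ContDiff Topology ComplexConjugate ComplexOrder Matrix
open Set Metric Filter Vale.Agent.P253Z
open Vale.Agent.P272.K (Cm)
open Vale.Agent.P253.R2.H451 (levi2)

noncomputable section

namespace Vale.Agent.P253W.Y

namespace Cht2

variable {n : ℕ}

theorem qf_I (A : Mx n) (v : Cm n) : qf A (Complex.I • v) = qf A v := by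
  rw [qf, qf, star_smul, Matrix.mulVec_smul, smul_dotProduct, dotProduct_smul, smul_smul,
    Complex.star_def, Complex.conj_I, mul_neg, Complex.I_mul_I, neg_neg, one_smul]

theorem qf_nonneg {A : Mx n} (h : A.PosDef) (v : Cm n) : 0 ≤ qf A v := by
  have := h.posSemidef.dotProduct_mulVec_nonneg (star v)
  rw [star_star] at this
  exact (Complex.nonneg_iff.1 this).1

theorem qf_add {A : Mx n} (h : A.PosDef) (v w : Cm n) : qf A (v + w) ≤ 2 * qf A v + 2 * qf A w := by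
  have := qf_nonneg h (v - w)
  simp only [qf, star_add, star_sub, Matrix.mulVec_add, Matrix.mulVec_sub, add_dotProduct,
    sub_dotProduct, dotProduct_add, dotProduct_sub, Complex.add_re, Complex.sub_re] at this ⊢
  linarith

theorem d_det {A : ℂ → Mx n} {τ : ℂ} (h : ∀ i j, DifferentiableAt ℂ (fun s => A s i j) τ) :
    DifferentiableAt ℂ (fun s => (A s).det) τ := by
  simp only [Matrix.det_apply']
  exact DifferentiableAt.fun_sum fun σ _ =>
    (DifferentiableAt.fun_finsetProd fun i _ => h _ _).const_mul _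

theorem d_inv {A : ℂ → Mx n} {τ : ℂ} (h : ∀ i j, DifferentiableAt ℂ (fun s => A s i j) τ)
    (h0 : (A τ).det ≠ 0) (i j : Fin n) : DifferentiableAt ℂ (fun s => (A s)⁻¹ i j) τ := by
  simp only [Matrix.inv_def, Ring.inverse_eq_inv', Matrix.smul_apply, Matrix.adjugate_apply,
    smul_eq_mul]
  refine ((d_det h).fun_inv h0).fun_mul (d_det fun k l => ?_)
  simp only [Matrix.updateRow_apply]
  split_ifs
  exacts [differentiableAt_const _, h _ _]

theorem dbar {g : P n → Cm n} {g' : P n →L[ℝ] Cm n} {N : ℂ → Mx n} {z : P n}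
    (hg : HasFDerivAt g g' z) (hN : ∀ i j, DifferentiableAt ℂ (fun s => N s i j) z.1) (ξ : P n) :
    fderiv ℝ (fun q => g q ᵥ* N q.1) z ξ + Complex.I • fderiv ℝ (fun q => g q ᵥ* N q.1) z
      (Complex.I • ξ) = (g' ξ + Complex.I • g' (Complex.I • ξ)) ᵥ* N z.1 := by
  have h1 := fun i j => ((hN i j).hasDerivAt.hasFDerivAt.restrictScalars ℝ).comp z
    (hasFDerivAt_fst (𝕜 := ℝ) (p := z))
  have h2 := (hasFDerivAt_pi.2 fun i => HasFDerivAt.fun_sum (u := Finset.univ) fun j _ =>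
    (hasFDerivAt_pi'.1 hg j).fun_mul (h1 j i)).fderiv
  erw [h2]
  ext i
  simp [Matrix.vecMul, dotProduct, Finset.mul_sum, ← Finset.sum_add_distrib]
  refine Finset.sum_congr rfl fun j _ => ?_
  linear_combination (g z j * ξ.1 * deriv (fun s => N s j i) z.1) * Complex.I_mul_I

theorem gm_smul (W : Cm n → Mx n) (p V : Cm n) (a : ℂ) : Gm W p (a • V) = a • Gm W p V := by
  simp only [Gm, DX, Pi.smul_apply, smul_assoc, ← Finset.smul_sum, Matrix.smul_mul]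

theorem dq_sm {W : Cm n → Mx n} {lg : Cm n × Cm n → Cm n} {y : Cm n × Cm n}
    (hW : ∀ j k, ContDiffAt ℝ 2 (fun x => W x j k) y.1) (hl : ContDiffAt ℝ 2 lg y) :
    ContDiffAt ℝ 2 (dq W lg) y := by
  unfold dq qf
  simp only [dotProduct, Matrix.mulVec]
  have h := contDiffAt_pi.1 hl
  exact Complex.reCLM.contDiff.contDiffAt.comp y (ContDiffAt.sum fun j _ => (h j).mul
    (ContDiffAt.sum fun k _ => ((hW j k).comp y contDiffAt_fst).mul
      (Complex.conjCLE.contDiff.contDiffAt.comp y (h k))))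

theorem size {a b e : ℝ} (e0 : 0 < e) (e1 : e ≤ 1) (a0 : 0 ≤ a) (b2 : 2 ≤ b) (h : a ≤ b + 1) :
    ((a ^ (-e)) ^ 2)⁻¹ ≤ 3 * b ^ (2 * e) ∧ ((a ^ (-e)) ^ 4)⁻¹ ≤ 9 * b ^ (4 * e) := by
  have b0 : 0 ≤ b := by linarith
  have h1 : a ^ e ≤ 3 / 2 * b ^ e := calc
    a ^ e ≤ (3 / 2 * b) ^ e := Real.rpow_le_rpow a0 (by linarith) e0.le
    _ = (3 / 2) ^ e * b ^ e := Real.mul_rpow (by norm_num) b0
    _ ≤ _ := mul_le_mul_of_nonneg_right ((Real.rpow_le_rpow_of_exponent_le (by norm_num) e1).trans_eq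
      (Real.rpow_one _)) (Real.rpow_nonneg b0 _)
  have h2 := pow_le_pow_left₀ (Real.rpow_nonneg a0 _) h1
  rw [Real.rpow_neg a0, inv_pow, inv_pow, inv_inv, inv_inv, mul_comm 2, mul_comm 4,
    Real.rpow_mul b0, Real.rpow_mul b0, Real.rpow_two, Real.rpow_ofNat]
  have h3 := Real.rpow_nonneg b0 e
  exact ⟨by linarith [h2 2, sq_nonneg (b ^ e)], by linarith [h2 4, pow_nonneg h3 4]⟩

end Cht2

open Cht2 in
theorem cht2 (n : ℕ) : CHT2 n := by
  intro ρ e C₀ r C₁ G m τ₀ L c e0 e1 ρ2 C1 hc z hz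
  obtain ⟨hτ, hx⟩ := hc.tgt z hz
  have r0 := (norm_nonneg _).trans_lt hx
  have hp := (L.p_an _ hτ).2
  have hp1 : L.p z.1 ∈ ball (0 : Cm n) 1 := mem_ball_zero_iff.2 (by linarith [L.geo.small.2])
  have hpr : L.p z.1 ∈ ball (0 : Cm n) r := mem_ball_zero_iff.2 (by linarith)
  have hxr := mem_ball_zero_iff.2 hx
  have hρ : ρ < ‖z.1‖ := L.sub hτ
  have hU : IsOpen {q : P n | q.1 ∈ ball τ₀ L.δ} := isOpen_ball.preimage continuous_fst
  have hΘ : ∀ τ ∈ ball τ₀ L.δ, ∀ v, qf (G τ) (v ᵥ* (L.Θ τ)⁻¹) = qf (L.W (L.p τ)) v :=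
    fun τ h v => by rw [L.G_eq τ h, Matrix.vecMul_vecMul,
      Matrix.nonsing_inv_mul _ (L.Θ_an τ h).2.isUnit, Matrix.vecMul_one]
  have hD : (fun q => Dq G (c.symm q)) =ᶠ[𝓝 z] dq L.W L.lg ∘ fun q => (L.p q.1, q.2) := by
    filter_upwards [hU.mem_nhds hτ] with q hq
    rw [hc.bwd, Dq, hΘ _ hq]
    rfl
  have hι : ContDiffOn ℂ ∞ (fun q : P n => (L.p q.1, q.2)) {q | q.1 ∈ ball τ₀ L.δ} := fun q hq =>
    (((L.p_an _ hq).1.contDiffAt.comp q contDiffAt_fst).prodMk contDiffAt_snd).contDiffWithinAt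
  have hι' := ((((L.p_an _ hτ).1.differentiableAt.hasDerivAt.hasFDerivAt.restrictScalars ℝ).comp z
    (hasFDerivAt_fst (𝕜 := ℝ) (p := z))).prodMk (hasFDerivAt_snd (𝕜 := ℝ) (p := z)))
  have hl := (L.geo.lg_sm.contDiffAt ((isOpen_ball.prod isOpen_ball).mem_nhds
    (mk_mem_prod hpr hxr))).of_le Bu.two_le
  have hq := dq_sm (y := (L.p z.1, z.2)) (fun j k =>
    ((L.sk.sm j k).contDiffAt (isOpen_ball.mem_nhds hp1)).of_le Bu.two_le) hl
  have hv : Dq G (c.symm z) = dq L.W L.lg (L.p z.1, z.2) := hD.self_of_nhds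
  have hN : Dq G (c.symm z) < ‖z.1‖ ^ (-(4 * e)) := by
    have := c.map_target hz
    rw [hc.src] at this
    simpa only [hc.bwd] using this.1.2
  obtain ⟨Q, Q0, hQ⟩ := L.geo.jac _ hpr _ hxr
  obtain ⟨m0, hm⟩ := L.ric _ hτ
  have hj := hQ _ _ m0 fun d c c' V V' d0 d1 => hm d c c' V V' d0 (d1.trans (by
    rw [← hv, Real.sqrt_le_left (Real.rpow_nonneg (norm_nonneg _) _), ← Real.rpow_natCast,
      ← Real.rpow_mul (norm_nonneg _)]
    exact hN.le.trans_eq (by congr 1; push_cast; ring)))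
  obtain ⟨s2, s4⟩ := size e0 e1 (norm_nonneg τ₀) (ρ2.trans hρ.le) (by
    have := norm_sub_norm_le τ₀ z.1
    rw [norm_sub_rev] at this
    linarith [mem_ball_iff_norm.1 hτ, L.δ_mem.2])
  have hH := L.sk.pos _ hp1
  have D0 : 0 ≤ dq L.W L.lg (L.p z.1, z.2) := qf_nonneg hH _
  let w : P n →L[ℂ] Cm n := (LinearMap.toContinuousLinearMap Q.vecMulLinear).comp (.snd ℂ _ _) -
    (ContinuousLinearMap.fst ℂ _ _).smulRight (deriv L.p z.1)
  have hw : ∀ ξ, w ξ = ξ.2 ᵥ* Q - ξ.1 • deriv L.p z.1 := fun _ => rfl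
  refine ⟨L.W (L.p z.1), L.lg (L.p z.1, z.2), w, ⟨?_, hH, ?_, hv, fun ξ => ?_, fun ξ => ?_⟩,
    fun ξ => ?_⟩
  · exact (hq.comp z (((hι.restrict_scalars ℝ).contDiffAt (hU.mem_nhds hτ)).of_le
      Bu.two_le)).congr_of_eventuallyEq hD
  · simp only [hw, zero_smul, sub_zero]
    exact ⟨Matrix.vecMul_injective_iff_isUnit.2 ((Matrix.isUnit_iff_isUnit_det _).2 Q0.isUnit),
      Matrix.vecMul_surjective_iff_isUnit.2 ((Matrix.isUnit_iff_isUnit_det _).2 Q0.isUnit)⟩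
  · rw [hD.fderiv_eq]
    erw [((hq.differentiableAt two_ne_zero).hasFDerivAt.comp z hι').fderiv]
    exact (hj ξ.1 ξ.2).1
  · have h1 : levi2 (fun q => Dq G (c.symm q)) z ξ =
        levi2 (dq L.W L.lg) (L.p z.1, z.2) (ξ.1 • deriv L.p z.1, ξ.2) := by
      rw [levi2, hD.fderiv.fderiv_eq]
      refine (Bu.levi2_comp hU hι hτ hq ξ).trans (congrArg _ ?_)
      erw [hι'.fderiv]
      rfl
    rw [h1, hv, hw]
    refine (hj ξ.1 ξ.2).2.2.trans ?_
    have h2 := qf_nonneg hH (ξ.2 ᵥ* Q - ξ.1 • deriv L.p z.1)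
    rw [div_eq_mul_inv]
    generalize qf _ (_ - _) = x at h2 ⊢
    have h3 := mul_le_mul_of_nonneg_left s2 h2
    have h4 := mul_nonneg m0 (sq_nonneg ‖ξ.1‖)
    have h5 := mul_nonneg h2 (Real.rpow_nonneg (norm_nonneg z.1) (2 * e))
    have k : m z.1 * ‖ξ.1‖ ^ 2 + x * ((‖τ₀‖ ^ (-e)) ^ 2)⁻¹ ≤
      100 * (m z.1 * ‖ξ.1‖ ^ 2 + x * ‖z.1‖ ^ (2 * e)) := by linarith
    linarith [mul_le_mul_of_nonneg_left k (mul_nonneg (zero_le_one.trans C1) D0)]
  · have h1 : (fun q => (c.symm q).2) = fun q => L.lg (L.p q.1, q.2) ᵥ* (L.Θ q.1)⁻¹ :=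
      funext fun q => by rw [hc.bwd]
    have h2 := dbar ((hl.differentiableAt two_ne_zero).hasFDerivAt.comp z hι')
      (d_inv (fun i j => ((L.Θ_an _ hτ).1 i j).differentiableAt) (L.Θ_an _ hτ).2) ξ
    have h3 := (hj ξ.1 ξ.2).2.1
    have h4 := (hj (Complex.I * ξ.1) (Complex.I • ξ.2)).2.1
    have h5 : (Complex.I • ξ.2) ᵥ* Q - (Complex.I * ξ.1) • deriv L.p z.1 =
        Complex.I • (ξ.2 ᵥ* Q - ξ.1 • deriv L.p z.1) := by
      rw [Matrix.smul_vecMul, mul_smul, smul_sub]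
    rw [h5, qf_I, norm_mul, Complex.norm_I, one_mul, ← qf_I] at h4
    have h6 := (qf_add hH _ _).trans (add_le_add (mul_le_mul_of_nonneg_left h3 two_pos.le)
      (mul_le_mul_of_nonneg_left h4 two_pos.le))
    rw [h1]
    erw [h2]
    rw [hΘ _ hτ, hv, hw]
    refine (le_of_eq (congrArg _ ?_)).trans (h6.trans ?_)
    · simp only [gm_smul, Matrix.vecMul_smul, smul_add, smul_sub, smul_smul, ← mul_assoc,
        Complex.I_mul_I, neg_mul, one_mul, neg_smul, one_smul]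
      change fderiv ℝ L.lg _ (ξ.1 • deriv L.p z.1, ξ.2) + Complex.I • fderiv ℝ L.lg _
        ((Complex.I * ξ.1) • deriv L.p z.1, Complex.I • ξ.2) = _
      abel
    · have h7 := qf_nonneg hH (ξ.2 ᵥ* Q - ξ.1 • deriv L.p z.1)
      rw [div_eq_mul_inv, div_eq_mul_inv]
      generalize qf _ (_ - _) = x at h7 ⊢
      have h8 := mul_nonneg m0 (sq_nonneg ‖ξ.1‖)
      have h9 := add_le_add (mul_le_mul_of_nonneg_left s2 h8) (mul_le_mul_of_nonneg_left s4 h7)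
      have h10 := mul_nonneg h8 (Real.rpow_nonneg (norm_nonneg z.1) (2 * e))
      have h11 := mul_nonneg h7 (Real.rpow_nonneg (norm_nonneg z.1) (4 * e))
      have k : 4 * (m z.1 * ‖ξ.1‖ ^ 2 * ((‖τ₀‖ ^ (-e)) ^ 2)⁻¹ + x * ((‖τ₀‖ ^ (-e)) ^ 4)⁻¹) ≤
        100 * (m z.1 * ‖ξ.1‖ ^ 2 * ‖z.1‖ ^ (2 * e) + x * ‖z.1‖ ^ (4 * e)) := by linarith
      linarith [mul_le_mul_of_nonneg_left k (mul_nonneg (zero_le_one.trans C1)
        (sq_nonneg (dq L.W L.lg (L.p z.1, z.2))))]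

end Vale.Agent.P253W.Y
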