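import Vale.Agent.P253W.Y.Ch

/-!
# P253W, block Y: the oscillation of `u`
-/

open scoped Manifold ContDiff Bundle ENNReal Topology Matrix ComplexOrder
open Bundle IsManifold MeasureTheory Set Metric Filter Vale.Agent.P253.Mfd Vale.Agent.P253Z
open Vale.Agent.P272.K (Cm dz)

noncomputable section

namespace Vale.Agent.P253W.Y

namespace UuL

/-- the determinant in a chart of size `s` -/
theorem det (n : ℕ) (C : ℝ) : ∃ K : ℝ, 0 ≤ K ∧ ∀ (s : ℝ) (W : Cm n → Mx n), SK C s W →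
    ∀ y ∈ ball (0 : Cm n) 1, 0 < (W y).det.re ∧
      |Real.log (W y).det.re - n * Real.log (s ^ 2)| ≤ K := by
  have hK : (1 : ℝ) ≤ (n + 1) * (|C| + 1) := by nlinarith [abs_nonneg C, Nat.cast_nonneg (α := ℝ) n]
  refine ⟨n * Real.log ((n + 1) * (|C| + 1)), mul_nonneg (Nat.cast_nonneg _) (Real.log_nonneg hK),
    fun s W h y hy => ?_⟩
  have hs : 0 < s ^ 2 := pow_pos h.s_pos 2
  have hq := fun v => X.qf_nonneg v (h.pos y hy).posSemidef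
  have hC : C ≤ |C| + 1 := by linarith [le_abs_self C]
  have h1 := ((P253W.C.eig n).low (W y) (s ^ 2 / ((n + 1) * (|C| + 1))) (h.pos y hy).isHermitian
    (by positivity) fun v => by
      rw [div_mul_eq_mul_div, div_le_iff₀ (by positivity)]
      have a1 : ∑ i, ‖v i‖ ^ 2 ≤ n * ‖v‖ ^ 2 := X.en_le v
      have a2 := (h.lo y hy v).trans (mul_le_mul_of_nonneg_right hC (hq v))
      have a3 : s ^ 2 * ∑ i, ‖v i‖ ^ 2 ≤ (n + 1) * (s ^ 2 * ‖v‖ ^ 2) := by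
        nlinarith [mul_le_mul_of_nonneg_left a1 hs.le, mul_nonneg hs.le (sq_nonneg ‖v‖)]
      calc _ ≤ (n + 1) * ((|C| + 1) * qf (W y) v) := a3.trans (by gcongr)
        _ = qf (W y) v * ((n + 1) * (|C| + 1)) := by ring).2
  have h2 := (P253W.C.eig n).up (W y) (s ^ 2 * ((n + 1) * (|C| + 1))) (h.pos y hy) fun v => by
    have a1 : ‖v‖ ^ 2 ≤ ∑ i, ‖v i‖ ^ 2 := X.sq_le_en v
    have a2 : C ≤ (n + 1) * (|C| + 1) := by
      nlinarith [abs_nonneg C, Nat.cast_nonneg (α := ℝ) n]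
    calc _ ≤ C * (s ^ 2 * ‖v‖ ^ 2) := h.up y hy v
      _ ≤ (n + 1) * (|C| + 1) * (s ^ 2 * ∑ i, ‖v i‖ ^ 2) := by gcongr
      _ = _ := by ring
  have h3 : 0 < (W y).det.re := lt_of_lt_of_le (by positivity) h1
  have h4 := Real.log_le_log (by positivity) h1
  have h5 := Real.log_le_log h3 h2
  rw [Real.log_pow, Real.log_div hs.ne' (by positivity)] at h4
  rw [Real.log_pow, Real.log_mul hs.ne' (by positivity)] at h5
  exact ⟨h3, abs_le.2 ⟨by linarith, by linarith⟩⟩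

theorem lg_eq {u g D : ℝ} (hg : 0 < g) (h : Real.exp (-u) * g ^ 2 = D) :
    u = 2 * Real.log g - Real.log D := by
  rw [← h, Real.log_mul (Real.exp_ne_zero _) (by positivity), Real.log_exp, Real.log_pow]
  push_cast; ring

end UuL

theorem uu : UU := by
  intro n M _ _ _ _ _ _ _ _ _ _ _ _ μ F A T p bc tr f ν hf hc t C ρ e Ψ hΨ η hη
  obtain ⟨B, hB⟩ := bc
  have ht := hΨ.t_mem
  have he := hΨ.e_pos
  have t0 : 0 < t := by linarith [ht.1]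
  have hη' : 0 < η / 6 := by positivity
  obtain ⟨K, K0, hK⟩ := UuL.det n C
  obtain ⟨φ, h1, h2⟩ := p.ball t t0 _ (p.ut t t0.le)
  obtain ⟨c, hφ⟩ := hf.tm φ h1
  obtain ⟨c₂, hc₂⟩ : ∃ c₂, c₂ = 3 * |c| + 2 * |ν| + η / 6 + 2 * n * e + 2 * K := ⟨_, rfl⟩
  have c0 : 0 ≤ c₂ := by rw [hc₂]; positivity
  obtain ⟨a₁, -, k₁⟩ := ChL.ut p hc ht hη'
  obtain ⟨a₂, k₂⟩ := hc.nu _ hη'
  obtain ⟨a₃, k₃⟩ := FinL.big he (max 3 (|B| * c₂ / (η / 6)))
  refine ⟨max (max ρ a₁) (max (max a₂ a₃) (Real.exp (2 * K / (η / 6)))), fun τ hτ x hx => ?_⟩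
  replace hτ : max _ _ < ‖τ‖ := hτ
  simp only [max_lt_iff] at hτ
  obtain ⟨⟨b₀, b₁⟩, ⟨b₂, b₃⟩, b₄⟩ := hτ
  have h8 : 8 < ‖τ‖ := hΨ.ρ_ge.trans_lt b₀
  have hp : 0 < ‖τ‖ := by linarith
  have L1 : 1 ≤ Real.log ‖τ‖ := by
    rw [Real.le_log_iff_exp_le hp]
    linarith [Real.exp_one_lt_d9]
  have L2 : 2 * K ≤ η / 6 * Real.log ‖τ‖ := by
    rw [← div_le_iff₀' hη', Real.le_log_iff_exp_le hp]
    exact b₄.le
  have z : (0 : Cm n) ∈ ball (0 : Cm n) 1 := mem_ball_self one_pos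
  have hE := k₃ _ b₃
  have hE0 : 0 < ‖τ‖ ^ e := Real.rpow_pos_of_pos hp _
  rw [max_le_iff, div_le_iff₀ hη'] at hE
  rw [Real.rpow_neg hp.le, ← one_div, le_div_iff₀ hE0] at hx
  have x1 : ‖x‖ < 1 / 2 := by nlinarith [norm_nonneg x]
  have x2 : x ∈ ball (0 : Cm n) 1 := mem_ball_zero_iff.2 (by linarith)
  have im := hΨ.imm τ b₀
  have eq : ∀ y ∈ ball (0 : Cm n) 1, |F.u t (Ψ τ y) - 2 * Real.log ‖om F (Ψ τ) y‖ -
      2 * n * e * Real.log ‖τ‖| ≤ K := by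
    intro y hy
    have h3 := (hK _ _ (hΨ.sk τ b₀) y hy).2
    rw [UuL.lg_eq (norm_pos_iff.2 (tr.om_an _ im y hy).2) (tr.u_eq _ im t t0.le y hy)]
    rw [Real.log_pow, Real.log_rpow hp, abs_sub_comm] at h3
    refine le_trans (le_of_eq ?_) h3
    congr 1; push_cast; ring
  have u0 := k₁ τ b₁ _ (hΨ.near τ b₀ 0 z)
  have ux := k₁ τ b₁ _ (hΨ.near τ b₀ x x2)
  have e0 := abs_le.1 (eq 0 z)
  have ex := abs_le.1 (eq x x2)
  rw [hΨ.zero τ b₀] at u0 e0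
  have nu := abs_le.1 (k₂ τ b₂)
  have ne : 0 ≤ 2 * n * e * Real.log ‖τ‖ := by positivity
  have h4 := hB (om F (Ψ τ)) (Real.log ‖om F (Ψ τ) 0‖ + c₂ * Real.log ‖τ‖)
    (fun y hy => (tr.om_an _ im y hy).1.differentiableAt.differentiableWithinAt) (fun y hy => by
      refine ⟨(tr.om_an _ im y hy).2, ?_⟩
      have a1 := (h2 _ _ (hΨ.near τ b₀ y hy)).trans ((hφ τ).trans (FinL.lg h8 c))
      have a2 := abs_le.1 (eq y hy)
      have a3 : -(2 * |ν| * Real.log ‖τ‖) ≤ ν * Real.log (‖τ‖ ^ 2) := by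
        rw [Real.log_pow]; push_cast
        nlinarith [neg_abs_le ν]
      have a4 : K ≤ K * Real.log ‖τ‖ := le_mul_of_one_le_right K0 L1
      have a5 : 0 ≤ c₂ * Real.log ‖τ‖ := by positivity
      have a6 : c₂ * Real.log ‖τ‖ = 3 * |c| * Real.log ‖τ‖ + 2 * |ν| * Real.log ‖τ‖ +
          η / 6 * Real.log ‖τ‖ + 2 * n * e * Real.log ‖τ‖ + 2 * (K * Real.log ‖τ‖) := by
        rw [hc₂]; ring
      linarith [u0.1, e0.1, e0.2, a2.1, a2.2, nu.1]) x (mem_ball_zero_iff.2 x1)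
  have h5 : B * ‖x‖ * (Real.log ‖om F (Ψ τ) 0‖ + c₂ * Real.log ‖τ‖ - Real.log ‖om F (Ψ τ) 0‖) ≤
      η / 6 * Real.log ‖τ‖ := by
    rw [add_sub_cancel_left, ← mul_assoc]
    refine mul_le_mul_of_nonneg_right ?_ (by linarith)
    calc B * ‖x‖ * c₂ ≤ |B| * ‖x‖ * c₂ := by gcongr; exact le_abs_self B
      _ = ‖x‖ * (|B| * c₂) := by ring
      _ ≤ ‖x‖ * (‖τ‖ ^ e * (η / 6)) := mul_le_mul_of_nonneg_left hE.2 (norm_nonneg _)
      _ ≤ η / 6 := by nlinarith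
  have h6 := abs_le.1 (h4.trans h5)
  exact abs_le.2 ⟨by linarith [u0.1, ux.2, h6.1, nu.1, e0.2, ex.1],
    by linarith [u0.2, ux.1, h6.2, nu.2, e0.1, ex.2]⟩

end Vale.Agent.P253W.Y
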