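import Vale.Agent.P253W.Y.Asm
import Vale.Agent.P253W.Y.HordB
import Vale.Agent.P253W.Y.Horl
import Vale.Agent.P253W.Y.G.All
import Vale.Agent.P253W.Y.Lev
import Vale.Agent.P253W.Y.Pot
import Vale.Agent.P253W.Y.Vs
import Vale.Agent.P253W.Y.Nu
import Vale.Agent.P253W.Y.Sol
import Vale.Agent.P253W.Y.Sub
import Vale.Agent.P253W.Y.Jet
import Vale.Agent.P253W.Y.Inv
import Vale.Agent.P253W.Y.Cht1
import Vale.Agent.P253W.Y.Cht2
import Vale.Agent.P253W.Y.Tr
import Vale.Agent.P253W.Y.Unq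
import Vale.Agent.P253W.Y.Tm
import Vale.Agent.P253W.Y.Uu
import Vale.Agent.P253W.Y.Inj
import Vale.Agent.P253W.Y.ModP
import Vale.Agent.P253W.X.Inj
import Vale.Agent.P253W.X.Lift
import Vale.Agent.P253W.X.Cnt
import Vale.Agent.P253W.X.Imm
import Vale.Agent.P253W.X.Qif

/-!
# P253W, block Y: the tube exists
-/

namespace Vale.Agent.P253W.Y

theorem rows : Rows :=
  ⟨horl hord, geo, nat, lev, pot, vs, mvn, nu, sol, sub, jet, inv, cht1, cht2,
    fun n => X.inj (X.lift n), X.cnt, X.imm, X.bc, tr, unq, ch, tm, met, uu, inj, mod, fin⟩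

theorem tube : For3 fun _ _ _ _ _ _ _ _ d T => T.TUBE d := tube_of rows

end Vale.Agent.P253W.Y
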