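import Vale.Agent.P253W.Slice

/-!
# P253W, block Y: geodesics in a holomorphic chart. Statements.
-/

open scoped ContDiff ENNReal Topology ComplexConjugate ComplexOrder Matrix
open MeasureTheory Set Metric Filter Vale.Agent.P253Z
open Vale.Agent.P272.K (Cm dz)
open Vale.Agent.P253.R2.H451 (levi2)

noncomputable section

namespace Vale.Agent.P253W.Y

variable {n : ℕ}

/-- `A(a, b̄)` -/
def hf (A : Mx n) (a b : Cm n) : ℂ := a ⬝ᵥ (A *ᵥ star b)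

/-- the connection: `∇_X V = ∂_X V + V ᵥ* Gm W z X` -/
def Gm (W : Cm n → Mx n) (z X : Cm n) : Mx n := DX X W z * (W z)⁻¹

/-- a Kähler metric on the open set `U` -/
structure Ka (U : Set (Cm n)) (W : Cm n → Mx n) : Prop where
  op : IsOpen U
  sm : ∀ j k, ContDiffOn ℝ ∞ (fun y => W y j k) U
  pos : ∀ y ∈ U, (W y).PosDef
  cl : ∀ y ∈ U, ∀ j k l, dz l (fun y => W y j k) y = dz j (fun y => W y l k) y

/-- a chart of size `s` with curvature between `0` and `s⁻²` -/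
structure SK (C s : ℝ) (W : Cm n → Mx n) : Prop extends Ka (ball 0 1) W where
  s_pos : 0 < s
  lo : ∀ y ∈ ball (0 : Cm n) 1, ∀ v, s ^ 2 * ‖v‖ ^ 2 ≤ C * qf (W y) v
  up : ∀ y ∈ ball (0 : Cm n) 1, ∀ v, qf (W y) v ≤ C * (s ^ 2 * ‖v‖ ^ 2)
  bk : ∀ y ∈ ball (0 : Cm n) 1, ∀ X, (Kxx W y X).PosSemidef ∧
    ((qf (W y) X : ℂ) • rho W y - Kxx W y X).PosSemidef
  ric : ∀ y ∈ ball (0 : Cm n) 1, ∀ v, s ^ 2 * qf (rho W y) v ≤ qf (W y) v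

/-- `c` is a geodesic in `U` on `[0, 1]` with velocity `c'` -/
def IsGeo (W : Cm n → Mx n) (U : Set (Cm n)) (c c' : ℝ → Cm n) : Prop :=
  ∀ t ∈ Icc (0 : ℝ) 1, c t ∈ U ∧ HasDerivWithinAt c (c' t) (Icc 0 1) t ∧
    HasDerivWithinAt c' (-(c' t ᵥ* Gm W (c t) (c' t))) (Icc 0 1) t

/-- `Ric ≤ m` on the parallel transports of `x` along the paths of length at most `r` -/
def RicB (W : Cm n → Mx n) (p x : Cm n) (r m : ℝ) : Prop :=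
  ∀ (d : ℝ) (c c' V V' : ℝ → Cm n), 0 ≤ d → d ≤ r → c 0 = p → V 0 = x →
    ContinuousOn c' (Icc 0 d) →
    (∀ t ∈ Icc 0 d, c t ∈ ball (0 : Cm n) 1 ∧ HasDerivWithinAt c (c' t) (Icc 0 d) t ∧
      HasDerivWithinAt V (V' t) (Icc 0 d) t ∧ qf (W (c t)) (c' t) ≤ 1 ∧
      V' t ᵥ* W (c t) + V t ᵥ* DX (c' t) W (c t) = 0) →
    ∀ t ∈ Icc 0 d, qf (rho W (c t)) (V t) ≤ m

/-- the square of the distance -/
def dq (W : Cm n → Mx n) (lg : Cm n × Cm n → Cm n) (z : Cm n × Cm n) : ℝ := qf (W z.1) (lg z)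

/-- the exponential map `ex` and its inverse `lg` -/
structure Geo (r C s : ℝ) (W : Cm n → Mx n) (ex lg : Cm n × Cm n → Cm n) : Prop where
  lip : ∀ y ∈ ball (0 : Cm n) (1 / 2), ∀ y' ∈ ball (0 : Cm n) (1 / 2), ∀ v,
    |qf (W y) v - qf (W y') v| ≤ C * ‖y - y'‖ * qf (W y) v
  ex_sm : ContDiff ℝ ∞ ex
  geo : ∀ p ∈ ball (0 : Cm n) r, ∀ v ∈ ball (0 : Cm n) (8 * r), ∃ c', c' 0 = v ∧
    IsGeo W (closedBall p (2 * ‖v‖)) (fun t => ex (p, (t : ℂ) • v)) c'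
  zero : ∀ p, ex (p, 0) = p
  near : ∀ p ∈ ball (0 : Cm n) r, ∀ v ∈ ball (0 : Cm n) (8 * r), ∀ u,
    ‖fderiv ℝ ex (p, v) (0, u) - u‖ ≤ C * ‖v‖ * ‖u‖
  small : C * (8 * r) ≤ 1 / 4 ∧ 20 * r ≤ 1 / 2
  lg_sm : ContDiffOn ℝ ∞ lg (ball 0 r ×ˢ ball 0 r)
  ex_lg : ∀ p ∈ ball (0 : Cm n) r, ∀ q ∈ ball (0 : Cm n) r,
    ex (p, lg (p, q)) = q ∧ ‖lg (p, q)‖ ≤ 2 * ‖q - p‖
  lg_ex : ∀ p ∈ ball (0 : Cm n) r, ∀ v ∈ ball (0 : Cm n) (8 * r), ex (p, v) ∈ ball (0 : Cm n) r →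
    lg (p, ex (p, v)) = v
  jac : ∀ p ∈ ball (0 : Cm n) r, ∀ q ∈ ball (0 : Cm n) r, ∃ P : Mx n, P.det ≠ 0 ∧
    ∀ (V : Cm n) (m : ℝ), 0 ≤ m → RicB W p V √(dq W lg (p, q)) m → ∀ (a : ℂ) (x : Cm n),
      fderiv ℝ (dq W lg) (p, q) (a • V, x) = 2 * (hf (W p) (x ᵥ* P - a • V) (lg (p, q))).re ∧
      qf (W p) (fderiv ℝ lg (p, q) (a • V, x) + lg (p, q) ᵥ* Gm W p (a • V) - (x ᵥ* P - a • V)) ≤
        C * dq W lg (p, q) ^ 2 * (m * ‖a‖ ^ 2 / s ^ 2 + qf (W p) (x ᵥ* P - a • V) / s ^ 4) ∧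
      |levi2 (dq W lg) (p, q) (a • V, x) - 4 * qf (W p) (x ᵥ* P - a • V)| ≤
        C * dq W lg (p, q) * (m * ‖a‖ ^ 2 + qf (W p) (x ᵥ* P - a • V) / s ^ 2)

/-- **GEO** -/
def GEO (n : ℕ) : Prop := ∀ C₀ : ℝ, ∃ r C : ℝ, 0 < r ∧ 1 ≤ C ∧ ∀ (s : ℝ) (W : Cm n → Mx n),
  SK C₀ s W → ∃ ex lg, Geo r C s W ex lg

/-- the Jacobian matrix of a holomorphic map -/
def jc (φ : Cm n → Cm n) (z : Cm n) : Mx n := Matrix.of fun p i => dz i (fun y => φ y p) z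

/-- **NAT**: holomorphic isometries map geodesics to geodesics; uniqueness of geodesics -/
def NAT (n : ℕ) : Prop :=
  (∀ (U U' : Set (Cm n)) (W W' : Cm n → Mx n) (φ : Cm n → Cm n) (z X V : Cm n), Ka U W → Ka U' W' →
    z ∈ U → φ z ∈ U' → AnalyticAt ℂ φ z → (∀ᶠ y in 𝓝 z, W y = pb (jc φ y) (W' (φ y))) →
    fderiv ℝ (fun y => jc φ y *ᵥ V) z X + (jc φ z *ᵥ V) ᵥ* Gm W' (φ z) (jc φ z *ᵥ X) =
      jc φ z *ᵥ (V ᵥ* Gm W z X)) ∧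
  ∀ (U : Set (Cm n)) (W : Cm n → Mx n) (z v : Cm n), Ka U W → z ∈ U →
    ContDiffAt ℝ 1 (fun q : Cm n × Cm n => q.2 ᵥ* Gm W q.1 q.2) (z, v)

end Vale.Agent.P253W.Y
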