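import Vale.Agent.P253W.Slice

/-!
# P253W, block Y: the theorem of Hörmander on an abstract atlas. Statements.
-/

open scoped ContDiff ENNReal Topology
open MeasureTheory Set Metric Filter
open Vale.Agent.P253.R2.H451 (levi2)

noncomputable section

namespace Vale.Agent.P253W.Y

/-- a complex structure on the open subset `N` of `X` with a holomorphic volume form `w` and its
measure `ν` -/
structure Atl (E : Type) [NormedAddCommGroup E] [NormedSpace ℂ E] [MeasureSpace E] (X : Type)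
    [TopologicalSpace X] [MeasurableSpace X] (N : Set X) where
  I : Type
  e : I → OpenPartialHomeomorph X E
  w : I → E → ℂ
  ν : Measure X
  sub : ∀ i, (e i).source ⊆ N
  cover : ∀ x ∈ N, ∃ i, x ∈ (e i).source
  hol : ∀ i j, ∀ z ∈ (e i).target, (e i).symm z ∈ (e j).source →
    AnalyticAt ℂ (fun z => e j ((e i).symm z)) z
  an : ∀ i, ∀ z ∈ (e i).target, AnalyticAt ℂ (w i) z ∧ w i z ≠ 0
  ch : ∀ i j, ∀ x ∈ (e i).source, x ∈ (e j).source →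
    w i (e i x) = (fderiv ℂ (fun z => e j ((e i).symm z)) (e i x)).det * w j (e j x)
  hν : ∀ i (f : X → ℝ≥0∞), Measurable f → (∀ x ∉ (e i).source, f x = 0) →
    ∫⁻ x, f x ∂ν = ∫⁻ z in (e i).target, f ((e i).symm z) * ENNReal.ofReal (‖w i z‖ ^ 2)

namespace Atl

variable {E : Type} [NormedAddCommGroup E] [NormedSpace ℂ E] [MeasureSpace E] {X : Type}
  [TopologicalSpace X] [MeasurableSpace X] {N : Set X} (A : Atl E X N)

/-- a function in a chart -/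
def c {V : Type} (f : X → V) (i : A.I) (z : E) : V := f ((A.e i).symm z)

/-- smooth functions -/
def Sm {V : Type} [NormedAddCommGroup V] [NormedSpace ℝ V] (f : X → V) : Prop :=
  ∀ i, ∀ z ∈ (A.e i).target, ContDiffAt ℝ ∞ (A.c f i) z

/-- holomorphic functions -/
def Hol (f : X → ℂ) : Prop := ∀ i, ∀ z ∈ (A.e i).target, AnalyticAt ℂ (A.c f i) z

/-- smooth plurisubharmonic functions -/
def Psh (φ : X → ℝ) : Prop :=
  A.Sm φ ∧ ∀ i, ∀ z ∈ (A.e i).target, ∀ v, 0 ≤ levi2 (A.c φ i) z v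

/-- there is a complete Kähler metric `i∂∂̄ψ` -/
def Cpl : Prop := ∃ ψ η : X → ℝ, A.Sm ψ ∧ A.Sm η ∧ (∀ x ∈ N, 0 ≤ η x) ∧
  (∀ a, IsCompact {x | x ∈ N ∧ η x ≤ a}) ∧ ∀ i, ∀ z ∈ (A.e i).target, ∀ v, v ≠ 0 →
    0 < levi2 (A.c ψ i) z v ∧ fderiv ℝ (A.c η i) z v ^ 2 ≤ levi2 (A.c ψ i) z v

/-- `|∂̄s|² ≤ Λ e^φ i∂∂̄φ` -/
def Db (s : X → ℂ) (φ Λ : X → ℝ) : Prop := ∀ i, ∀ z ∈ (A.e i).target, ∀ v,
  ‖fderiv ℝ (A.c s i) z v + Complex.I * fderiv ℝ (A.c s i) z (Complex.I • v)‖ ^ 2 ≤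
    A.c Λ i z * Real.exp (A.c φ i z) * levi2 (A.c φ i) z v

/-- the weighted norm -/
def L2 (s : X → ℂ) (φ : X → ℝ) : ℝ≥0∞ :=
  ∫⁻ x in N, ENNReal.ofReal (‖s x‖ ^ 2 * Real.exp (-φ x)) ∂A.ν

end Atl

/-- for all atlases -/
def ForA (P : ∀ (E : Type) [NormedAddCommGroup E] [NormedSpace ℂ E] [MeasureSpace E] (X : Type)
    [TopologicalSpace X] [MeasurableSpace X] (N : Set X), Atl E X N → Prop) : Prop :=
  ∀ (E : Type) [NormedAddCommGroup E] [NormedSpace ℂ E] [FiniteDimensional ℂ E] [Nontrivial E]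
    [MeasureSpace E] [BorelSpace E] [(volume : Measure E).IsAddHaarMeasure] (X : Type)
    [TopologicalSpace X] [T2Space X] [MeasurableSpace X] [BorelSpace X] (N : Set X), IsOpen N →
    ∀ A : Atl E X N, P E X N A

/-- **HORD**: the theorem of Hörmander -/
def HORD : Prop := ForA fun _ _ _ _ X _ _ N A => A.Cpl → ∀ (φ Λ : X → ℝ) (s₀ : X → ℂ) (C₀ : ℝ),
  A.Psh φ → A.Sm s₀ → ContinuousOn Λ N → (∀ x ∈ N, 0 ≤ Λ x) → 0 ≤ C₀ → A.Db s₀ φ Λ →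
  ∫⁻ x in N, ENNReal.ofReal (Λ x) ∂A.ν ≤ ENNReal.ofReal C₀ → A.L2 s₀ φ < ⊤ →
  ∃ s, A.Hol s ∧ A.L2 (s - s₀) φ ≤ ENNReal.ofReal C₀

/-- the same when `s₀` is only square integrable for the weights `φ + δ κ` -/
def HORLs : Prop := ForA fun _ _ _ _ X _ _ N A => A.Cpl → ∀ (φ Λ κ : X → ℝ) (s₀ : X → ℂ) (C₀ : ℝ),
  A.Psh φ → A.Sm s₀ → ContinuousOn Λ N → (∀ x ∈ N, 0 ≤ Λ x) → 0 ≤ C₀ → A.Db s₀ φ Λ →
  ∫⁻ x in N, ENNReal.ofReal (Λ x) ∂A.ν ≤ ENNReal.ofReal C₀ → A.Psh κ → (∀ x ∈ N, 0 ≤ κ x) →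
  (∀ δ : ℝ, 0 < δ → A.L2 s₀ (fun x => φ x + δ * κ x) < ⊤) →
  ∃ s, A.Hol s ∧ A.L2 (s - s₀) φ ≤ ENNReal.ofReal C₀

/-- **HORL** -/
def HORL : Prop := HORD → HORLs

end Vale.Agent.P253W.Y
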