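import Vale.Agent.P253W.Defs
import Vale.Agent.P253W.Y.Hord
import Vale.Agent.P253W.Y.Geo

/-!
# P253W, block Y: the model of the tube and its analysis. Statements without manifolds.
-/

open scoped ContDiff ENNReal Topology ComplexConjugate ComplexOrder Matrix
open MeasureTheory Set Metric Filter Vale.Agent.P253Z
open Vale.Agent.P272.K (Cm dz)
open Vale.Agent.P253.R2.H451 (levi2)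

noncomputable section

namespace Vale.Agent.P253W.Y

/-- the total space -/
abbrev P (n : ℕ) : Type := ℂ × Cm n

/-- charts of the total space -/
abbrev Ch (n : ℕ) : Type := OpenPartialHomeomorph (P n) (P n)

/-- the exterior of a disc -/
def ex (ρ : ℝ) : Set ℂ := {τ | ρ < ‖τ‖}

variable {n : ℕ}

/-- the square of the distance from the curve -/
def Dq (G : ℂ → Mx n) (q : P n) : ℝ := qf (G q.1) q.2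

/-- the tube of radius `|τ|^(-a/2)` -/
def Nb (ρ a : ℝ) (G : ℂ → Mx n) : Set (P n) := {q | ρ < ‖q.1‖ ∧ Dq G q < ‖q.1‖ ^ (-a)}

/-- the derivatives of `D` at the point `z` -/
structure Pt (D : P n → ℝ) (z : P n) (H : Mx n) (v : Cm n) (w : P n →L[ℂ] Cm n) (c₁ c₂ : ℝ) :
    Prop where
  sm : ContDiffAt ℝ 2 D z
  pos : H.PosDef
  bij : Function.Bijective fun x => w (0, x)
  val : D z = qf H v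
  d1 : ∀ ξ, fderiv ℝ D z ξ = 2 * (hf H (w ξ) v).re
  d2 : ∀ ξ, |levi2 D z ξ - 4 * qf H (w ξ)| ≤ D z * (c₂ * ‖ξ.1‖ ^ 2 + c₁ * qf H (w ξ))

/-- **LEV**: Levi forms of functions of `D` -/
def LEV (n : ℕ) : Prop := ∀ (D : P n → ℝ) (z : P n) (H : Mx n) (v : Cm n) (w : P n →L[ℂ] Cm n)
  (c₁ c₂ γ γ' : ℝ) (a : ℂ → ℝ), Pt D z H v w c₁ c₂ → ContDiffAt ℝ 2 a z.1 → 1 ≤ ‖z.1‖ → 0 ≤ γ →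
  γ ≤ 1 → 0 ≤ c₁ → 0 ≤ c₂ → 100 * c₁ ≤ ‖z.1‖ ^ γ → ‖z.1‖ ^ γ * D z ≤ 1 →
  (100 * (c₂ + c₁ * D z / ‖z.1‖ ^ 2) ≤ levi2 a z.1 1 → ∀ ξ, 0 ≤ levi2 (fun q : P n =>
    ‖q.1‖ ^ γ * D q * Real.exp (‖q.1‖ ^ γ * D q + a q.1) * ‖q.1‖ ^ γ') z ξ) ∧
  (100 * (c₂ + ‖z.1‖ ^ γ * D z / ‖z.1‖ ^ 2) ≤ levi2 a z.1 1 → ∀ ξ,
    ‖z.1‖ ^ γ * qf H (w ξ) + c₂ * ‖ξ.1‖ ^ 2 ≤ levi2 (fun q : P n => a q.1 + ‖q.1‖ ^ γ * D q) z ξ) ∧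
  (100 * (c₂ + c₁ * D z / ‖z.1‖ ^ 2) ≤ levi2 a z.1 1 → ‖z.1‖ ^ γ * D z ≤ 1 / 2 → ∀ E : P n → ℝ,
    (E = fun q => ‖q.1‖ ^ γ * D q * Real.exp (-(‖q.1‖ ^ γ * D q) - a q.1) * ‖q.1‖ ^ γ') →
    ∃ ξ : P n, ξ.1 = 1 ∧ fderiv ℝ E z ξ = 0 ∧ fderiv ℝ E z (Complex.I • ξ) = 0 ∧ levi2 E z ξ ≤ 0)

/-- **POT**: potentials of logarithmic size -/
def POT : Prop := ∀ (m : ℂ → ℝ) (ρ C η : ℝ), ContDiffOn ℝ ∞ m (ex ρ) → (∀ τ ∈ ex ρ, 0 ≤ m τ) →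
  (∀ τ ∈ ex ρ, m τ ≤ ‖τ‖ ^ C) → ∫⁻ τ in ex ρ, ENNReal.ofReal (m τ) < ⊤ → 0 < η →
  ∃ (ρ' : ℝ) (a : ℂ → ℝ), ContDiffOn ℝ ∞ a (ex ρ') ∧
    ∀ τ ∈ ex ρ', m τ ≤ levi2 a τ 1 ∧ |a τ| ≤ η * Real.log ‖τ‖

/-- **VS**: from the viscosity property to the mean value inequality -/
def VS : Prop := ∀ (g : ℂ → ℝ) (c : ℂ) (R : ℝ), 0 < R → ContinuousOn g (closedBall c R) →
  (∀ τ ∈ closedBall c R, 0 ≤ g τ) →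
  (∀ τ ∈ ball c R, ∀ h : ℂ → ℝ, ContDiff ℝ 2 h → IsLocalMax (fun s => g s - h s) τ →
    0 ≤ levi2 h τ 1) →
  ENNReal.ofReal (g c) * volume (ball c R) ≤ ∫⁻ τ in ball c R, ENNReal.ofReal (g τ)

/-- **MVN**: mean value inequalities for holomorphic functions -/
def MVN (n : ℕ) : Prop := ∃ C : ℝ, 1 ≤ C ∧ ∀ (h : Cm n → ℂ) (c : Cm n) (l : ℝ), 0 < l →
  DifferentiableOn ℂ h (ball c l) →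
  ENNReal.ofReal (‖h c‖ ^ 2 * l ^ (2 * n)) ≤
      ENNReal.ofReal C * ∫⁻ x in ball c l, ENNReal.ofReal (‖h x‖ ^ 2) ∧
    ENNReal.ofReal (‖fderiv ℂ h c‖ ^ 2 * l ^ (2 * n + 2)) ≤
      ENNReal.ofReal C * ∫⁻ x in ball c l, ENNReal.ofReal (‖h x‖ ^ 2)

/-- **NU**: the measure -/
def NU (n : ℕ) : Prop := ∀ (N : Set (P n)) (S : Set ℂ) (I : Type) (e : I → Ch n) (w : I → P n → ℂ)
  (ix : ℂ → I), IsOpen N → MeasurableSet S → (∀ q ∈ N, q.1 ∈ S) → (∀ i, (e i).source ⊆ N) →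
  (∀ q ∈ N, q ∈ (e (ix q.1)).source) → (∀ i, ∀ q ∈ (e i).source, (e i q).1 = q.1) →
  (∀ i j, ∀ z ∈ (e i).target, (e i).symm z ∈ (e j).source →
    AnalyticAt ℂ (fun z => e j ((e i).symm z)) z) →
  (∀ i, ∀ z ∈ (e i).target, AnalyticAt ℂ (w i) z) →
  (∀ i j, ∀ x ∈ (e i).source, x ∈ (e j).source →
    w i (e i x) = (fderiv ℂ (fun z => e j ((e i).symm z)) (e i x)).det * w j (e j x)) →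
  ∃ ν : Measure (P n),
    (∀ i (f : P n → ℝ≥0∞), Measurable f → (∀ x ∉ (e i).source, f x = 0) →
      ∫⁻ x, f x ∂ν = ∫⁻ z in (e i).target, f ((e i).symm z) * ENNReal.ofReal (‖w i z‖ ^ 2)) ∧
    ∀ f : P n → ℝ≥0∞, Measurable f → ∫⁻ q in N, f q ∂ν =
      ∫⁻ τ in S, ∫⁻ x in {x | (τ, x) ∈ (e (ix τ)).target},
        f ((e (ix τ)).symm (τ, x)) * ENNReal.ofReal (‖w (ix τ) (τ, x)‖ ^ 2)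

/-- the regularity of a chart -/
structure Reg (c : Ch n) : Prop where
  fst : ∀ q ∈ c.source, (c q).1 = q.1
  sm : ∀ q ∈ c.source, ContDiffAt ℝ ∞ c q
  sm' : ∀ z ∈ c.target, ContDiffAt ℝ ∞ c.symm z
  ctr : ∀ τ : ℂ, (τ, 0) ∈ c.source → AnalyticAt ℂ (fun s : ℂ => (c (s, 0)).2) τ ∧
    ∀ j, AnalyticAt ℂ (fun s : ℂ => fderiv ℝ (fun y => (c (s, y)).2) 0 (Pi.single j 1)) τ

/-- the estimates from the Jacobi equation -/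
def Jac (C e : ℝ) (G : ℂ → Mx n) (m : ℂ → ℝ) (c : Ch n) : Prop := ∀ z ∈ c.target,
  ∃ (H : Mx n) (v : Cm n) (w : P n →L[ℂ] Cm n),
    Pt (fun q => Dq G (c.symm q)) z H v w (C * ‖z.1‖ ^ (2 * e)) (C * m z.1) ∧ ∀ ξ : P n,
      qf (G z.1) (fderiv ℝ (fun q => (c.symm q).2) z ξ +
          Complex.I • fderiv ℝ (fun q => (c.symm q).2) z (Complex.I • ξ)) ≤
        C * Dq G (c.symm z) ^ 2 *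
          (‖z.1‖ ^ (2 * e) * m z.1 * ‖ξ.1‖ ^ 2 + ‖z.1‖ ^ (4 * e) * qf H (w ξ))

/-- the fibre over `τ` in its own chart -/
structure Fib (C e : ℝ) (G : ℂ → Mx n) (c : Ch n) (τ : ℂ) (Θ : Mx n) : Prop where
  det : Θ.det ≠ 0
  lo : ∀ y, ‖y ᵥ* Θ‖ ^ 2 ≤ C * (‖τ‖ ^ (2 * e) * qf (G τ) y)
  up : ∀ y, ‖τ‖ ^ (2 * e) * qf (G τ) y ≤ C * ‖y ᵥ* Θ‖ ^ 2
  dir : ∀ y, (τ, y) ∈ c.source → ‖(c (τ, y)).2 - y ᵥ* Θ‖ ≤ C * ‖y ᵥ* Θ‖ ^ 2 ∧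
    ‖(c (τ, y)).2‖ ≤ 2 * ‖y ᵥ* Θ‖
  inv : ∀ x, (τ, x) ∈ c.target → ‖(c.symm (τ, x)).2 ᵥ* Θ - x‖ ≤ C * ‖x‖ ^ 2 ∧
    ‖(c.symm (τ, x)).2 ᵥ* Θ‖ ≤ 2 * ‖x‖
  ball : ∀ x, ‖x‖ < ‖τ‖ ^ (-(2 * e)) → (τ, x) ∈ c.target

/-- the model -/
structure Mod (n : ℕ) where
  ρ : ℝ
  e : ℝ
  C : ℝ
  k : Fin n → ℝ
  G : ℂ → Mx n
  m : ℂ → ℝ
  u : P n → ℝ
  A : Atl (P n) (P n) (Nb ρ (4 * e) G)
  ix : ℂ → A.I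
  Θ : ℂ → Mx n
  ρ_ge : 1 ≤ ρ
  e_pos : 0 < e
  e_le : (4 * n + 40) * e ≤ 1
  C_ge : 1 ≤ C
  k_mem : ∀ i, 0 < k i ∧ k i ≤ 1
  G_sm : ∀ i j, ContDiffOn ℝ ∞ (fun τ => G τ i j) (ex ρ)
  G_pos : ∀ τ ∈ ex ρ, (G τ).PosDef
  G_cmp : ∀ τ ∈ ex ρ, ∀ y, wn k τ y ≤ ‖τ‖ ^ e * qf (G τ) y ∧ qf (G τ) y ≤ ‖τ‖ ^ e * wn k τ y
  m_sm : ContDiffOn ℝ ∞ m (ex ρ)
  m_mem : ∀ τ ∈ ex ρ, 0 ≤ m τ ∧ m τ ≤ ‖τ‖ ^ C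
  m_int : ∫⁻ τ in ex ρ, ENNReal.ofReal (m τ) < ⊤
  u_psh : A.Psh u
  reg : ∀ i, Reg (A.e i)
  jac : ∀ i, Jac C e G m (A.e i)
  src : ∀ q ∈ Nb ρ (4 * e) G, q ∈ (A.e (ix q.1)).source
  fib : ∀ τ ∈ ex ρ, Fib C e G (A.e (ix τ)) τ (Θ τ)
  den : ∀ τ ∈ ex ρ, ∀ x, (τ, x) ∈ (A.e (ix τ)).target →
    1 ≤ C * (‖τ‖ ^ (2 * n * e) * (Real.exp (-A.c u (ix τ) (τ, x)) * ‖A.w (ix τ) (τ, x)‖ ^ 2)) ∧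
    ‖τ‖ ^ (2 * n * e) * (Real.exp (-A.c u (ix τ) (τ, x)) * ‖A.w (ix τ) (τ, x)‖ ^ 2) ≤ C
  fub : ∀ f : P n → ℝ≥0∞, Measurable f → ∫⁻ q in Nb ρ (4 * e) G, f q ∂A.ν =
    ∫⁻ τ in ex ρ, ∫⁻ x in {x | (τ, x) ∈ (A.e (ix τ)).target},
      f ((A.e (ix τ)).symm (τ, x)) * ENNReal.ofReal (‖A.w (ix τ) (τ, x)‖ ^ 2)

namespace Mod

variable (B : Mod n)

/-- `Z` is holomorphic on `S` -/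
def Hol (Z : P n → Cm n) (S : Set (P n)) : Prop := ∀ i, ∀ z ∈ (B.A.e i).target,
  (B.A.e i).symm z ∈ S → AnalyticAt ℂ (fun q => Z ((B.A.e i).symm q)) z

/-- the potential -/
structure Pot (ρ' : ℝ) (a : ℂ → ℝ) : Prop where
  ge : B.ρ ≤ ρ'
  sm : ContDiffOn ℝ ∞ a (ex ρ')
  lev : ∀ τ ∈ ex ρ', 100 * (B.C * B.m τ + B.C * ‖τ‖ ^ (-2 - B.e)) ≤ levi2 a τ 1
  bd : ∀ τ ∈ ex ρ', |a τ| ≤ B.e * Real.log ‖τ‖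

/-- the solution of the `∂̄` problem -/
structure L2 (ρ' : ℝ) (Z : P n → Cm n) : Prop where
  hol : B.Hol Z (Nb ρ' ((4 * n + 23) * B.e) B.G)
  l2 : ∀ i, ∫⁻ τ in ex ρ', ENNReal.ofReal (‖τ‖ ^ (-2 - 2 * B.k i + (4 * n + 34) * B.e) *
      ‖τ‖ ^ (2 * n * ((2 * n + 11) * B.e))) *
    ∫⁻ x in ball (0 : Cm n) (‖τ‖ ^ (-((2 * n + 11) * B.e))),
      ENNReal.ofReal (‖Z ((B.A.e (B.ix τ)).symm (τ, x)) i - ((B.A.e (B.ix τ)).symm (τ, x)).2 i‖ ^ 2) < ⊤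

/-- the pointwise bounds -/
def Sup (ρ' : ℝ) (Z : P n → Cm n) : Prop :=
  ∀ q ∈ Nb ρ' ((4 * n + 34) * B.e) B.G, wn B.k q.1 (Z q) ≤ ‖q.1‖ ^ (-((4 * n + 18) * B.e))

/-- the differential along the curve -/
def Jet (ρ' : ℝ) (Z : P n → Cm n) : Prop := ∀ τ ∈ ex ρ', ∀ x : Cm n,
  wn B.k τ (fderiv ℂ (fun y => Z ((B.A.e (B.ix τ)).symm (τ, y))) 0 x - x ᵥ* (B.Θ τ)⁻¹) ≤
    ‖τ‖ ^ (-(8 * B.e)) * wn B.k τ (x ᵥ* (B.Θ τ)⁻¹)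

/-- the holomorphic parametrisation -/
structure Out (ρ' ε : ℝ) (X : P n → P n) : Prop where
  ge : B.ρ ≤ ρ'
  mem : ∀ τ ∈ ex ρ', ∀ y ∈ Flow.sl B.k ε τ, X (τ, y) ∈ Nb B.ρ (4 * B.e) B.G ∧ (X (τ, y)).1 = τ ∧
    ‖(B.A.e (B.ix τ) (X (τ, y))).2‖ ≤ ‖τ‖ ^ (-B.e)
  zero : ∀ τ ∈ ex ρ', X (τ, 0) = (τ, 0)
  inj : ∀ τ ∈ ex ρ', InjOn (fun y => X (τ, y)) (Flow.sl B.k ε τ)
  hol : ∀ τ ∈ ex ρ', ∀ y ∈ Flow.sl B.k ε τ,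
    AnalyticAt ℂ (fun q => B.A.e (B.ix τ) (X q)) (τ, y) ∧
      ∀ᶠ q in 𝓝 (τ, y), X q ∈ (B.A.e (B.ix τ)).source
  met : ∀ τ ∈ ex ρ', ∀ y ∈ Flow.sl B.k ε τ, ∀ v x : Cm n,
    x = fderiv ℂ (fun y' => (B.A.e (B.ix τ) (X (τ, y'))).2) y v →
    wn B.k τ v ≤ 4 * wn B.k τ (x ᵥ* (B.Θ τ)⁻¹) ∧ wn B.k τ (x ᵥ* (B.Θ τ)⁻¹) ≤ 4 * wn B.k τ v

end Mod

/-- **SOL** -/
def SOL (n : ℕ) : Prop := HORLs → LEV n → ∀ (B : Mod n) (ρ' : ℝ) (a : ℂ → ℝ), B.Pot ρ' a →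
  ∃ ρ'' Z, ρ' ≤ ρ'' ∧ B.L2 ρ'' Z

/-- **SUB** -/
def SUB (n : ℕ) : Prop := LEV n → VS → MVN n → ∀ (B : Mod n) (ρ' : ℝ) (a : ℂ → ℝ) (Z : P n → Cm n),
  B.Pot ρ' a → B.L2 ρ' Z → ∃ ρ'', ρ' ≤ ρ'' ∧ B.Sup ρ'' Z

/-- **JET** -/
def JET (n : ℕ) : Prop := MVN 1 → MVN n → ∀ (B : Mod n) (ρ' : ℝ) (Z : P n → Cm n), B.ρ ≤ ρ' →
  B.L2 ρ' Z → ∃ ρ'', ρ' ≤ ρ'' ∧ B.Jet ρ'' Z

/-- **INV** -/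
def INV (n : ℕ) : Prop := ∀ (B : Mod n) (ρ' : ℝ) (Z : P n → Cm n), B.ρ ≤ ρ' →
  B.Hol Z (Nb ρ' ((4 * n + 34) * B.e) B.G) → B.Sup ρ' Z → B.Jet ρ' Z →
  ∃ ρ'' X, B.Out ρ'' ((4 * n + 40) * B.e) X

end Vale.Agent.P253W.Y
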