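import Vale.Agent.P253W.Asm
import Vale.Agent.P253W.Y.Mod
import Vale.Agent.P253W.X.Defs

/-!
# P253W, block Y: charts along a polynomial curve. Statements.
-/

open scoped Manifold ContDiff Bundle ENNReal Topology ComplexConjugate ComplexOrder Matrix
open Bundle IsManifold MeasureTheory Set Metric Filter Vale.Agent.P253.Mfd Vale.Agent.P253Z
open Vale.Agent.P272.K (Cm dz Chart)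
open Vale.Agent.P253.R2.H451 (levi2)

noncomputable section

namespace Vale.Agent.P253W.Y

/-! ### statements without manifolds -/

section pure

variable {n : ℕ}

/-- the data near one point of the curve -/
structure Loc (ρ e C₀ r C₁ : ℝ) (G : ℂ → Mx n) (m : ℂ → ℝ) (τ₀ : ℂ) where
  δ : ℝ
  W : Cm n → Mx n
  ex : Cm n × Cm n → Cm n
  lg : Cm n × Cm n → Cm n
  p : ℂ → Cm n
  Θ : ℂ → Mx n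
  δ_mem : 0 < δ ∧ δ ≤ 1
  sub : ball τ₀ δ ⊆ Y.ex ρ
  sk : SK C₀ (‖τ₀‖ ^ (-e)) W
  geo : Geo r C₁ (‖τ₀‖ ^ (-e)) W ex lg
  p0 : p τ₀ = 0
  p_an : ∀ τ ∈ ball τ₀ δ, AnalyticAt ℂ p τ ∧ ‖p τ‖ < r / 4
  Θ_an : ∀ τ ∈ ball τ₀ δ, (∀ i j, AnalyticAt ℂ (fun s => Θ s i j) τ) ∧ (Θ τ).det ≠ 0
  G_eq : ∀ τ ∈ ball τ₀ δ, ∀ y, qf (G τ) y = qf (W (p τ)) (y ᵥ* Θ τ)
  ric : ∀ τ ∈ ball τ₀ δ, 0 ≤ m τ ∧ RicB W (p τ) (deriv p τ) (‖τ‖ ^ (-(2 * e))) (m τ)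

/-- `c` is the chart of the data -/
structure Loc.Is {ρ e C₀ r C₁ : ℝ} {G : ℂ → Mx n} {m : ℂ → ℝ} {τ₀ : ℂ}
    (L : Loc ρ e C₀ r C₁ G m τ₀) (c : Ch n) : Prop where
  src : c.source = {q | q ∈ Nb ρ (4 * e) G ∧ q.1 ∈ ball τ₀ L.δ}
  fwd : ∀ q, c q = (q.1, L.ex (L.p q.1, q.2 ᵥ* L.Θ q.1))
  bwd : ∀ z, c.symm z = (z.1, L.lg (L.p z.1, z.2) ᵥ* (L.Θ z.1)⁻¹)
  tgt : ∀ z ∈ c.target, z.1 ∈ ball τ₀ L.δ ∧ ‖z.2‖ < r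
  sml : ∀ q ∈ c.source, ‖q.2 ᵥ* L.Θ q.1‖ < r / 4

/-- **CHT1**: the chart -/
def CHT1 (n : ℕ) : Prop := ∀ e C₀ r C₁ : ℝ, 0 < e → e ≤ 1 → 0 < r → 1 ≤ C₁ → ∃ C ρ₁ : ℝ, 1 ≤ C ∧
  ∀ (ρ : ℝ) (G : ℂ → Mx n) (m : ℂ → ℝ) (τ₀ : ℂ) (L : Loc ρ e C₀ r C₁ G m τ₀), ρ₁ ≤ ρ →
    ∃ c : Ch n, L.Is c ∧ Reg c ∧ Fib C e G c τ₀ (L.Θ τ₀)

/-- **CHT2**: the estimates in the chart -/
def CHT2 (n : ℕ) : Prop := ∀ (ρ e C₀ r C₁ : ℝ) (G : ℂ → Mx n) (m : ℂ → ℝ) (τ₀ : ℂ)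
  (L : Loc ρ e C₀ r C₁ G m τ₀) (c : Ch n), 0 < e → e ≤ 1 → 2 ≤ ρ → 1 ≤ C₁ → L.Is c →
    Jac (100 * C₁) e G m c

end pure

/-! ### the manifold -/

variable {n : ℕ} {M : Type} [MetricSpace M] [ChartedSpace (Cm n) M]

/-- holomorphic immersions of the unit ball -/
def Imm (Ψ : Cm n → M) : Prop := Hn Ψ (ball 0 1) ∧ ∀ y ∈ ball (0 : Cm n) 1, (jm Ψ y).det ≠ 0

/-- the pull-back of the volume form -/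
def om (F : Flow n M) (Ψ : Cm n → M) (x : Cm n) : ℂ := (jm Ψ x).det * F.Ω (Ψ x)

variable [RiemannianBundle fun x : M => TangentSpace 𝓘(ℝ, Cm n) x]

/-- the Gram matrix of the frame -/
def Gr (F : Flow n M) (t : ℝ) (f : ℂ → M) (θ : Fin n → ℂ → Cm n) (τ : ℂ) : Mx n :=
  Matrix.of fun i j => hf (F.gx t (f τ)) (θ i τ) (θ j τ)

/-- the charts along the curve -/
structure ChS (F : Flow n M) (d : ℝ → M → M → ℝ) (f : ℂ → M) (t C ρ e : ℝ)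
    (Ψ : ℂ → Cm n → M) : Prop where
  t_mem : t ∈ Icc (1 : ℝ) 2
  e_pos : 0 < e
  ρ_ge : 8 ≤ ρ
  imm : ∀ τ ∈ ex ρ, Imm (Ψ τ)
  zero : ∀ τ ∈ ex ρ, Ψ τ 0 = f τ
  sk : ∀ τ ∈ ex ρ, SK C (‖τ‖ ^ (-e)) (F.pull (Ψ τ) t)
  near : ∀ τ ∈ ex ρ, ∀ y ∈ ball (0 : Cm n) 1, d t (Ψ τ y) (f τ) ≤ 1
  R : ∀ τ ∈ ex ρ, ∀ y ∈ ball (0 : Cm n) 1, ∀ s ∈ Icc (1 : ℝ) 4,
    s * F.R s (Ψ τ y) ≤ Real.log ‖τ‖ / 2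
  near' : ∀ τ ∈ ex ρ, ∀ y ∈ ball (0 : Cm n) 1, d t (Ψ τ y) (f τ) ≤ ‖τ‖ ^ (-e)

/-- the majorant of the Ricci curvature in the direction of the curve -/
structure Maj (F : Flow n M) (f : ℂ → M) (t C ρ e : ℝ) (m : ℂ → ℝ) : Prop where
  sm : ContDiffOn ℝ ∞ m (ex ρ)
  mem : ∀ τ ∈ ex ρ, 0 ≤ m τ ∧ m τ ≤ ‖τ‖ ^ C
  int : ∫⁻ τ in ex ρ, ENNReal.ofReal (m τ) < ⊤
  ric : ∀ τ ∈ ex ρ, ∀ (Ψ : Cm n → M) (p V : Cm n), Imm Ψ →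
    (∀ y ∈ ball (0 : Cm n) 1, ∀ s ∈ Icc (1 : ℝ) 4, s * F.R s (Ψ y) ≤ Real.log ‖τ‖) →
    Ψ p = f τ → dn Ψ p V = d1 n f τ → RicB (F.pull Ψ t) p V (‖τ‖ ^ (-(2 * e))) (m τ)

/-- the model is attached to the curve -/
structure Lk (B : Mod n) (f : ℂ → M) (θ : Fin n → ℂ → Cm n) (Ψ : ℂ → Cm n → M) (E : P n → M) :
    Prop where
  E_eq : ∀ τ ∈ ex B.ρ, ∀ q ∈ (B.A.e (B.ix τ)).source,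
    (B.A.e (B.ix τ) q).2 ∈ ball (0 : Cm n) 1 ∧ E q = Ψ τ (B.A.e (B.ix τ) q).2
  Θ : ∀ τ ∈ ex B.ρ, ∀ y, dn (Ψ τ) 0 (y ᵥ* B.Θ τ) = ∑ i, y i • θ i τ

/-- properties of immersions -/
structure TRs (F : Flow n M) : Prop where
  om_an : ∀ Ψ : Cm n → M, Imm Ψ → ∀ x ∈ ball (0 : Cm n) 1,
    AnalyticAt ℂ (om F Ψ) x ∧ om F Ψ x ≠ 0
  u_eq : ∀ Ψ : Cm n → M, Imm Ψ → ∀ t, 0 ≤ t → ∀ x ∈ ball (0 : Cm n) 1,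
    Real.exp (-F.u t (Ψ x)) * ‖om F Ψ x‖ ^ 2 = (F.pull Ψ t x).det.re
  u_psh : ∀ Ψ : Cm n → M, Imm Ψ → ∀ t, 0 ≤ t → ∀ z : P n, z.2 ∈ ball (0 : Cm n) 1 →
    ContDiffAt ℝ ∞ (fun q : P n => F.u t (Ψ q.2)) z ∧
      ∀ ξ, 0 ≤ levi2 (fun q : P n => F.u t (Ψ q.2)) z ξ
  inj : ∀ Ψ : Cm n → M, Imm Ψ → ∀ y ∈ ball (0 : Cm n) 1, ∃ U ∈ 𝓝 y, InjOn Ψ U
  chain : ∀ (Ψ : Cm n → M) (φ : Cm n → Cm n) (y v : Cm n), Imm Ψ → DifferentiableAt ℂ φ y →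
    φ y ∈ ball (0 : Cm n) 1 → dn (fun x => Ψ (φ x)) y v = dn Ψ (φ y) (fderiv ℂ φ y v)
  jac : ∀ (Ψ : Cm n → M) (z : Fin n → M → ℂ), Imm Ψ → (∀ i, IsSec n 0 (z i)) →
    DifferentiableOn ℂ (fun y i => z i (Ψ y)) (ball 0 1) ∧ ∀ y ∈ ball (0 : Cm n) 1,
      (jc (fun y i => z i (Ψ y)) y).det = F.jc z (Ψ y) * om F Ψ y
  trans : ∀ (Ψ₁ Ψ₂ : Cm n → M) (φ : P n → P n) (z : P n), Imm Ψ₁ → Imm Ψ₂ →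
    z.2 ∈ ball (0 : Cm n) 1 → (φ z).2 ∈ ball (0 : Cm n) 1 → ContinuousAt φ z →
    (∀ᶠ q in 𝓝 z, (φ q).1 = q.1 ∧ Ψ₂ (φ q).2 = Ψ₁ q.2) →
    AnalyticAt ℂ φ z ∧ om F Ψ₁ z.2 = (fderiv ℂ φ z).det * om F Ψ₂ (φ z).2
  lift : ∀ (Ψ : Cm n → M) (f : ℂ → M) (θ : Fin n → ℂ → Cm n) (τ₀ : ℂ) (S : Set ℂ) (r : ℝ), Imm Ψ →
    IsOpen S → τ₀ ∈ S → 0 < r → r ≤ 1 → H1 n f S → (∀ i, Al f (θ i) S) → Ψ 0 = f τ₀ →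
    ∃ (δ : ℝ) (p : ℂ → Cm n) (Θ : ℂ → Mx n), 0 < δ ∧ δ ≤ 1 ∧ ball τ₀ δ ⊆ S ∧ p τ₀ = 0 ∧
      ∀ τ ∈ ball τ₀ δ, AnalyticAt ℂ p τ ∧ ‖p τ‖ < r ∧ Ψ (p τ) = f τ ∧
        dn Ψ (p τ) (deriv p τ) = d1 n f τ ∧ (∀ i j, AnalyticAt ℂ (fun s => Θ s i j) τ) ∧
        ∀ y, dn Ψ (p τ) (y ᵥ* Θ τ) = ∑ i, y i • θ i τ
  gr : ∀ (f : ℂ → M) (θ : Fin n → ℂ → Cm n) (S : Set ℂ) (t : ℝ), IsOpen S → 0 ≤ t → H1 n f S →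
    (∀ i, Al f (θ i) S) → (∀ i j, ContDiffOn ℝ ∞ (fun τ => Gr F t f θ τ i j) S) ∧
      ∀ τ, (Gr F t f θ τ).IsHermitian ∧ ∀ y, qf (Gr F t f θ τ) y = F.nv t (f τ) (∑ i, y i • θ i τ)

/-- uniqueness of geodesics -/
def UNQs (F : Flow n M) : Prop := ∀ (Ψ₁ Ψ₂ : Cm n → M) (t : ℝ) (c₁ c₁' c₂ c₂' : ℝ → Cm n), Imm Ψ₁ →
  Imm Ψ₂ → 0 < t → IsGeo (F.pull Ψ₁ t) (ball 0 1) c₁ c₁' → IsGeo (F.pull Ψ₂ t) (ball 0 1) c₂ c₂' →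
  Ψ₁ (c₁ 0) = Ψ₂ (c₂ 0) → dn Ψ₁ (c₁ 0) (c₁' 0) = dn Ψ₂ (c₂ 0) (c₂' 0) → Ψ₁ (c₁ 1) = Ψ₂ (c₂ 1)

/-- comparison of the metrics on the small balls -/
def METs (F : Flow n M) (d : ℝ → M → M → ℝ) (f : ℂ → M) : Prop :=
  ∀ (t C ρ e : ℝ) (Ψ : ℂ → Cm n → M), ChS F d f t C ρ e Ψ → ∀ η : ℝ, 0 < η → ∃ ρ' : ℝ,
    ∀ τ ∈ ex ρ', ∀ x ∈ ball (0 : Cm n) 1, ∀ v,
      (F.nv 1 (f τ) (dn (Ψ τ) 0 v) ≤ ‖τ‖ ^ η * F.nv 1 (Ψ τ x) (dn (Ψ τ) x v) ∧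
        F.nv 1 (Ψ τ x) (dn (Ψ τ) x v) ≤ ‖τ‖ ^ η * F.nv 1 (f τ) (dn (Ψ τ) 0 v)) ∧
      F.nv t (f τ) v ≤ F.nv 1 (f τ) v ∧ F.nv 1 (f τ) v ≤ ‖τ‖ ^ η * F.nv t (f τ) v

/-- the oscillation of `u` -/
def UUs (F : Flow n M) (d : ℝ → M → M → ℝ) (f : ℂ → M) (ν : ℝ) : Prop :=
  ∀ (t C ρ e : ℝ) (Ψ : ℂ → Cm n → M), ChS F d f t C ρ e Ψ → ∀ η : ℝ, 0 < η → ∃ ρ' : ℝ,
    ∀ τ ∈ ex ρ', ∀ x : Cm n, ‖x‖ ≤ ‖τ‖ ^ (-e) →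
      |F.u 1 (Ψ τ x) - ν * Real.log (‖τ‖ ^ 2)| ≤ η * Real.log ‖τ‖

/-- injectivity of the charts -/
def INJs (F : Flow n M) (d : ℝ → M → M → ℝ) (f : ℂ → M) : Prop :=
  ∀ (t C ρ e : ℝ) (Ψ : ℂ → Cm n → M), ChS F d f t C ρ e Ψ → ∃ ρ' : ℝ,
    ∀ τ ∈ ex ρ', InjOn (Ψ τ) (closedBall 0 (‖τ‖ ^ (-e)))

/-- for all data of section 5 -/
def For3 (X : ∀ (n : ℕ) (M : Type) [MetricSpace M] [ChartedSpace (Cm n) M]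
    [RiemannianBundle fun x : M => TangentSpace 𝓘(ℝ, Cm n) x] [MeasurableSpace M] (μ : Measure M)
    (F : Flow n M) (_ : ℝ → M → M → ℝ) (_ : F.TA μ), Prop) : Prop :=
  ∀ (n : ℕ) (M : Type) [MetricSpace M] [ChartedSpace (Cm n) M] [IsManifold 𝓘(ℂ, Cm n) 1 M]
    [IsManifold 𝓘(ℝ, Cm n) ∞ M] [RiemannianBundle fun x : M => TangentSpace 𝓘(ℝ, Cm n) x]
    [IsContMDiffRiemannianBundle 𝓘(ℝ, Cm n) ∞ (Cm n) fun x : M => TangentSpace 𝓘(ℝ, Cm n) x]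
    [IsRiemannianManifold 𝓘(ℝ, Cm n) M] [CompleteSpace M] [ConnectedSpace M] [NoncompactSpace M]
    [MeasurableSpace M] [BorelSpace M] (μ : Measure M) (F : Flow n M) (A : Fam F) (T : F.TA μ),
    P3 A T → X n M μ F A.d T

/-- **TR** -/
def TR : Prop := For3 fun _ _ _ _ _ _ _ F _ _ => TRs F

/-- **UNQ** -/
def UNQ : Prop := For3 fun n _ _ _ _ _ _ F _ _ => NAT n → TRs F → UNQs F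

/-- **CH**: existence of the charts -/
def CH : Prop := For3 fun _ _ _ _ _ _ _ F d _ => ∀ f ν, F.Curv d f ν → ∀ t ∈ Icc (1 : ℝ) 2,
  ∀ e : ℝ, 0 < e → ∃ C ρ Ψ, ChS F d f t C ρ e Ψ

/-- **TM**: the choice of the time -/
def TM : Prop := For3 fun n _ _ _ _ _ _ F d _ => ∀ f ν, H1 n f univ → F.Curv d f ν →
  ∃ t ∈ Icc (1 : ℝ) 2, ∀ e : ℝ, 0 < e → ∃ C ρ m, Maj F f t C ρ e m

/-- **MET** -/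
def MET : Prop := For3 fun _ _ _ _ _ _ _ F d _ => ∀ f ν, F.Curv d f ν → METs F d f

/-- **UU** -/
def UU : Prop := For3 fun n _ _ _ _ _ _ F d T => X.BC n → TRs F → ∀ f ν, T.PC f → F.Curv d f ν →
  UUs F d f ν

/-- **INJ** -/
def INJ : Prop := For3 fun n _ _ _ _ _ _ F d T => X.INJ n → X.CNT n →
  (X.AllM n fun M _ _ _ _ _ => X.IMM n M) → TRs F → ∀ f ν, T.PC f → F.Curv d f ν → INJs F d f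

/-- **MOD**: construction of the model -/
def MOD : Prop := For3 fun n M _ _ _ _ _ F d _ => GEO n → CHT1 n → CHT2 n → NU n → TRs F → UNQs F →
  ∀ (f : ℂ → M) (k : Fin n → ℝ) (θ : Fin n → ℂ → Cm n) (t C ρ e C' ρ' : ℝ) (Ψ : ℂ → Cm n → M)
    (m : ℂ → ℝ), H1 n f univ → F.Frame f k θ → METs F d f → ChS F d f t C ρ e Ψ →
    Maj F f t C' ρ' e m → (4 * n + 40) * e ≤ 1 →
    ∃ (B : Mod n) (E : P n → M), B.e = e ∧ B.k = k ∧ ρ ≤ B.ρ ∧ Lk B f θ Ψ E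

/-- **FIN**: the tube -/
def FIN : Prop := For3 fun n M _ _ _ _ _ F d T => TRs F →
  ∀ (f : ℂ → M) (ν : ℝ) (θ : Fin n → ℂ → Cm n) (t C ρ ρ' ε : ℝ) (Ψ : ℂ → Cm n → M) (B : Mod n)
    (E : P n → M) (X : P n → P n), T.PC f → F.Frame f B.k θ → METs F d f → UUs F d f ν →
    INJs F d f → ChS F d f t C ρ B.e Ψ → ρ ≤ B.ρ → Lk B f θ Ψ E → B.Out ρ' ε X → 0 < ε →
    (∀ i, ε < B.k i) → Nonempty (T.Tube f ν)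

end Vale.Agent.P253W.Y
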