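import Vale.Agent.P253W.Y.Mod
import Mathlib.Analysis.Complex.Schwarz
import Mathlib.Analysis.Calculus.InverseFunctionTheorem.ContDiff

/-!
# P253W, block Y, row INV: the quantitative inverse function theorem on one fibre
-/

open scoped ContDiff Topology Matrix
open Set Metric Filter
open Vale.Agent.P272.K (Cm)

noncomputable section

namespace Vale.Agent.P253W.Y.InvA

/-- a bounded holomorphic map whose differential at the origin is close to the identity -/
theorem quant {E : Type} [NormedAddCommGroup E] [NormedSpace ℂ E] [CompleteSpace E] {H : E → E}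
    {R₁ R M : ℝ} (hR : 0 < R) (h2 : 2 * R ≤ R₁) (an : AnalyticOnNhd ℂ H (ball 0 R₁))
    (bd : ∀ p ∈ ball (0 : E) R₁, ‖H p‖ ≤ M) (hM : 96 * M * R ≤ R₁ ^ 2)
    (h0 : ‖fderiv ℂ H 0 - ContinuousLinearMap.id ℂ E‖ ≤ 1 / 6) :
    (∀ p ∈ ball (0 : E) R, ∀ v, ‖fderiv ℂ H p v - v‖ ≤ 1 / 3 * ‖v‖) ∧ InjOn H (ball 0 R) ∧
      ∀ r, 0 ≤ r → r < R → SurjOn H (closedBall 0 r) (closedBall (H 0) (2 / 3 * r)) := by
  have R0 : 0 < R₁ / 2 := by linarith
  have M0 : 0 ≤ M := (norm_nonneg _).trans (bd 0 (mem_ball_self (by linarith)))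
  have s1 : ball (0 : E) (R₁ / 2) ⊆ ball 0 R₁ := ball_subset_ball (by linarith)
  have s2 : ball (0 : E) R ⊆ ball 0 (R₁ / 2) := ball_subset_ball (by linarith)
  have k1 : ∀ p ∈ ball (0 : E) (R₁ / 2), ‖fderiv ℂ H p‖ ≤ 2 * M / (R₁ / 2) := fun p hp => by
    have s : ball p (R₁ / 2) ⊆ ball 0 R₁ := ball_subset_ball' (by linarith [mem_ball.1 hp])
    refine Complex.norm_fderiv_le_div_of_mapsTo_ball (an.differentiableOn.mono s) (fun q hq => ?_) R0
    exact mem_closedBall_iff_norm.2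
      ((norm_sub_le _ _).trans (by linarith [bd q (s hq), bd p (s1 hp)]))
  have k2 : ∀ p ∈ ball (0 : E) R, ‖fderiv ℂ H p - ContinuousLinearMap.id ℂ E‖ ≤ 1 / 3 := by
    intro p hp
    have h := Complex.dist_le_div_mul_dist_of_mapsTo_ball (R₂ := 2 * (2 * M / (R₁ / 2)))
      (an.fderiv.differentiableOn.mono s1) (fun q hq => mem_closedBall_iff_norm.2
        ((norm_sub_le _ _).trans (by linarith [k1 q hq, k1 0 (mem_ball_self R0)]))) (s2 hp)
    have h3 : 2 * (2 * M / (R₁ / 2)) / (R₁ / 2) * dist p 0 ≤ 1 / 6 := by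
      refine (mul_le_mul_of_nonneg_left (mem_ball.1 hp).le (by positivity)).trans ?_
      have : 0 < R₁ := by linarith
      field_simp
      linarith
    rw [dist_eq_norm] at h
    linarith [norm_sub_le_norm_sub_add_norm_sub (fderiv ℂ H p) (fderiv ℂ H 0)
      (ContinuousLinearMap.id ℂ E)]
  have k3 : ApproximatesLinearOn H (ContinuousLinearMap.id ℂ E) (ball 0 R) (1 / 3) :=
    fun x hx y hy => by
      simpa using (convex_ball (0 : E) R).norm_image_sub_le_of_norm_fderiv_le'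
        (fun p hp => (an p (s1 (s2 hp))).differentiableAt) k2 hy hx
  refine ⟨fun p hp v => (fderiv ℂ H p - ContinuousLinearMap.id ℂ E).le_of_opNorm_le (k2 p hp) v,
    fun x hx y hy h => ?_, fun r r0 hr => ?_⟩
  · have := k3 x hx y hy
    simp only [h, sub_self, ContinuousLinearMap.id_apply, zero_sub, norm_neg] at this
    refine sub_eq_zero.1 (norm_eq_zero.1 (le_antisymm ?_ (norm_nonneg _)))
    push_cast at this
    linarith
  · have := k3.surjOn_closedBall_of_nonlinearRightInverse ⟨id, 1, fun y => by simp, fun _ => rfl⟩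
      r0 (closedBall_subset_ball hr)
    convert this using 3
    norm_num

/-- analytic local inverses -/
theorem linv {E : Type} [NormedAddCommGroup E] [NormedSpace ℂ E] [FiniteDimensional ℂ E]
    {Φ : E → E} {x : E} (h : AnalyticAt ℂ Φ x) (hA : ∀ v, fderiv ℂ Φ x v = 0 → v = 0) :
    ∃ Ψ : E → E, AnalyticAt ℂ Ψ (Φ x) ∧ Ψ (Φ x) = x ∧ ∀ᶠ y in 𝓝 (Φ x), Φ (Ψ y) = y := by
  have := FiniteDimensional.complete ℂ E
  let L := (LinearEquiv.ofInjectiveEndo (fderiv ℂ Φ x : E →ₗ[ℂ] E)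
    ((injective_iff_map_eq_zero _).2 hA)).toContinuousLinearEquiv
  have d : HasFDerivAt Φ (L : E →L[ℂ] E) x := h.differentiableAt.hasFDerivAt
  have c : ContDiffAt ℂ ω Φ x := h.contDiffAt
  have n0 : (ω : WithTop ℕ∞) ≠ 0 := by simp
  exact ⟨c.localInverse d n0, (c.to_localInverse d n0).analyticAt, c.localInverse_apply_image d n0,
    (c.hasStrictFDerivAt' d n0).eventually_right_inverse⟩

variable {n : ℕ}

/-- the weighted norm is a Euclidean norm -/
theorem ex_L (k : Fin n → ℝ) {τ : ℂ} (hτ : 0 < ‖τ‖) :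
    ∃ L : Cm n ≃L[ℂ] EuclideanSpace ℂ (Fin n), ∀ v, ‖L v‖ ^ 2 = wn k τ v := by
  refine ⟨((LinearEquiv.piCongrRight fun i => LinearEquiv.smulOfNeZero ℂ ℂ
    ((‖τ‖ ^ (-k i) : ℝ) : ℂ) (Complex.ofReal_ne_zero.2 (Real.rpow_pos_of_pos hτ _).ne')).trans
      (WithLp.linearEquiv 2 ℂ _).symm).toContinuousLinearEquiv, fun v => ?_⟩
  rw [EuclideanSpace.norm_sq_eq]
  refine Finset.sum_congr rfl fun i _ => ?_
  change ‖((‖τ‖ ^ (-k i) : ℝ) : ℂ) * v i‖ ^ 2 = _
  rw [norm_mul, Complex.norm_real, Real.norm_of_nonneg (Real.rpow_nonneg hτ.le _), mul_pow,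
    mul_comm, ← Real.rpow_mul_natCast hτ.le]
  congr 2
  push_cast
  ring

theorem ex_T (L : Cm n ≃L[ℂ] EuclideanSpace ℂ (Fin n)) {Θ : Mx n} (h : Θ.det ≠ 0) :
    ∃ T : Cm n ≃L[ℂ] EuclideanSpace ℂ (Fin n), ∀ x, T x = L (x ᵥ* Θ⁻¹) :=
  ⟨(Matrix.toLinearEquivRight'OfInv (Matrix.mul_nonsing_inv Θ h.isUnit)
    (Matrix.nonsing_inv_mul Θ h.isUnit)).toContinuousLinearEquiv.trans L, fun _ => rfl⟩

theorem pw {t e a : ℝ} (ht : 0 < t) (m : ℕ) (h : a = m * e) : t ^ (-a) = (t ^ e)⁻¹ ^ m := by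
  rw [h, Real.rpow_neg ht.le, inv_pow, mul_comm, Real.rpow_mul_natCast ht.le]

theorem nb_open (B : Mod n) {ρ : ℝ} (hρ : B.ρ ≤ ρ) (a : ℝ) : IsOpen (Nb ρ a B.G) := by
  have o : IsOpen {q : P n | ρ < ‖q.1‖} := isOpen_lt continuous_const continuous_fst.norm
  have c1 : ContinuousOn (Dq B.G) {q : P n | ρ < ‖q.1‖} :=
    Complex.continuous_re.comp_continuousOn (continuousOn_finsetSum Finset.univ fun i _ =>
      ((continuous_apply i).comp continuous_snd).continuousOn.mul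
        (continuousOn_finsetSum Finset.univ fun j _ => ((B.G_sm i j).continuousOn.comp
          continuousOn_fst fun _ hq => hρ.trans_lt hq).mul
            ((continuous_apply j).comp continuous_snd).star.continuousOn))
  have c2 : ContinuousOn (fun q : P n => ‖q.1‖ ^ (-a)) {q : P n | ρ < ‖q.1‖} :=
    continuous_fst.norm.continuousOn.rpow_const fun q hq =>
      Or.inl (by linarith [B.ρ_ge, show ρ < ‖q.1‖ from hq] : (0 : ℝ) < ‖q.1‖).ne'
  exact isOpen_iff_mem_nhds.2 fun q hq => inter_mem (o.mem_nhds hq.1)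
    ((c1.continuousAt (o.mem_nhds hq.1)).eventually_lt (c2.continuousAt (o.mem_nhds hq.1)) hq.2)

end Vale.Agent.P253W.Y.InvA
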