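import Vale.Agent.P253W.Y.InvA

/-!
# P253W, block Y, row INV: one fibre
-/

open scoped ContDiff Topology Matrix
open Set Metric Filter
open Vale.Agent.P272.K (Cm)

noncomputable section

namespace Vale.Agent.P253W.Y.InvA

variable {n : ℕ}

theorem nb_mono {ρ ρ' a a' : ℝ} {G : ℂ → Mx n} (h1 : 1 ≤ ρ) (h : ρ ≤ ρ') (ha : a ≤ a') :
    Nb ρ' a' G ⊆ Nb ρ a G := fun _ hq => ⟨h.trans_lt hq.1, hq.2.trans_le
  (Real.rpow_le_rpow_of_exponent_le (by linarith [hq.1]) (by linarith))⟩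

theorem two {E : Type} [NormedAddCommGroup E] {a b : E} (h : ‖a - b‖ ≤ 1 / 3 * ‖b‖) :
    ‖a‖ ^ 2 ≤ 4 * ‖b‖ ^ 2 ∧ ‖b‖ ^ 2 ≤ 4 * ‖a‖ ^ 2 := by
  have h1 := norm_sub_norm_le a b
  have h2 := norm_sub_norm_le b a
  rw [norm_sub_rev] at h2
  constructor <;> nlinarith [norm_nonneg a, norm_nonneg b]

/-- what is needed on one fibre -/
structure Fb (B : Mod n) (S : Set (P n)) (Z : P n → Cm n) (ε : ℝ) (τ : ℂ) : Prop where
  uniq : ∀ q ∈ S, q.1 = τ → ∀ q' ∈ S, q'.1 = τ → Z q = Z q' → q = q'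
  ex : ∀ z ∈ Flow.sl B.k ε τ, ∃ q ∈ S, q.1 = τ ∧ Z q = Z (τ, 0) + z
  small : ∀ q ∈ S, q.1 = τ → ‖(B.A.e (B.ix τ) q).2‖ ≤ ‖τ‖ ^ (-B.e)
  met : ∀ q ∈ S, q.1 = τ → ∀ x v,
    v = fderiv ℂ (fun y => Z ((B.A.e (B.ix τ)).symm (τ, y))) (B.A.e (B.ix τ) q).2 x →
    wn B.k τ v ≤ 4 * wn B.k τ (x ᵥ* (B.Θ τ)⁻¹) ∧ wn B.k τ (x ᵥ* (B.Θ τ)⁻¹) ≤ 4 * wn B.k τ v

/-- comparison of the norms -/
theorem cmp (B : Mod n) {τ : ℂ} (hx : τ ∈ ex B.ρ) {μ : ℝ} (hμ : μ = (‖τ‖ ^ B.e)⁻¹)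
    {T : Cm n ≃L[ℂ] EuclideanSpace ℂ (Fin n)}
    (hT : ∀ x, ‖T x‖ ^ 2 = wn B.k τ (x ᵥ* (B.Θ τ)⁻¹)) :
    (∀ y, μ ^ 2 * ‖y ᵥ* B.Θ τ‖ ^ 2 ≤ B.C * qf (B.G τ) y ∧
      qf (B.G τ) y ≤ B.C * (μ ^ 2 * ‖y ᵥ* B.Θ τ‖ ^ 2)) ∧
    ∀ x, μ ^ 3 * ‖x‖ ^ 2 ≤ B.C * ‖T x‖ ^ 2 ∧ ‖T x‖ ^ 2 ≤ B.C * (μ * ‖x‖ ^ 2) := by
  have t0 : 0 < ‖τ‖ := by linarith [B.ρ_ge, show B.ρ < ‖τ‖ from hx]
  have F := B.fib τ hx
  have a0 := Real.rpow_pos_of_pos t0 B.e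
  have μ0 : 0 < μ := hμ ▸ inv_pos.2 a0
  have C0 : 0 ≤ B.C := by linarith [B.C_ge]
  have l1 : μ * ‖τ‖ ^ B.e = 1 := hμ ▸ inv_mul_cancel₀ a0.ne'
  have l2 : μ ^ 2 * ‖τ‖ ^ (2 * B.e) = 1 := by
    rw [two_mul, Real.rpow_add t0, ← sq, ← mul_pow, l1, one_pow]
  have k : ∀ y, μ ^ 2 * ‖y ᵥ* B.Θ τ‖ ^ 2 ≤ B.C * qf (B.G τ) y ∧
      qf (B.G τ) y ≤ B.C * (μ ^ 2 * ‖y ᵥ* B.Θ τ‖ ^ 2) := fun y =>
    ⟨(mul_le_mul_of_nonneg_left (F.lo y) (sq_nonneg μ)).trans_eq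
      (by linear_combination B.C * qf (B.G τ) y * l2),
    (le_of_eq (by linear_combination -qf (B.G τ) y * l2)).trans
      ((mul_le_mul_of_nonneg_left (F.up y) (sq_nonneg μ)).trans_eq (by ring))⟩
  refine ⟨k, fun x => ?_⟩
  obtain ⟨k1, k2⟩ := k (x ᵥ* (B.Θ τ)⁻¹)
  obtain ⟨g1, g2⟩ := B.G_cmp τ hx (x ᵥ* (B.Θ τ)⁻¹)
  rw [Matrix.vecMul_vecMul, Matrix.nonsing_inv_mul _ F.det.isUnit, Matrix.vecMul_one] at k1 k2
  rw [← hT] at g1 g2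
  have g3 : μ * qf (B.G τ) (x ᵥ* (B.Θ τ)⁻¹) ≤ ‖T x‖ ^ 2 :=
    (mul_le_mul_of_nonneg_left g2 μ0.le).trans_eq (by linear_combination ‖T x‖ ^ 2 * l1)
  refine ⟨by nlinarith [mul_le_mul_of_nonneg_left k1 μ0.le, mul_le_mul_of_nonneg_left g3 C0],
    g1.trans ((mul_le_mul_of_nonneg_left k2 a0.le).trans_eq
      (by linear_combination B.C * μ * ‖x‖ ^ 2 * l1))⟩

theorem fb (B : Mod n) {ρ' ρ'' : ℝ} {Z : P n → Cm n} (hρ : B.ρ ≤ ρ') (hρ' : ρ' ≤ ρ'')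
    (hol : B.Hol Z (Nb ρ' ((4 * n + 34) * B.e) B.G)) (sup : B.Sup ρ' Z) (jet : B.Jet ρ' Z) {τ : ℂ}
    (hτ : ρ'' < ‖τ‖) {μ : ℝ} (hμ : μ = (‖τ‖ ^ B.e)⁻¹) (m1 : 100 * μ ≤ 1)
    (m2 : 4 * B.C ^ 2 * μ < 1) (m3 : n * μ ≤ 1) :
    Fb B (Nb ρ'' ((4 * n + 62) * B.e) B.G) Z ((4 * n + 40) * B.e) τ := by
  have t0 : 0 < ‖τ‖ := by linarith [B.ρ_ge]
  have hx : τ ∈ ex B.ρ := (hρ.trans hρ').trans_lt hτ
  have F := B.fib τ hx
  obtain ⟨L, hL⟩ := ex_L B.k t0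
  obtain ⟨T, hT⟩ := ex_T L F.det
  have hT' : ∀ x, ‖T x‖ ^ 2 = wn B.k τ (x ᵥ* (B.Θ τ)⁻¹) := fun x => by rw [hT, hL]
  obtain ⟨c1, c2⟩ := cmp B hx hμ hT'
  have fst := (B.reg (B.ix τ)).fst
  have μ0 : 0 < μ := hμ ▸ inv_pos.2 (Real.rpow_pos_of_pos t0 B.e)
  have μ1 : μ ≤ 1 := by linarith
  have C1 := B.C_ge
  have e0 := B.e_pos
  have m4 : 4 * B.C * μ < 1 := by nlinarith [mul_pos μ0 (by linarith : 0 < B.C)]
  have pμ : ∀ {a b : ℕ}, a ≤ b → μ ^ b ≤ μ ^ a := fun h => pow_le_pow_of_le_one μ0.le μ1 h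
  obtain ⟨s, hs⟩ : ∃ s, s = μ ^ (2 * n) := ⟨_, rfl⟩
  have s0 : 0 < s := by rw [hs]; positivity
  have s1 : s ≤ 1 := hs ▸ pow_le_one₀ μ0.le μ1
  have pp : ∀ (a : ℝ) (m : ℕ), a = m → ‖τ‖ ^ (-((4 * n + a) * B.e)) = s ^ 2 * μ ^ m := by
    intro a m h
    rw [pw (e := B.e) t0 (4 * n + m) (by rw [h]; push_cast; ring), ← hμ, hs]
    ring
  have src := B.src
  set c := B.A.e (B.ix τ)
  have d1 : ∀ (p : EuclideanSpace ℂ (Fin n)) (m : ℕ), 4 ≤ m → ‖p‖ ≤ s * μ ^ (m + 1) →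
      (τ, T.symm p) ∈ c.target ∧ (c.symm (τ, T.symm p)).1 = τ ∧
        Dq B.G (c.symm (τ, T.symm p)) < s ^ 2 * μ ^ (2 * m) := fun p m hm hp => by
    have h1 := (c2 (T.symm p)).1
    rw [T.apply_symm_apply] at h1
    have h2 : ‖p‖ ^ 2 ≤ μ * (μ * (s ^ 2 * μ ^ (2 * m))) :=
      (pow_le_pow_left₀ (norm_nonneg _) hp 2).trans_eq (by ring)
    have h0 : 0 < s ^ 2 * μ ^ (2 * m) := by positivity
    have h3 : s ^ 2 * μ ^ (2 * m) ≤ μ ^ 8 :=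
      (mul_le_of_le_one_left (by positivity) (pow_le_one₀ s0.le s1)).trans (pμ (by omega))
    have h4 : μ ^ 2 * ‖T.symm p‖ ^ 2 ≤ B.C * (μ * (s ^ 2 * μ ^ (2 * m))) :=
      le_of_mul_le_mul_left (by nlinarith [mul_le_mul_of_nonneg_left h2 (by linarith : 0 ≤ B.C)]) μ0
    have ht : (τ, T.symm p) ∈ c.target := by
      refine F.ball _ ?_
      rw [pw t0 2 (by push_cast; ring), ← hμ]
      refine lt_of_pow_lt_pow_left₀ 2 (by positivity) (lt_of_mul_lt_mul_left ?_ (sq_nonneg μ))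
      have := pμ (show 6 ≤ 8 by norm_num)
      nlinarith
    have e1 : (c.symm (τ, T.symm p)).1 = τ := by
      rw [← fst _ (c.map_target ht), c.right_inv ht]
    refine ⟨ht, e1, ?_⟩
    have h5 := pow_le_pow_left₀ (norm_nonneg _) (F.inv _ ht).2 2
    rw [Dq, e1]
    refine (c1 _).2.trans_lt ?_
    have h6 := mul_le_mul_of_nonneg_left h5 (sq_nonneg μ)
    have h7 := mul_le_mul_of_nonneg_left (h6.trans (by linarith : _ ≤ 4 * (B.C *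
      (μ * (s ^ 2 * μ ^ (2 * m)))))) (by linarith : 0 ≤ B.C)
    nlinarith
  have d2 : ∀ q ∈ Nb ρ'' ((4 * n + 62) * B.e) B.G, q.1 = τ → q ∈ c.source ∧ (c q).1 = τ ∧
      T (c q).2 ∈ ball 0 (s * μ ^ 30) ∧ ‖(c q).2‖ ≤ μ := by
    rintro ⟨σ, y⟩ hq (e : σ = τ)
    subst σ
    have hs := src _ (nb_mono B.ρ_ge (hρ.trans hρ') (by nlinarith) hq)
    have h1 := hq.2
    rw [pp 62 62 (by norm_num), Dq] at h1
    have h2 := mul_le_mul_of_nonneg_left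
      (pow_le_pow_left₀ (norm_nonneg _) (F.dir y hs).2 2) (sq_nonneg μ)
    have h0 : 0 < s ^ 2 * μ ^ 60 := by positivity
    have h3 : ‖(c (τ, y)).2‖ ^ 2 ≤ 4 * B.C * (s ^ 2 * μ ^ 60) :=
      le_of_mul_le_mul_left (by nlinarith [(c1 y).1]) (pow_pos μ0 2)
    refine ⟨hs, fst _ hs, mem_ball_zero_iff.2 (lt_of_pow_lt_pow_left₀ 2 (by positivity)
      ((c2 _).2.trans_lt ?_)), le_of_sq_le_sq ?_ μ0.le⟩
    · nlinarith [mul_le_mul_of_nonneg_left h3 (by positivity : 0 ≤ B.C * μ)]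
    · have h4 : s ^ 2 * μ ^ 60 ≤ μ ^ 3 :=
        (mul_le_of_le_one_left (by positivity) (pow_le_one₀ s0.le s1)).trans (pμ (by omega))
      nlinarith [mul_le_mul_of_nonneg_left h4 (by positivity : 0 ≤ 4 * B.C), sq_nonneg μ]
  have b19 : ∀ p ∈ ball (0 : EuclideanSpace ℂ (Fin n)) (s * μ ^ 19), (τ, T.symm p) ∈ c.target ∧
      (c.symm (τ, T.symm p)).1 = τ ∧ c.symm (τ, T.symm p) ∈ Nb ρ' ((4 * n + 34) * B.e) B.G := by
    intro p hp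
    obtain ⟨h1, h2, h3⟩ := d1 p 18 (by norm_num) (mem_ball_zero_iff.1 hp).le
    refine ⟨h1, h2, by rw [h2]; linarith, ?_⟩
    rw [h2, pp 34 34 (by norm_num)]
    exact h3.trans_le (mul_le_mul_of_nonneg_left (pμ (by norm_num)) (sq_nonneg s))
  have an : ∀ p ∈ ball (0 : EuclideanSpace ℂ (Fin n)) (s * μ ^ 19),
      AnalyticAt ℂ (fun y => Z (c.symm (τ, y))) (T.symm p) := fun p hp =>
    (hol _ _ (b19 p hp).1 (b19 p hp).2.2).comp (analyticAt_const.prod analyticAt_id)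
  have dH : ∀ p ∈ ball (0 : EuclideanSpace ℂ (Fin n)) (s * μ ^ 19), ∀ w,
      fderiv ℂ (fun p => L (Z (c.symm (τ, T.symm p)))) p w =
        L (fderiv ℂ (fun y => Z (c.symm (τ, y))) (T.symm p) (T.symm w)) := fun p hp w => by
    exact DFunLike.congr_fun (L.hasFDerivAt.comp p ((an p hp).differentiableAt.hasFDerivAt.comp p
      T.symm.hasFDerivAt)).fderiv w
  have r1 : 2 * (s * μ ^ 30) ≤ s * μ ^ 19 := by
    nlinarith [mul_le_mul_of_nonneg_left (pμ (show 20 ≤ 30 by norm_num)) s0.le,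
      mul_pos s0 (pow_pos μ0 19)]
  have r0 : 0 < s * μ ^ 30 := by positivity
  obtain ⟨q1, q2, q3⟩ := quant (H := fun p => L (Z (c.symm (τ, T.symm p)))) (M := s * μ ^ 9) r0 r1
    (fun p hp => (L.analyticAt _).comp ((an p hp).comp (T.symm.analyticAt p)))
    (fun p hp => le_of_sq_le_sq (by
      have := sup _ (b19 p hp).2.2
      rw [(b19 p hp).2.1, pp 18 18 (by norm_num)] at this
      rw [hL]
      exact this.trans_eq (by ring)) (by positivity))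
    (by nlinarith [mul_pos (pow_pos s0 2) (pow_pos μ0 38)])
    (ContinuousLinearMap.opNorm_le_bound _ (by norm_num) fun w => le_of_sq_le_sq (by
      have := jet τ (hρ'.trans_lt hτ) (T.symm w)
      rw [← hT', ← hL, map_sub, ← hT, T.apply_symm_apply, pw t0 8 (by push_cast; ring), ← hμ] at this
      rw [sub_apply, dH 0 (mem_ball_self (by positivity)), map_zero, mul_pow]
      exact this.trans (mul_le_mul_of_nonneg_right ((pμ (show 1 ≤ 8 by norm_num)).trans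
        (by linarith)) (sq_nonneg _))) (by positivity))
  have d3 : ∀ q ∈ Nb ρ'' ((4 * n + 62) * B.e) B.G, q.1 = τ → c.symm (τ, T.symm (T (c q).2)) = q := by
    intro q hq e
    rw [T.symm_apply_apply, ← (d2 q hq e).2.1, c.left_inv (d2 q hq e).1]
  refine ⟨fun q hq e q' hq' e' h => ?_, fun z hz => ?_, fun q hq e => ?_, fun q hq e x v hv => ?_⟩
  · rw [← d3 q hq e, ← d3 q' hq' e', q2 (d2 q hq e).2.2.1 (d2 q' hq' e').2.2.1
      (by simp only [d3 q hq e, d3 q' hq' e', h])]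
  · have z0 : c.symm (τ, T.symm 0) = (τ, 0) := by
      obtain ⟨h1, h2, -⟩ := b19 0 (mem_ball_self (by positivity))
      have := (F.inv _ h1).2
      rw [map_zero, norm_zero, mul_zero, norm_le_zero_iff] at this
      rw [map_zero] at h2 ⊢
      exact Prod.ext h2 (Matrix.eq_zero_of_vecMul_eq_zero F.det this)
    have hz' : ‖L z‖ ^ 2 ≤ n * (s ^ 2 * μ ^ 40) ^ 2 := by
      rw [hL, ← pp 40 40 (by norm_num)]
      refine (Finset.sum_le_card_nsmul _ _ ((‖τ‖ ^ (-((4 * n + 40) * B.e))) ^ 2) fun i _ => ?_).trans_eq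
        (by simp)
      refine (mul_le_mul_of_nonneg_right (pow_le_pow_left₀ (norm_nonneg _) (hz i).le 2)
        (Real.rpow_nonneg t0.le _)).trans_eq ?_
      rw [← Real.rpow_mul_natCast t0.le, ← Real.rpow_mul_natCast t0.le, ← Real.rpow_add t0]
      congr 1
      push_cast
      ring
    obtain ⟨p, hp, h⟩ := q3 (s * μ ^ 32) (by positivity) (by
      nlinarith [mul_le_mul_of_nonneg_left (pμ (show 31 ≤ 32 by norm_num)) s0.le])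
      (show L (Z (τ, 0) + z) ∈ _ by
        rw [mem_closedBall_iff_norm, z0, map_add, add_sub_cancel_left]
        refine le_of_sq_le_sq (hz'.trans ?_) (by positivity)
        have h1 : s ^ 2 * μ ^ 15 ≤ μ :=
          (mul_le_of_le_one_left (by positivity) (pow_le_one₀ s0.le s1)).trans
            ((pμ (show 1 ≤ 15 by norm_num)).trans_eq (pow_one μ))
        have h2 : n * μ * (s ^ 2 * μ ^ 15) ≤ 4 / 9 :=
          (mul_le_of_le_one_left (by positivity) m3).trans (by linarith)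
        exact (le_of_eq (by ring)).trans ((mul_le_mul_of_nonneg_right h2
          (sq_nonneg (s * μ ^ 32))).trans_eq (by ring)))
    obtain ⟨-, h2, h3⟩ := d1 p 31 (by norm_num) (mem_closedBall_zero_iff.1 hp)
    exact ⟨_, ⟨by rwa [h2], by rwa [h2, pp 62 62 (by norm_num)]⟩, h2, L.injective h⟩
  · rw [Real.rpow_neg t0.le, ← hμ]
    exact (d2 q hq e).2.2.2
  · have hb := (d2 q hq e).2.2.1
    have := q1 _ hb (T x)
    rw [dH _ (ball_subset_ball (by linarith) hb), T.symm_apply_apply, T.symm_apply_apply,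
      ← hv] at this
    rw [← hL, ← hT']
    exact two this

end Vale.Agent.P253W.Y.InvA
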