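import Vale.Agent.P253W.X.Defs
import Vale.Agent.P253W.Y.InvA
import Vale.Agent.P253Z.JET
import Vale.Agent.P272.K.Inv.Wirt
import Vale.Agent.P268.Hol

/-!
# P253W, block Y: the number of preimages

An auxiliary polynomial in `g` and a linear form which vanishes to a high order at the origin.
-/

open scoped Topology Matrix Nat
open Set Metric Filter Asymptotics Polynomial
open Vale.Agent.P272.K (Cm)

noncomputable section

namespace Vale.Agent.P253W.Y

namespace Mult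

variable {n : ℕ}

theorem lag {ι κ : Type} [Fintype ι] (b : ι → ℂ) (e : ι → ℕ) (s : Finset κ) (v : κ → ℂ)
    {T : ℂ} {Y ε σ : ℝ} (he : ∀ α, e α < s.card) (hY : 1 ≤ Y) (hσ : 0 < σ)
    (hv : ∀ i ∈ s, ∀ j ∈ s, i ≠ j → σ ≤ ‖v i - v j‖) (hT : ∀ j ∈ s, ‖T - v j‖ ≤ Y * σ)
    (h : ∀ i ∈ s, ‖∑ α, b α * v i ^ e α‖ ≤ ε) :
    ‖∑ α, b α * T ^ e α‖ ≤ s.card * (ε * Y ^ s.card) := by
  classical
  have h1 : (∑ α, C (b α) * X ^ e α : ℂ[X]).degree < s.card := mem_degreeLT.1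
    (Submodule.sum_mem _ fun α _ => mem_degreeLT.2
      ((degree_C_mul_X_pow_le _ _).trans_lt (by exact_mod_cast he α)))
  have h2 : ∀ x, (∑ α, C (b α) * X ^ e α : ℂ[X]).eval x = ∑ α, b α * x ^ e α := fun x => by
    simp [eval_finsetSum]
  have h3 : InjOn v s := fun i hi j hj hij => by
    by_contra hc
    have := hv i hi j hj hc
    rw [hij, sub_self, norm_zero] at this
    linarith
  rw [← h2, Lagrange.eq_interpolate h3 h1, Lagrange.interpolate_apply, eval_finsetSum,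
    ← nsmul_eq_mul]
  refine (norm_sum_le _ _).trans (Finset.sum_le_card_nsmul _ _ _ fun i hi => ?_)
  rw [eval_mul, eval_C, norm_mul, h2, Lagrange.basis, eval_prod, norm_prod]
  refine mul_le_mul (h i hi) ((Finset.prod_le_prod (g := fun _ => Y) (fun _ _ => norm_nonneg _)
    fun j hj => ?_).trans ((Finset.prod_const Y).trans_le (pow_le_pow_right₀ hY
      Finset.card_erase_le))) (by positivity) ((norm_nonneg _).trans (h i hi))
  obtain ⟨h4, h5⟩ := Finset.mem_erase.1 hj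
  have h6 := hv i hi j h5 h4.symm
  simp only [Lagrange.basisDivisor, eval_mul, eval_C, eval_sub, eval_X, norm_mul, norm_inv]
  rw [inv_mul_le_iff₀ (hσ.trans_le h6)]
  nlinarith [hT j h5]

theorem sep {κ : Type} (P : Finset κ) (v : κ → Cm n) {r : ℝ} (hr : 0 < r)
    (h : ∀ p ∈ P, r ≤ ‖v p‖) {M : ℕ} (hM : P.card < M) :
    ∃ t : Fin n → Fin M, ∀ p ∈ P, r / 2 ≤ ‖∑ i, ((t i : ℕ) : ℂ) * v p i‖ := by
  classical
  by_contra hc
  push Not at hc
  set bad := fun p => Finset.univ.filter fun t : Fin n → Fin M =>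
    ‖∑ i, ((t i : ℕ) : ℂ) * v p i‖ < r / 2 with hbad
  have h1 : ∀ p ∈ P, (bad p).card * M ≤ M ^ n := fun p hp => by
    obtain ⟨c, hc⟩ : ∃ c, r ≤ ‖v p c‖ := by
      by_contra h2
      push Not at h2
      exact absurd ((pi_norm_lt_iff hr).2 h2) (not_lt.2 (h p hp))
    have h2 := Finset.card_le_card_of_injOn (s := bad p ×ˢ (Finset.univ : Finset (Fin M)))
      (t := Finset.univ) (fun q => Function.update q.1 c q.2) (fun _ _ => Finset.mem_univ _) ?_
    · simpa using h2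
    rintro ⟨t, k⟩ h3 ⟨t', k'⟩ h4 h5
    have h6 : ∀ i, i ≠ c → t i = t' i := fun i hi => by simpa [hi] using congrFun h5 i
    have h7 : ∑ i, ((t i : ℕ) : ℂ) * v p i - ∑ i, ((t' i : ℕ) : ℂ) * v p i =
        (((t c : ℤ) - (t' c : ℤ) : ℤ) : ℂ) * v p c := by
      rw [← Finset.sum_sub_distrib, Finset.sum_eq_single c (fun i _ hi => by simp [h6 i hi])
        (by simp)]
      push_cast
      ring
    have h8 := norm_sub_le (∑ i, ((t i : ℕ) : ℂ) * v p i) (∑ i, ((t' i : ℕ) : ℂ) * v p i)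
    simp only [hbad, Finset.coe_product, mem_prod, Finset.coe_filter, mem_ofPred_eq] at h3 h4
    rw [h7, norm_mul, Complex.norm_intCast, ← Int.cast_abs] at h8
    have h9 : (|(t c : ℤ) - (t' c : ℤ)| : ℤ) < 1 := by
      by_contra h9
      have : (1 : ℝ) ≤ (|(t c : ℤ) - (t' c : ℤ)| : ℤ) := by exact_mod_cast not_lt.1 h9
      nlinarith [h3.1.2, h4.1.2]
    refine Prod.ext (funext fun i => ?_) (by simpa using congrFun h5 c)
    by_cases hi : i = c
    · rw [hi]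
      exact Fin.ext (Int.natCast_inj.1 (sub_eq_zero.1 (Int.abs_lt_one_iff.1 h9)))
    · exact h6 i hi
  have h2 : M ^ n ≤ ∑ p ∈ P, (bad p).card := by
    refine le_trans ?_ Finset.card_biUnion_le
    have := Finset.card_le_card (s := Finset.univ) (t := P.biUnion bad) fun t _ => by
      simpa [hbad] using hc t
    simpa using this
  have h3 := (Nat.mul_le_mul_right M h2).trans
    ((Finset.sum_mul _ _ _).trans_le (Finset.sum_le_card_nsmul _ _ _ h1))
  rw [smul_eq_mul, mul_comm] at h3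
  exact absurd (Nat.le_of_mul_le_mul_right h3 (by positivity [show 0 < M by omega])) (by omega)

/-- the auxiliary polynomial -/
def Q {N : ℕ} (c : (Fin (n + 1) → Fin N) → ℂ) (T : ℂ) (z : Cm n) : ℂ :=
  ∑ α, c α * (T ^ (α 0 : ℕ) * ∏ j, z j ^ (α j.succ : ℕ))

theorem Q_zero {N : ℕ} {c : (Fin (n + 1) → Fin N) → ℂ} {r : ℝ} (hr : 0 < r)
    (h : ∀ T z, ‖T‖ ≤ r → ‖z‖ ≤ r → Q c T z = 0) : c = 0 := by
  let f : (Fin (n + 1) → Fin N) → Fin (n + 1) →₀ ℕ := fun α =>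
    Finsupp.equivFunOnFinite.symm fun o => α o
  have h1 : Function.Injective f := fun α β hαβ => funext fun o =>
    Fin.ext (congrFun (Finsupp.equivFunOnFinite.symm.injective hαβ) o)
  refine funext (Fintype.linearIndependent_iff.1
    ((MvPolynomial.basisMonomials (Fin (n + 1)) ℂ).linearIndependent.comp f h1) c ?_)
  refine MvPolynomial.funext_set (fun _ => closedBall 0 r)
    (fun _ => infinite_of_mem_nhds 0 (closedBall_mem_nhds _ hr)) fun x hx => ?_
  rw [map_zero, ← h (x 0) (fun j => x j.succ) (by simpa using hx 0 trivial)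
    ((pi_norm_le_iff_of_nonneg hr.le).2 fun j => by simpa using hx j.succ trivial), Q, map_sum]
  refine Finset.sum_congr rfl fun α _ => ?_
  simp [MvPolynomial.eval_monomial, Finsupp.prod_fintype, f, Fin.prod_univ_succ]

theorem core {κ : Type} {G : Cm n → Cm n} {l : Cm n → ℂ} (hG : DifferentiableOn ℂ G (ball 0 1))
    (hl : DifferentiableOn ℂ l (ball 0 1)) {a R σ δ Y : ℝ} {D : ℕ} (S : Finset κ)
    (bG : ∀ y ∈ ball (0 : Cm n) 1, ‖G y‖ ≤ a) (bl : ∀ y ∈ ball (0 : Cm n) 1, ‖l y‖ ≤ R)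
    (hsol : ∀ z, ‖z‖ ≤ δ → ∃ p : κ → Cm n, (∀ j ∈ S, ‖p j‖ ≤ 3 / 4 ∧ G (p j) = z) ∧
      ∀ i ∈ S, ∀ j ∈ S, i ≠ j → σ ≤ ‖l (p i) - l (p j)‖)
    (hσ : 0 < σ) (hδ : 0 < δ) (hδa : δ ≤ a) (hR : 0 < R) (hN : 1 ≤ S.card)
    (h1 : ((n * S.card + 1 : ℕ) : ℝ) ≤ Y) (h2 : (S.card : ℝ) ≤ Y) (h3 : 2 * R ≤ Y * σ)
    (h4 : 1 ≤ Y * (δ / a / (n * S.card + 1 : ℕ)))
    (hD : Y ^ ((n + 4) * S.card) * (3 / 4) ^ (D + 1) < 1) :
    S.card ^ (n + 1) ≤ (D + 1) ^ n := by
  set N := S.card with hNS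
  set d := n * N + 1 with hd
  have hY : 1 ≤ Y := le_trans (by exact_mod_cast hN) h2
  have ha := hδ.trans_le hδa
  let T := Fintype.linearCombination ℂ fun (α : Fin (n + 1) → Fin N) (y : Cm n) =>
    l y ^ (α 0 : ℕ) * ∏ j, G y j ^ (α j.succ : ℕ)
  have hT : ∀ c, T c = fun y => Q c (l y) (G y) := fun c => by
    funext y
    simp [T, Fintype.linearCombination_apply, Q]
  have hd' : ∀ c, DifferentiableOn ℂ (T c) (ball 0 1) := fun c => by
    rw [hT]
    exact DifferentiableOn.fun_sum fun α _ => ((hl.pow _).mul fun y hy =>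
      (HasFDerivWithinAt.finsetProd fun j _ => ((differentiableOn_pi.1 hG j).pow (α j.succ) y
        hy).hasFDerivWithinAt).differentiableWithinAt).const_mul _
  have key := (P253Z.jet n (D + 1) _ T (fun c => P268.analyticAt_of_differentiableOn isOpen_ball
    (hd' c) (mem_ball_self one_pos)) fun c hc => ?_).2
  · simpa using key
  obtain ⟨⟨T₀, z₀⟩, ⟨q1, q2⟩, hq⟩ := ((isCompact_closedBall (0 : ℂ) R).prod
    (isCompact_closedBall (0 : Cm n) a)).exists_isMaxOn ⟨(0, 0), by simp [hR.le, ha.le]⟩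
    (f := fun q => ‖Q c q.1 q.2‖) (by unfold Q; fun_prop)
  rw [mem_closedBall_zero_iff] at q1 q2
  set B := ‖Q c T₀ z₀‖ with hB
  have hq' : ∀ T z, ‖T‖ ≤ R → ‖z‖ ≤ a → ‖Q c T z‖ ≤ B := fun T z h5 h6 =>
    hq (a := (T, z)) ⟨mem_closedBall_zero_iff.2 h5, mem_closedBall_zero_iff.2 h6⟩
  have c0 : T c 0 = 0 := hc.eq_zero_imp.self_of_nhds (by simp)
  have c1 : ∀ y : Cm n, ‖y‖ ≤ 3 / 4 → ‖Q c (l y) (G y)‖ ≤ B * (3 / 4) ^ (D + 1) := fun y hy => by
    have h5 := Complex.dist_le_mul_div_pow_of_mapsTo_ball_of_isLittleO (n := D) (R₂ := B) (z := y)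
      (hd' c) (fun x hx => by
        rw [c0, mem_closedBall_zero_iff, hT]
        exact hq' _ _ (bl x hx) (bG x hx)) (by
        simp only [c0, sub_zero]
        exact hc.trans_isLittleO
          ((isLittleO_pow_pow D.lt_succ_self).comp_tendsto tendsto_norm_zero))
      (mem_ball_zero_iff.2 (by linarith))
    rw [c0, dist_zero_right, dist_zero_right, div_one, hT] at h5
    exact h5.trans (by gcongr)
  have c2 : ∀ z, ‖z‖ ≤ δ → ‖Q c T₀ z‖ ≤ N * (B * (3 / 4) ^ (D + 1) * Y ^ N) := fun z hz => by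
    obtain ⟨p, p1, p2⟩ := hsol z hz
    have e : ∀ T, Q c T z = ∑ α, (c α * ∏ j, z j ^ (α j.succ : ℕ)) * T ^ (α 0 : ℕ) := fun T =>
      Finset.sum_congr rfl fun α _ => by ring
    have h5 := lag (fun α => c α * ∏ j, z j ^ (α j.succ : ℕ)) (fun α => α 0) S
      (fun j => l (p j)) (T := T₀) (ε := B * (3 / 4) ^ (D + 1)) (fun α => (α 0).2) hY hσ p2
      (fun j hj => (norm_sub_le _ _).trans (by
        linarith [bl (p j) (mem_ball_zero_iff.2 (by linarith [(p1 j hj).1]))]))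
      fun j hj => by rw [← e, ← (p1 j hj).2]; exact c1 _ (p1 j hj).1
    rwa [← e] at h5
  have hd0 : (0 : ℝ) < d := by positivity
  have hs : 0 < δ / a / d := by positivity
  have hk : ∀ k ∈ Finset.range d, (k : ℝ) * (δ / a / d) ≤ δ / a := fun k hk => by
    rw [mul_div_assoc', div_le_iff₀ hd0, mul_comm]
    exact mul_le_mul_of_nonneg_left (by exact_mod_cast (Finset.mem_range.1 hk).le) (by positivity)
  have e : ∀ s : ℂ, Q c T₀ (s • z₀) = ∑ α, c α * (T₀ ^ (α 0 : ℕ) * ∏ j, z₀ j ^ (α j.succ : ℕ)) *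
      s ^ ∑ j : Fin n, (α j.succ : ℕ) := fun s => Finset.sum_congr rfl fun α _ => by
    simp only [Pi.smul_apply, smul_eq_mul, mul_pow, Finset.prod_mul_distrib,
      Finset.prod_pow_eq_pow_sum]
    ring
  have c3 := lag (fun α => c α * (T₀ ^ (α 0 : ℕ) * ∏ j, z₀ j ^ (α j.succ : ℕ)))
    (fun α => ∑ j : Fin n, (α j.succ : ℕ)) (Finset.range d)
    (fun k => ((k * (δ / a / d) : ℝ) : ℂ)) (T := 1) (ε := N * (B * (3 / 4) ^ (D + 1) * Y ^ N))
    (fun α => by
      have := Finset.sum_le_card_nsmul Finset.univ (fun j : Fin n => (α j.succ : ℕ)) N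
        fun j _ => (α j.succ).2.le
      simp only [Finset.card_univ, Fintype.card_fin, smul_eq_mul] at this
      rw [Finset.card_range]
      omega) hY hs
    (fun i _ j _ hij => by
      rw [← Complex.ofReal_sub, Complex.norm_real, ← sub_mul, norm_mul, Real.norm_of_nonneg hs.le]
      refine le_mul_of_one_le_left hs.le ?_
      have := Int.one_le_abs (sub_ne_zero.2 (Int.natCast_inj.ne.2 hij))
      rw [Real.norm_eq_abs]
      exact_mod_cast this)
    (fun j hj => le_trans (by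
      rw [← Complex.ofReal_one, ← Complex.ofReal_sub, Complex.norm_real, Real.norm_eq_abs, abs_le]
      constructor <;> linarith [hk j hj, (div_le_one ha).2 hδa, mul_nonneg j.cast_nonneg hs.le])
      h4)
    fun k hk' => by
      rw [← e]
      refine c2 _ ?_
      rw [norm_smul, Complex.norm_real, Real.norm_of_nonneg (by positivity)]
      exact (mul_le_mul (hk k hk') q2 (norm_nonneg _) (by positivity)).trans_eq (by field_simp)
  rw [← e, one_smul, Finset.card_range, ← hB] at c3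
  have c4 : (d : ℝ) * (N * (B * (3 / 4) ^ (D + 1) * Y ^ N) * Y ^ d) ≤
      B * (Y ^ ((n + 4) * N) * (3 / 4) ^ (D + 1)) := by
    calc _ ≤ Y * (Y * (B * (3 / 4) ^ (D + 1) * Y ^ N) * Y ^ d) := by gcongr
      _ = B * (Y ^ (N + d + 2) * (3 / 4) ^ (D + 1)) := by ring
      _ ≤ _ := by
        gcongr
        rw [hd]
        nlinarith
  have c5 : B ≤ 0 := by nlinarith [norm_nonneg (Q c T₀ z₀)]
  exact Q_zero (lt_min hR ha) fun T z h5 h6 => norm_le_zero_iff.1
    ((hq' T z (h5.trans (min_le_left _ _)) (h6.trans (min_le_right _ _))).trans c5)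

theorem loc {g : Cm n → Cm n} {A E : ℝ} {y₀ : Cm n} (hA : 2 ≤ A)
    (hg : DifferentiableOn ℂ g (ball 0 1)) (hb : ∀ y ∈ ball (0 : Cm n) 1, ‖g y‖ ≤ A)
    (hy : ‖y₀‖ ≤ 1 / 2) (hJ : 1 ≤ A * ‖(jc g y₀).det‖) (h4 : 4 ≤ E)
    (hE : 768 * (n * (A * (n ! * (2 * A) ^ n))) * A ≤ E) :
    (∀ y, ‖y - y₀‖ < E⁻¹ → g y = g y₀ → y = y₀) ∧
      ∀ r, 0 ≤ r → r < E⁻¹ → ∀ z, ‖z‖ ≤ r * E⁻¹ → ∃ y, ‖y - y₀‖ ≤ r ∧ g y = g y₀ + z := by
  set β : ℝ := n * (A * (n ! * (2 * A) ^ n)) with hβ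
  have hβ0 : 0 ≤ β := by positivity
  have hE0 : 0 < E := by linarith
  have hm : ∀ p ∈ ball (0 : Cm n) (1 / 2), y₀ + p ∈ ball (0 : Cm n) 1 := fun p hp =>
    mem_ball_zero_iff.2 (by linarith [norm_add_le y₀ p, mem_ball_zero_iff.1 hp])
  have hs : ball y₀ (1 / 2) ⊆ ball 0 1 := fun y hy => by
    simpa using hm (y - y₀) (mem_ball_zero_iff.2 (mem_ball_iff_norm.1 hy))
  have h0 : y₀ ∈ ball (0 : Cm n) 1 := hs (mem_ball_self (by norm_num))
  have hd := hg.differentiableAt (isOpen_ball.mem_nhds h0)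
  set J := jc g y₀ with hJ'
  have hJa : ∀ p i, J p i = fderiv ℂ g y₀ (Pi.single i 1) p := P272.K.jmat_apply hd
  have hJv : ∀ v, fderiv ℂ g y₀ v = J *ᵥ v := fun v => by
    funext p
    conv_lhs => rw [pi_eq_sum_univ' v]
    simp [Matrix.mulVec, dotProduct, hJa, mul_comm]
  have hdet : J.det ≠ 0 := fun h => by
    rw [h, norm_zero, mul_zero] at hJ
    linarith
  have h1 : ∀ p i, ‖J p i‖ ≤ 2 * A := fun p i => by
    have := P268.norm_fderiv_le_of_ball (by norm_num) (hg.mono hs) fun y hy => hb y (hs hy)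
    rw [hJa]
    refine (norm_le_pi_norm _ p).trans (((fderiv ℂ g y₀).le_opNorm _).trans ?_)
    rw [Pi.norm_single, norm_one]
    linarith
  have h2 : ∀ i j, ‖J⁻¹ i j‖ ≤ A * (n ! * (2 * A) ^ n) := fun i j => by
    rw [Matrix.inv_def, Ring.inverse_eq_inv', Matrix.smul_apply, smul_eq_mul, norm_mul, norm_inv,
      Matrix.adjugate_apply]
    refine mul_le_mul ((inv_le_iff_one_le_mul₀ (norm_pos_iff.2 hdet)).2 hJ) ?_ (norm_nonneg _)
      (by linarith)
    have h5 : ∀ p q, ‖J.updateRow j (Pi.single i 1) p q‖ ≤ 2 * A := fun p q => by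
      by_cases hp : p = j
      · rw [hp, Matrix.updateRow_self]
        exact (norm_le_pi_norm _ q).trans (by rw [Pi.norm_single, norm_one]; linarith)
      · rw [Matrix.updateRow_ne hp]
        exact h1 p q
    exact (Matrix.det_le (abv := IsAbsoluteValue.toAbsoluteValue (‖·‖ : ℂ → ℝ)) h5).trans_eq
      (by simp)
  have h3 : ∀ v, ‖J⁻¹ *ᵥ v‖ ≤ β * ‖v‖ := fun v =>
    (pi_norm_le_iff_of_nonneg (by positivity)).2 fun i =>
      (norm_sum_le _ fun j => J⁻¹ i j * v j).trans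
      ((Finset.sum_le_card_nsmul _ _ (A * (n ! * (2 * A) ^ n) * ‖v‖) fun j _ => by
        rw [norm_mul]
        exact mul_le_mul (h2 i j) (norm_le_pi_norm _ j) (norm_nonneg _) (by positivity)).trans_eq
        (by simp [hβ, mul_assoc]))
  let L : Cm n →L[ℂ] Cm n := LinearMap.toContinuousLinearMap (Matrix.mulVecLin J⁻¹)
  have hL : ∀ v, L v = J⁻¹ *ᵥ v := fun _ => rfl
  have hinv : ∀ v, J *ᵥ L v = v := fun v => by
    rw [hL, Matrix.mulVec_mulVec, Matrix.mul_nonsing_inv _ hdet.isUnit, Matrix.one_mulVec]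
  have hf : HasFDerivAt (fun p => L (g (y₀ + p) - g y₀)) (L.comp (fderiv ℂ g y₀)) 0 :=
    L.hasFDerivAt.comp 0 (((hasFDerivAt_comp_add_left y₀).2
      ((add_zero y₀).symm ▸ hd.hasFDerivAt)).sub_const _)
  obtain ⟨-, q1, q2⟩ := InvA.quant (H := fun p => L (g (y₀ + p) - g y₀)) (R₁ := 1 / 2) (R := E⁻¹)
    (M := β * (2 * A)) (by positivity) (by linarith [inv_anti₀ (by norm_num) h4])
    (P268.analyticOnNhd_of_differentiableOn isOpen_ball (L.differentiable.comp_differentiableOn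
      ((hg.comp (by fun_prop) hm).sub_const _)))
    (fun p hp => (h3 _).trans (mul_le_mul_of_nonneg_left
      ((norm_sub_le _ _).trans (by linarith [hb _ (hm p hp), hb _ h0])) hβ0))
    (by rw [← div_eq_mul_inv, div_le_iff₀ hE0]; linarith) (by
      have : L.comp (fderiv ℂ g y₀) = ContinuousLinearMap.id ℂ _ := by
        ext1 v
        rw [ContinuousLinearMap.comp_apply, hL, hJv, Matrix.mulVec_mulVec,
          Matrix.nonsing_inv_mul _ hdet.isUnit, Matrix.one_mulVec]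
        rfl
      rw [hf.fderiv, this]
      simp)
  refine ⟨fun y h5 h6 => sub_eq_zero.1 (q1 (mem_ball_zero_iff.2 h5) (mem_ball_self (by positivity))
    (by simp [h6])), fun r hr hr' z hz => ?_⟩
  obtain ⟨p, p1, p2⟩ := q2 r hr hr' (a := L z) (by
    have h5 : β * E⁻¹ ≤ 2 / 3 := by
      rw [← div_eq_mul_inv, div_le_iff₀ hE0]
      nlinarith
    simp only [add_zero, sub_self, map_zero, mem_closedBall_zero_iff]
    rw [hL]
    nlinarith [h3 z, mul_le_mul_of_nonneg_left hz hβ0, mul_le_mul_of_nonneg_left h5 hr])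
  refine ⟨y₀ + p, by simpa using p1, ?_⟩
  have h5 := congrArg (J *ᵥ ·) p2
  simp only [hinv] at h5
  rw [← h5, add_sub_cancel]

theorem root {c L x : ℝ} (hc : 0 < c) (hn : 0 < n) (hL : 1 / 2 ≤ L) (hx : 1 ≤ x)
    (h : x ≤ (c * (L + Real.log x)) ^ n) :
    x ≤ (2 * c + 4 * (c * n) * |Real.log (2 * (c * n))|) ^ n * L ^ n := by
  set u := c * (L + Real.log x) with hu
  have h0 : 0 < u := mul_pos hc (by linarith [Real.log_nonneg hx])
  have h1 : 0 < 2 * (c * n) := by positivity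
  have h2 := Real.log_le_log (by linarith) h
  have h3 := Real.log_le_sub_one_of_pos (div_pos h0 h1)
  rw [Real.log_pow] at h2
  rw [Real.log_div h0.ne' h1.ne'] at h3
  have h4 : c * n * (u / (2 * (c * n))) = u / 2 := by field_simp
  rw [← mul_pow]
  refine h.trans (pow_le_pow_left₀ h0.le ?_ n)
  have h5 := mul_le_mul_of_nonneg_left h2 hc.le
  have h6 := mul_le_mul_of_nonneg_left h3 (by positivity : 0 ≤ c * n)
  have h7 := mul_le_mul_of_nonneg_left (le_abs_self (Real.log (2 * (c * n))))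
    (by positivity : 0 ≤ c * n)
  have h8 := mul_le_mul_of_nonneg_left hL
    (by positivity : 0 ≤ c * n * |Real.log (2 * (c * n))|)
  nlinarith

theorem main {g : Cm n → Cm n} {w : Cm n} {A E R Y d : ℝ} {S : Finset (Cm n)} {D : ℕ}
    (hA : 2 ≤ A) (hg : DifferentiableOn ℂ g (ball 0 1)) (hb : ∀ y ∈ ball (0 : Cm n) 1, ‖g y‖ ≤ A)
    (hS : ∀ y ∈ S, ‖y‖ ≤ 1 / 2 ∧ g y = w) (hl : ∀ y₀ ∈ S,
      (∀ y, ‖y - y₀‖ < E⁻¹ → g y = g y₀ → y = y₀) ∧
      ∀ r, 0 ≤ r → r < E⁻¹ → ∀ z, ‖z‖ ≤ r * E⁻¹ → ∃ y, ‖y - y₀‖ ≤ r ∧ g y = g y₀ + z)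
    (hn : (1 : ℝ) ≤ n) (hN : 1 ≤ S.card) (hE4 : 4 ≤ E) (hR : R = n * (S.card * S.card + 1))
    (hd : d = (n * S.card + 1 : ℕ)) (hY : Y = d * (16 * A * R * E ^ 2))
    (hD : 4 * (((n + 4) * S.card : ℕ) * Real.log Y) ≤ D) : S.card ^ (n + 1) ≤ (D + 1) ^ n := by
  classical
  obtain ⟨y₁, hy₁⟩ := Finset.card_pos.1 hN
  have hN' : (1 : ℝ) ≤ S.card := by exact_mod_cast hN
  have hE0 : 0 < E⁻¹ := by positivity
  obtain ⟨t, ht⟩ := sep S.offDiag (fun p => p.1 - p.2) hE0 (fun p hp => by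
    obtain ⟨h1, h2, h3⟩ := Finset.mem_offDiag.1 hp
    exact not_lt.1 fun h => h3 ((hl _ h2).1 _ h ((hS _ h1).2.trans (hS _ h2).2.symm)))
    (M := S.card * S.card + 1) (by rw [Finset.offDiag_card]; omega)
  have hR1 : 1 ≤ R :=
    hR ▸ one_le_mul_of_one_le_of_one_le hn (le_add_of_nonneg_left (by positivity))
  have bl : ∀ v : Cm n, ‖∑ i, ((t i : ℕ) : ℂ) * v i‖ ≤ R * ‖v‖ := fun v => (norm_sum_le _ _).trans
    ((Finset.sum_le_card_nsmul _ _ ((S.card * S.card + 1) * ‖v‖) fun i _ => by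
      rw [norm_mul, Complex.norm_natCast]
      exact mul_le_mul (by exact_mod_cast (t i).2.le) (norm_le_pi_norm _ i) (norm_nonneg _)
        (by positivity)).trans_eq (by simp [hR, mul_assoc]))
  have hd1 : S.card ≤ d := by
    rw [hd]
    push_cast
    nlinarith
  have h1 : 8 * R * E ≤ 16 * A * R * E ^ 2 := by
    have := mul_le_mul (by linarith : 1 ≤ 2 * A) (by linarith : 1 ≤ E) zero_le_one (by linarith)
    nlinarith [mul_le_mul_of_nonneg_left this (by positivity : 0 ≤ 8 * R * E)]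
  have h2 : d ≤ Y := hY ▸ le_mul_of_one_le_right (by linarith) (by nlinarith)
  have h3 : 8 * R * E ≤ Y := hY ▸ h1.trans (le_mul_of_one_le_left (by positivity) (by linarith))
  have hr : E⁻¹ / (8 * R) ≤ E⁻¹ / 8 := by gcongr; linarith
  have hE' : E⁻¹ ≤ 1 / 4 := by linarith [inv_anti₀ (by norm_num) hE4]
  have hw : ‖w‖ ≤ A :=
    (hS _ hy₁).2 ▸ hb y₁ (mem_ball_zero_iff.2 (by linarith [(hS _ hy₁).1]))
  refine core (G := fun y => g y - w) (l := fun y => ∑ i, ((t i : ℕ) : ℂ) * y i)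
    (a := 2 * A) (R := R) (σ := E⁻¹ / 4) (δ := E⁻¹ / (8 * R) * E⁻¹) (Y := Y) (D := D)
    (hg.sub_const w) (by fun_prop) S
    (fun y hy => (norm_sub_le _ _).trans (by linarith [hb y hy]))
    (fun y hy => (bl y).trans (mul_le_of_le_one_right (by linarith) (mem_ball_zero_iff.1 hy).le))
    (fun z hz => ?_) (by positivity) (by positivity) ?_ (by linarith) hN (hd ▸ h2) (hd1.trans h2)
    ?_ (le_of_eq ?_) ?_
  · choose! p p1 p2 using fun y hy => (hl y hy).2 (E⁻¹ / (8 * R)) (by positivity)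
      (by linarith) z hz
    refine ⟨p, fun y hy => ⟨?_, by rw [p2 y hy, (hS y hy).2, add_sub_cancel_left]⟩,
      fun x hx y hy hxy => ?_⟩
    · linarith [norm_sub_norm_le (p y) y, p1 y hy, (hS y hy).1]
    have h3 : ∀ y ∈ S, ‖∑ i, ((t i : ℕ) : ℂ) * (p y - y) i‖ ≤ E⁻¹ / 8 := fun y hy =>
      (bl _).trans ((mul_le_mul_of_nonneg_left (p1 y hy) (by linarith)).trans_eq (by field_simp))
    have h4 := ht (x, y) (Finset.mem_offDiag.2 ⟨hx, hy, hxy⟩)
    have h5 : ∑ i, ((t i : ℕ) : ℂ) * (x - y) i = (∑ i, ((t i : ℕ) : ℂ) * p x i -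
        ∑ i, ((t i : ℕ) : ℂ) * p y i) - ∑ i, ((t i : ℕ) : ℂ) * (p x - x) i +
        ∑ i, ((t i : ℕ) : ℂ) * (p y - y) i := by
      simp only [Pi.sub_apply, mul_sub, Finset.sum_sub_distrib]
      ring
    rw [h5] at h4
    have h6 := h4.trans ((norm_add_le _ _).trans (add_le_add_left (norm_sub_le _ _) _))
    linarith [h3 x hx, h3 y hy]
  · exact (mul_le_mul hr hE' hE0.le (by positivity)).trans (by linarith)
  · rw [← mul_div_assoc, le_div_iff₀ (by norm_num), ← div_eq_mul_inv, le_div_iff₀ (by linarith)]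
    linarith
  · have : 0 < d := by linarith
    rw [← hd, hY]
    field_simp
    ring
  · have h3 : (3 / 4 : ℝ) ≤ Real.exp (-(1 / 4)) := by linarith [Real.add_one_le_exp (-(1 / 4))]
    have h4 : 0 < Y := by linarith
    refine (mul_le_mul_of_nonneg_left (pow_le_pow_left₀ (by norm_num) h3 _)
      (by positivity)).trans_lt ?_
    rw [← Real.exp_log h4, ← Real.exp_nat_mul, ← Real.exp_nat_mul, ← Real.exp_add,
      Real.exp_lt_one_iff]
    push_cast at hD ⊢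
    linarith

theorem logY {A N c₀ Y : ℝ} (hn : (1 : ℝ) ≤ n) (hA : 2 ≤ A) (hL : 1 / 2 ≤ Real.log A) (hN : 1 ≤ N)
    (hc : 1 ≤ c₀)
    (hY : Y = (n * N + 1) * (16 * A * (n * (N * N + 1)) * (c₀ * A ^ (n + 2)) ^ 2)) :
    0 ≤ Real.log Y ∧ Real.log Y ≤
      (2 * |Real.log (64 * n ^ 2 * c₀ ^ 2)| + (2 * n + 8)) * (Real.log A + Real.log N) := by
  have hlN := Real.log_nonneg hN
  have h1 : 1 ≤ Y := by
    calc (1 : ℝ) ≤ (1 * 0 + 1) * (16 * 1 * (1 * (0 * 0 + 1)) * (1 * 1 ^ (n + 2)) ^ 2) := by simp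
      _ ≤ _ := by rw [hY]; gcongr <;> linarith
  have h4 : Y ≤ 64 * n ^ 2 * c₀ ^ 2 * (A ^ (2 * n + 5) * N ^ 3) := by
    calc Y ≤ 2 * n * N * (16 * A * (n * (2 * N ^ 2)) * (c₀ * A ^ (n + 2)) ^ 2) := by
          rw [hY]
          gcongr <;> nlinarith
      _ = _ := by ring
  have h5 := Real.log_le_log (by linarith) h4
  rw [Real.log_mul (by positivity) (by positivity),
    Real.log_mul (x := A ^ _) (by positivity) (by positivity), Real.log_pow, Real.log_pow] at h5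
  push_cast at h5
  have h6 := le_abs_self (Real.log (64 * n ^ 2 * c₀ ^ 2))
  have h7 := abs_nonneg (Real.log (64 * n ^ 2 * c₀ ^ 2))
  exact ⟨Real.log_nonneg h1, by nlinarith⟩

end Mult

open Mult in
theorem mult (n : ℕ) : ∃ C : ℝ, 0 < C ∧ ∀ (g : Cm n → Cm n) (w : Cm n) (A : ℝ)
    (S : Finset (Cm n)), 2 ≤ A → DifferentiableOn ℂ g (ball 0 1) →
    (∀ y ∈ ball (0 : Cm n) 1, ‖g y‖ ≤ A) →
    (∀ y ∈ S, ‖y‖ ≤ 1 / 2 ∧ g y = w ∧ 1 ≤ A * ‖(jc g y).det‖) →
    (S.card : ℝ) ≤ C * Real.log A ^ n := by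
  rcases n.eq_zero_or_pos with rfl | hn
  · refine ⟨1, one_pos, fun g w A S _ _ _ _ => ?_⟩
    simpa using Finset.card_le_one.2 fun a _ b _ => Subsingleton.elim a b
  have hn' : (1 : ℝ) ≤ n := by exact_mod_cast hn
  obtain ⟨c₀, hc₀⟩ : ∃ c₀ : ℝ, c₀ = 768 * n * n ! * 2 ^ n + 1 := ⟨_, rfl⟩
  have c1 : 1 ≤ c₀ := hc₀ ▸ le_add_of_nonneg_left (by positivity)
  obtain ⟨c₁, hc₁⟩ : ∃ c₁ : ℝ, c₁ = 2 * |Real.log (64 * n ^ 2 * c₀ ^ 2)| + (2 * n + 8) := ⟨_, rfl⟩
  have c2 : 0 ≤ c₁ := by rw [hc₁]; positivity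
  obtain ⟨c, hc⟩ : ∃ c : ℝ, c = 4 * (n + 4) * c₁ + 4 := ⟨_, rfl⟩
  have c3 : 0 < c := by rw [hc]; positivity
  refine ⟨(2 * c + 4 * (c * n) * |Real.log (2 * (c * n))|) ^ n, by positivity,
    fun g w A S hA hg hb hS => ?_⟩
  have hL : 1 / 2 ≤ Real.log A := by
    linarith [Real.log_two_gt_d9, Real.log_le_log two_pos hA]
  rcases S.eq_empty_or_nonempty with rfl | hne
  · rw [Finset.card_empty, Nat.cast_zero]
    positivity
  have hN : 1 ≤ S.card := Finset.card_pos.2 hne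
  have hN' : (1 : ℝ) ≤ S.card := by exact_mod_cast hN
  have hE4 : 4 ≤ c₀ * A ^ (n + 2) := by
    have := one_le_pow₀ (n := n) (by linarith : 1 ≤ A)
    rw [pow_add]
    nlinarith [mul_le_mul c1 this zero_le_one (by linarith)]
  obtain ⟨h1, h2⟩ := logY hn' hA hL hN' c1 rfl
  have key := main hA hg hb (fun y hy => ⟨(hS y hy).1, (hS y hy).2.1⟩)
    (fun y hy => loc hA hg hb (hS y hy).1 (hS y hy).2.2 hE4 (by
      rw [hc₀, add_mul, mul_pow]
      exact le_add_of_le_of_nonneg (le_of_eq (by ring)) (by positivity))) hn' hN hE4 rfl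
    (d := n * S.card + 1) (by push_cast; ring) rfl (Nat.le_ceil _)
  rw [← hc₁] at h2
  generalize Real.log ((n * S.card + 1) * _) = x at h1 h2 key
  have h3 := Nat.ceil_lt_add_one (a := 4 * (((n + 4) * S.card : ℕ) * x)) (by positivity)
  generalize ⌈4 * (((n + 4) * S.card : ℕ) * x)⌉₊ = D at h3 key
  refine root c3 hn hL hN' (le_of_mul_le_mul_left ?_ (by positivity : 0 < (S.card : ℝ) ^ n))
  rw [← pow_succ, ← mul_pow]
  refine le_trans (by exact_mod_cast key) (pow_le_pow_left₀ (a := (D : ℝ) + 1) (by positivity) ?_ n)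
  push_cast at h3
  rw [hc]
  nlinarith [mul_le_mul_of_nonneg_left h2 (by positivity : (0 : ℝ) ≤ 4 * ((n + 4) * S.card)),
    mul_le_mul hN' (by linarith [Real.log_nonneg hN'] : 1 / 2 ≤ Real.log A + Real.log S.card)
      (by norm_num) (by linarith)]

/-- the row `X.CNT` without the inequality of Chern, Levine and Nirenberg -/
theorem cnt (n : ℕ) : X.CNT n := by
  obtain ⟨C, -, h⟩ := mult n
  refine ⟨C, fun G L S hL hG hb hS => ?_⟩
  have := h G 0 (Real.exp L) S (by linarith [Real.add_one_le_exp L]) hG hb fun y hy => ?_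
  · rwa [Real.log_exp] at this
  obtain ⟨h1, h2, h3⟩ := hS y hy
  have h4 := mem_ball_zero_iff.1 h1
  have h5 : jc G y = LinearMap.toMatrix' (fderiv ℂ G y : Cm n →ₗ[ℂ] Cm n) := by
    ext p i
    exact (P272.K.jmat_apply (hG.differentiableAt
      (isOpen_ball.mem_nhds (mem_ball_zero_iff.2 (by linarith)))) p i).trans (by simp)
  refine ⟨h4.le, h2, ?_⟩
  rw [h5, LinearMap.det_toMatrix', ← inv_le_iff_one_le_mul₀' (Real.exp_pos L), ← Real.exp_neg]
  exact h3

end Vale.Agent.P253W.Y
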