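import Vale.Agent.P253W.Y.Mod
import Vale.Agent.P253W.Y.Horl

/-!
# P253W, block Y, row SOL: calculus of Levi forms, restriction of an atlas
-/

open scoped ContDiff ENNReal Topology ComplexConjugate ComplexOrder Matrix RealInnerProductSpace
open MeasureTheory Set Metric Filter
open Vale.Agent.P272.K (Cm)
open Vale.Agent.P253.R2.H451 (levi2)
open Complex (I)

noncomputable section

namespace Vale.Agent.P253W.Y

namespace Sol

theorem two_le : (2 : WithTop ℕ∞) ≤ (⊤ : ℕ∞) := WithTop.coe_le_coe.2 (le_top (a := (2 : ℕ∞)))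

section calc1

variable {E : Type} [NormedAddCommGroup E] [NormedSpace ℂ E] {f g : E → ℝ} {z : E}

theorem lv_congr (h : f =ᶠ[𝓝 z] g) (v : E) : levi2 f z v = levi2 g z v := by
  unfold levi2
  rw [h.fderiv.fderiv_eq]

theorem lv_add (hf : ContDiffAt ℝ 2 f z) (hg : ContDiffAt ℝ 2 g z) (v : E) :
    levi2 (fun y => f y + g y) z v = levi2 f z v + levi2 g z v := by
  simpa using Horl.levi2_lin hf hg 1 v

theorem chain {χ χ' : ℝ → ℝ} {c : ℝ} (hf : ContDiffAt ℝ 2 f z)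
    (h1 : ∀ᶠ x in 𝓝 (f z), HasDerivAt χ (χ' x) x) (h2 : HasDerivAt χ' c (f z)) (v : E) :
    fderiv ℝ (fun y => χ (f y)) z v = χ' (f z) * fderiv ℝ f z v ∧
    levi2 (fun y => χ (f y)) z v = χ' (f z) * levi2 f z v +
      c * (fderiv ℝ f z v ^ 2 + fderiv ℝ f z (I • v) ^ 2) := by
  have e1 : fderiv ℝ (fun y => χ (f y)) =ᶠ[𝓝 z] fun y => χ' (f y) • fderiv ℝ f y := by
    filter_upwards [hf.eventually (by simp), hf.continuousAt.eventually h1] with y hy hy0
    exact (hy0.comp_hasFDerivAt y (hy.differentiableAt two_ne_zero).hasFDerivAt).fderiv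
  have d1 := h2.comp_hasFDerivAt z (hf.differentiableAt two_ne_zero).hasFDerivAt
  have d2 := ((hf.fderiv_right (m := 1) le_rfl).differentiableAt one_ne_zero).hasFDerivAt
  have e2 := e1.fderiv_eq.trans (d1.smul d2).fderiv
  refine ⟨by rw [e1.self_of_nhds]; rfl, ?_⟩
  simp only [levi2, e2, add_apply, smul_apply, ContinuousLinearMap.smulRight_apply, smul_eq_mul,
    Function.comp]
  ring

/-- `-log (1 - f)` -/
theorem nlog (hf : ContDiffAt ℝ 2 f z) (h1 : f z < 1) {v : E} (h : 0 ≤ levi2 f z v) :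
    fderiv ℝ (fun y => -Real.log (1 - f y)) z v ^ 2 ≤ levi2 (fun y => -Real.log (1 - f y)) z v := by
  have h0 : 0 < 1 - f z := sub_pos.2 h1
  obtain ⟨e1, e2⟩ := chain (χ := fun x => -Real.log (1 - x)) (χ' := fun x => (1 - x)⁻¹)
    (c := (1 - f z)⁻¹ ^ 2) hf (by
      filter_upwards [gt_mem_nhds h1] with x hx
      exact (((hasDerivAt_id' x).const_sub 1).log (sub_pos.2 hx).ne').fun_neg.congr_deriv (by ring))
    ((((hasDerivAt_id' (f z)).const_sub 1).fun_inv h0.ne').congr_deriv (by field_simp)) v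
  rw [e1, e2]
  have := mul_nonneg (inv_pos.2 h0).le h
  have := mul_nonneg (sq_nonneg (1 - f z)⁻¹) (sq_nonneg (fderiv ℝ f z (I • v)))
  nlinarith

/-- the square -/
theorem lsq (hf : ContDiffAt ℝ 2 f z) (h1 : 0 ≤ f z) {v : E} (h : 0 ≤ levi2 f z v) :
    fderiv ℝ f z v ^ 2 ≤ levi2 (fun y => f y ^ 2) z v := by
  have e2 := (chain (χ := fun x => x ^ 2) (χ' := fun x => 2 * x) (c := 2) hf
    (Eventually.of_forall fun x => by simpa using hasDerivAt_pow 2 x)
    (by simpa using (hasDerivAt_id' (f z)).const_mul 2) v).2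
  rw [e2]
  have := mul_nonneg h1 h
  nlinarith [sq_nonneg (fderiv ℝ f z (I • v)), sq_nonneg (fderiv ℝ f z v)]

end calc1

variable {n : ℕ}

/-- the derivative of `|τ|²` -/
def T (n : ℕ) : P n →L[ℝ] P n →L[ℝ] ℝ :=
  (2 : ℝ) • (innerSL ℝ (E := ℂ)).bilinearComp (.fst ℝ ℂ (Cm n)) (.fst ℝ ℂ (Cm n))

theorem T_ap (z v : P n) : T n z v = 2 * (v.1 * conj z.1).re := by
  simp [T, Complex.inner]

theorem nq_d : fderiv ℝ (fun q : P n => ‖q.1‖ ^ 2) = T n := by
  funext z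
  have h : HasFDerivAt (fun q : P n => q.1) (ContinuousLinearMap.fst ℝ ℂ (Cm n)) z := hasFDerivAt_fst
  rw [h.norm_sq.fderiv]
  refine ContinuousLinearMap.ext fun v => ?_
  simp [T, mul_add]

theorem nq_sm {m : WithTop ℕ∞} (z : P n) : ContDiffAt ℝ m (fun q : P n => ‖q.1‖ ^ 2) z :=
  ((contDiff_norm_sq ℂ).comp contDiff_fst).contDiffAt

theorem nq_lv (z v : P n) : levi2 (fun q : P n => ‖q.1‖ ^ 2) z v = 4 * ‖v.1‖ ^ 2 := by
  simp only [levi2, nq_d, ContinuousLinearMap.fderiv, T_ap, Prod.smul_fst, smul_eq_mul,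
    Complex.mul_conj, Complex.ofReal_re, Complex.normSq_eq_norm_sq, norm_mul, Complex.norm_I]
  ring

/-- radial functions of `τ` -/
theorem rad {χ χ' : ℝ → ℝ} {c : ℝ} (z v : P n)
    (h1 : ∀ᶠ x in 𝓝 (‖z.1‖ ^ 2), HasDerivAt χ (χ' x) x) (h2 : HasDerivAt χ' c (‖z.1‖ ^ 2)) :
    levi2 (fun q : P n => χ (‖q.1‖ ^ 2)) z v =
      4 * ‖v.1‖ ^ 2 * (χ' (‖z.1‖ ^ 2) + ‖z.1‖ ^ 2 * c) := by
  rw [(chain (nq_sm z) h1 h2 v).2, nq_lv, nq_d, T_ap, T_ap]
  simp only [Complex.sq_norm, Complex.normSq_apply, Prod.smul_fst, smul_eq_mul, Complex.mul_re,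
    Complex.mul_im, Complex.conj_re, Complex.conj_im, Complex.I_re, Complex.I_im]
  ring

theorem lv_log (c : ℝ) {z : P n} (hz : z.1 ≠ 0) (v : P n) :
    levi2 (fun q : P n => c * Real.log ‖q.1‖) z v = 0 := by
  have h0 : 0 < ‖z.1‖ ^ 2 := pow_pos (norm_pos_iff.2 hz) 2
  have e : (fun q : P n => c * Real.log ‖q.1‖) = fun q => c / 2 * Real.log (‖q.1‖ ^ 2) := by
    funext q
    rw [Real.log_pow]
    push_cast
    ring
  rw [e, rad (χ := fun x => c / 2 * Real.log x) (χ' := fun x => c / 2 * x⁻¹)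
    (c := c / 2 * -((‖z.1‖ ^ 2) ^ 2)⁻¹) z v ?_ ((hasDerivAt_inv h0.ne').const_mul _)]
  · field_simp
    ring
  · filter_upwards [lt_mem_nhds h0] with x hx using (Real.hasDerivAt_log hx.ne').const_mul _

theorem lv_inv {c : ℝ} (hc : 0 ≤ c) {z : P n} (hz : z.1 ≠ 0) (v : P n) :
    0 ≤ levi2 (fun q : P n => c * (‖q.1‖ ^ 2)⁻¹) z v := by
  have h0 : 0 < ‖z.1‖ ^ 2 := pow_pos (norm_pos_iff.2 hz) 2
  rw [rad (χ := fun x => c * x⁻¹) (χ' := fun x => c * -(x ^ 2)⁻¹)
    (c := c * (2 / (‖z.1‖ ^ 2) ^ 3)) z v ?_ ?_]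
  · have : c * -((‖z.1‖ ^ 2) ^ 2)⁻¹ + ‖z.1‖ ^ 2 * (c * (2 / (‖z.1‖ ^ 2) ^ 3)) =
        c / (‖z.1‖ ^ 2) ^ 2 := by
      field_simp
      ring
    rw [this]
    positivity
  · filter_upwards [lt_mem_nhds h0] with x hx using (hasDerivAt_inv hx.ne').const_mul _
  · refine ((((hasDerivAt_pow 2 (‖z.1‖ ^ 2)).fun_inv (pow_pos h0 2).ne').fun_neg).const_mul
      c).congr_deriv ?_
    have := norm_pos_iff.2 hz
    field_simp
    ring

theorem qf_nonneg {A : Mx n} (hA : A.PosDef) (v : Cm n) : 0 ≤ qf A v := by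
  have := (Complex.nonneg_iff.1 (hA.posSemidef.dotProduct_mulVec_nonneg (star v))).1
  simpa [qf] using this

theorem qf_pos {A : Mx n} (hA : A.PosDef) {v : Cm n} (hv : v ≠ 0) : 0 < qf A v := by
  have := (Complex.pos_iff.1 (hA.dotProduct_mulVec_pos (x := star v) (by simpa using hv))).1
  simpa [qf] using this

theorem Dq_sm {G : ℂ → Mx n} {q : P n} (h : ∀ i j, ContDiffAt ℝ ∞ (fun τ => G τ i j) q.1) :
    ContDiffAt ℝ ∞ (Dq G) q := by
  have c : ∀ i, ContDiffAt ℝ ∞ (fun p : P n => p.2 i) q := fun i =>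
    ((contDiff_apply ℝ ℂ i).comp contDiff_snd).contDiffAt
  refine Complex.reCLM.contDiff.contDiffAt.comp q
    (f := fun p : P n => ∑ i, p.2 i * ∑ j, G p.1 i j * conj (p.2 j)) ?_
  refine ContDiffAt.sum fun i _ => (c i).mul (ContDiffAt.sum fun j _ => ?_)
  exact ((h i j).comp q contDiffAt_fst).mul (Complex.conjCLE.contDiff.contDiffAt.comp q (c j))

/-- the restriction of an atlas to an open subset -/
def res {E : Type} [NormedAddCommGroup E] [NormedSpace ℂ E] [MeasureSpace E] [BorelSpace E]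
    {X : Type} [TopologicalSpace X] [MeasurableSpace X] {N N' : Set X} (A : Atl E X N)
    (h : IsOpen N') (hs : N' ⊆ N) : Atl E X N' where
  I := A.I
  e i := (A.e i).restrOpen N' h
  w := A.w
  ν := A.ν
  sub _ := inter_subset_right
  cover x hx := (A.cover x (hs hx)).imp fun _ hi => ⟨hi, hx⟩
  hol i j z hz h' := A.hol i j z hz.1 h'.1
  an i z hz := A.an i z hz.1
  ch i j x hi hj := A.ch i j x hi.1 hj.1
  hν i f hf h0 := by
    rw [A.hν i f hf fun x hx => h0 x fun h' => hx h'.1]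
    rw [← lintegral_indicator (A.e i).open_target.measurableSet,
      ← lintegral_indicator ((A.e i).restrOpen N' h).open_target.measurableSet]
    refine lintegral_congr fun z => ?_
    by_cases hz : z ∈ (A.e i).target
    · by_cases hz' : (A.e i).symm z ∈ N'
      · rw [indicator_of_mem hz, indicator_of_mem (show z ∈ ((A.e i).restrOpen N' h).target from
          ⟨hz, hz'⟩)]
        rfl
      · rw [indicator_of_mem hz, indicator_of_notMem fun h' => hz' h'.2, h0 _ fun h' => hz' h'.2,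
          zero_mul]
    · rw [indicator_of_notMem hz, indicator_of_notMem fun h' => hz h'.1]

end Sol

end Vale.Agent.P253W.Y
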