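import Vale.Agent.P253W.Y.SolA

/-!
# P253W, block Y, row SOL: the domain, its complete metric, the weights
-/

open scoped ContDiff ENNReal Topology ComplexConjugate ComplexOrder Matrix
open MeasureTheory Set Metric Filter
open Vale.Agent.P272.K (Cm)
open Vale.Agent.P253.R2.H451 (levi2)
open Complex (I)

noncomputable section

namespace Vale.Agent.P253W.Y

namespace Sol

variable {n : ℕ}

theorem pw {t x y z : ℝ} (ht : 1 ≤ t) (h : x + y ≤ z) : t ^ x * t ^ y ≤ t ^ z := by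
  rw [← Real.rpow_add (one_pos.trans_le ht)]
  exact Real.rpow_le_rpow_of_exponent_le ht h

theorem ex_op (ρ : ℝ) : IsOpen (ex ρ) := isOpen_lt continuous_const continuous_norm

theorem wn_ge (k : Fin n → ℝ) {τ : ℂ} (h : 0 < ‖τ‖) (y : Cm n) (j : Fin n) :
    ‖y j‖ ^ 2 ≤ ‖τ‖ ^ (2 * k j) * wn k τ y := by
  have h1 : ‖y j‖ ^ 2 * ‖τ‖ ^ (-(2 * k j)) ≤ wn k τ y :=
    Finset.single_le_sum (f := fun i => ‖y i‖ ^ 2 * ‖τ‖ ^ (-(2 * k i))) (fun _ _ => by positivity)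
      (Finset.mem_univ j)
  rwa [Real.rpow_neg h.le, ← div_eq_mul_inv, div_le_iff₀' (by positivity)] at h1

/-- the radius `R` is large -/
structure Hy (B : Mod n) (ρ' : ℝ) (a : ℂ → ℝ) (R : ℝ) : Prop where
  pot : B.Pot ρ' a
  lt : ρ' < R
  big : 100 * B.C ≤ R ^ B.e

section defs

variable (B : Mod n) (a : ℂ → ℝ) (R : ℝ)

/-- the exponent of the tube -/
def g0 : ℝ := (4 * n + 20) * B.e

/-- the plurisubharmonic function which defines the tube -/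
def E1 (q : P n) : ℝ :=
  ‖q.1‖ ^ g0 B * Dq B.G q * Real.exp (‖q.1‖ ^ g0 B * Dq B.G q + a q.1) * ‖q.1‖ ^ B.e

/-- the defining function of the domain -/
def ff (q : P n) : ℝ := E1 B a q + R ^ 2 * (‖q.1‖ ^ 2)⁻¹

/-- the domain -/
def N1 : Set (P n) := {q | R < ‖q.1‖ ∧ ff B a R q < 1}

/-- the positive part of the weight -/
def p0 (q : P n) : ℝ := a q.1 + ‖q.1‖ ^ (3 * B.e) * Dq B.G q

/-- the exponent of the weight -/
def be : ℝ := 2 + (5 * B.e - 2 * g0 B - n * g0 B)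

/-- the weight -/
def ph (j : Fin n) (q : P n) : ℝ := p0 B a q + B.u q + (2 * B.k j + be B) * Real.log ‖q.1‖

/-- the bound of `∂̄ y_j` -/
def La (j : Fin n) (q : P n) : ℝ :=
  B.C * ‖q.1‖ ^ (3 * B.e) * Dq B.G q ^ 2 * ‖q.1‖ ^ (2 * B.k j) * Real.exp (-ph B a j q)

theorem g0_ge : 20 * B.e ≤ g0 B := by
  have := B.e_pos
  unfold g0
  nlinarith [mul_nonneg (Nat.cast_nonneg (α := ℝ) n) this.le]

theorem g0_le : g0 B ≤ 1 := by
  have := B.e_pos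
  have := B.e_le
  unfold g0
  nlinarith

theorem fst_ev (i : B.A.I) {z : P n} (hz : z ∈ (B.A.e i).target) :
    ∀ᶠ y in 𝓝 z, ((B.A.e i).symm y).1 = y.1 := by
  filter_upwards [(B.A.e i).open_target.mem_nhds hz] with y hy
  rw [← (B.reg i).fst _ ((B.A.e i).map_target hy), (B.A.e i).right_inv hy]

theorem sm_c {V : Type} [NormedAddCommGroup V] [NormedSpace ℝ V] {F : P n → V} (i : B.A.I) {z : P n}
    (hz : z ∈ (B.A.e i).target) (h : ContDiffAt ℝ ∞ F ((B.A.e i).symm z)) :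
    ContDiffAt ℝ ∞ (B.A.c F i) z := h.comp z ((B.reg i).sm' z hz)

theorem lv_fst (g : ℂ → ℝ) (i : B.A.I) {z : P n} (hz : z ∈ (B.A.e i).target) (v : P n) :
    levi2 (B.A.c (fun q => g q.1) i) z v = levi2 (fun q : P n => g q.1) z v :=
  lv_congr ((fst_ev B i hz).mono fun _ hy => congrArg g hy) v

end defs

namespace Hy

variable {B : Mod n} {ρ' R : ℝ} {a : ℂ → ℝ} (h : Hy B ρ' a R) {τ : ℂ} {q : P n}
include h

theorem R_gt : 1 < R := (B.ρ_ge.trans h.pot.ge).trans_lt h.lt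

theorem ex' (ht : R ≤ ‖τ‖) : τ ∈ ex ρ' := h.lt.trans_le ht

theorem ex0 (ht : R ≤ ‖τ‖) : τ ∈ ex B.ρ := h.pot.ge.trans_lt (h.ex' ht)

theorem one (ht : R ≤ ‖τ‖) : 1 ≤ ‖τ‖ := h.R_gt.le.trans ht

theorem pos (ht : R ≤ ‖τ‖) : 0 < ‖τ‖ := one_pos.trans_le (h.one ht)

theorem lam (ht : R ≤ ‖τ‖) : 100 * B.C ≤ ‖τ‖ ^ B.e :=
  h.big.trans (Real.rpow_le_rpow (zero_le_one.trans h.R_gt.le) ht B.e_pos.le)

theorem expa (ht : R ≤ ‖τ‖) : Real.exp (a τ) ≤ ‖τ‖ ^ B.e ∧ Real.exp (-a τ) ≤ ‖τ‖ ^ B.e := by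
  have := abs_le.1 (h.pot.bd τ (h.ex' ht))
  rw [Real.rpow_def_of_pos (h.pos ht)]
  exact ⟨Real.exp_le_exp.2 (by linarith [this.2]), Real.exp_le_exp.2 (by linarith [this.1])⟩

theorem D_nn (ht : R ≤ ‖q.1‖) : 0 ≤ Dq B.G q := qf_nonneg (B.G_pos _ (h.ex0 ht)) _

theorem a_sm (ht : R ≤ ‖τ‖) : ContDiffAt ℝ ∞ a τ := h.pot.sm.contDiffAt ((ex_op _).mem_nhds (h.ex' ht))

theorem D_sm (ht : R ≤ ‖q.1‖) : ContDiffAt ℝ ∞ (Dq B.G) q :=
  Dq_sm fun i j => (B.G_sm i j).contDiffAt ((ex_op _).mem_nhds (h.ex0 ht))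

theorem n_sm (ht : R ≤ ‖q.1‖) : ContDiffAt ℝ ∞ (fun p : P n => ‖p.1‖) q :=
  contDiffAt_fst.norm ℂ (norm_pos_iff.1 (h.pos ht))

theorem r_sm (ht : R ≤ ‖q.1‖) (c : ℝ) : ContDiffAt ℝ ∞ (fun p : P n => ‖p.1‖ ^ c) q :=
  (h.n_sm ht).rpow_const_of_ne (h.pos ht).ne'

theorem E_sm (ht : R ≤ ‖q.1‖) : ContDiffAt ℝ ∞ (E1 B a) q :=
  (((h.r_sm ht _).mul (h.D_sm ht)).mul (((h.r_sm ht _).mul (h.D_sm ht)).add
    ((h.a_sm ht).comp q contDiffAt_fst)).exp).mul (h.r_sm ht _)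

theorem i_sm (ht : R ≤ ‖q.1‖) : ContDiffAt ℝ ∞ (fun p : P n => R ^ 2 * (‖p.1‖ ^ 2)⁻¹) q :=
  contDiffAt_const.mul ((nq_sm q).inv (pow_pos (h.pos ht) 2).ne')

theorem f_sm (ht : R ≤ ‖q.1‖) : ContDiffAt ℝ ∞ (ff B a R) q := (h.E_sm ht).add (h.i_sm ht)

theorem p_sm (ht : R ≤ ‖q.1‖) : ContDiffAt ℝ ∞ (p0 B a) q :=
  ((h.a_sm ht).comp q contDiffAt_fst).add ((h.r_sm ht _).mul (h.D_sm ht))

theorem l_sm (ht : R ≤ ‖q.1‖) (c : ℝ) : ContDiffAt ℝ ∞ (fun p : P n => c * Real.log ‖p.1‖) q :=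
  contDiffAt_const.mul ((h.n_sm ht).log (h.pos ht).ne')

theorem E_nn (ht : R ≤ ‖q.1‖) : 0 ≤ E1 B a q := by
  have := h.D_nn ht
  unfold E1
  positivity

theorem N_op : IsOpen (N1 B a R) :=
  ContinuousOn.isOpen_inter_preimage (s := {q : P n | R < ‖q.1‖}) (t := Iio 1)
    (fun _ hq => (h.f_sm (le_of_lt hq)).continuousAt.continuousWithinAt)
    (isOpen_lt continuous_const continuous_fst.norm) isOpen_Iio

theorem D1_lt (hq : q ∈ N1 B a R) : ‖q.1‖ ^ g0 B * Dq B.G q < 1 := by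
  have h0 : 0 ≤ ‖q.1‖ ^ g0 B * Dq B.G q := mul_nonneg (by positivity) (h.D_nn hq.1.le)
  have h1 : 1 ≤ Real.exp (‖q.1‖ ^ g0 B * Dq B.G q + a q.1) * ‖q.1‖ ^ B.e :=
    calc (1 : ℝ) ≤ Real.exp (‖q.1‖ ^ g0 B * Dq B.G q + a q.1) * Real.exp (-a q.1) := by
          rw [← Real.exp_add]
          exact Real.one_le_exp (by linarith)
      _ ≤ _ := mul_le_mul_of_nonneg_left (h.expa hq.1.le).2 (Real.exp_pos _).le
  have h2 := mul_le_mul_of_nonneg_left h1 h0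
  have h3 : 0 ≤ R ^ 2 * (‖q.1‖ ^ 2)⁻¹ := by positivity
  have h4 := hq.2
  unfold ff E1 at h4
  linarith

theorem D_lt (hq : q ∈ N1 B a R) : Dq B.G q < ‖q.1‖ ^ (-g0 B) := by
  have := h.pos hq.1.le
  rw [Real.rpow_neg this.le, ← one_div, lt_div_iff₀' (by positivity)]
  exact h.D1_lt hq

theorem D_mul (hq : q ∈ N1 B a R) {x y : ℝ} (hx : x + -g0 B ≤ y) :
    ‖q.1‖ ^ x * Dq B.G q ≤ ‖q.1‖ ^ y :=
  (mul_le_mul_of_nonneg_left (h.D_lt hq).le (by positivity)).trans (pw (h.one hq.1.le) hx)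

theorem D_one (hq : q ∈ N1 B a R) {x : ℝ} (hx : x ≤ g0 B) : ‖q.1‖ ^ x * Dq B.G q ≤ 1 := by
  simpa using h.D_mul hq (x := x) (y := 0) (by linarith)

theorem N_sub : N1 B a R ⊆ Nb B.ρ (4 * B.e) B.G := fun q hq =>
  ⟨h.ex0 hq.1.le, (h.D_lt hq).trans_le (Real.rpow_le_rpow_of_exponent_le (h.one hq.1.le)
    (by linarith [g0_ge B, B.e_pos]))⟩

theorem sub_N : Nb (2 * R) ((4 * n + 23) * B.e) B.G ⊆ N1 B a R := fun q hq => by
  have hR := h.R_gt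
  have h1 : 2 * R < ‖q.1‖ := hq.1
  have ht : R ≤ ‖q.1‖ := by linarith
  have h0 := h.pos ht
  have hl := h.lam ht
  have hC := B.C_ge
  have h2 : ‖q.1‖ ^ g0 B * Dq B.G q ≤ ‖q.1‖ ^ (-(3 * B.e)) :=
    (mul_le_mul_of_nonneg_left hq.2.le (by positivity)).trans
      (pw (h.one ht) (by unfold g0; linarith))
  have h3 : ‖q.1‖ ^ (-(3 * B.e)) ≤ 1 :=
    Real.rpow_le_one_of_one_le_of_nonpos (h.one ht) (by linarith [B.e_pos])
  have h4 : Real.exp (‖q.1‖ ^ g0 B * Dq B.G q + a q.1) ≤ 3 * ‖q.1‖ ^ B.e := by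
    rw [Real.exp_add]
    exact mul_le_mul ((Real.exp_le_exp.2 (h2.trans h3)).trans Real.exp_one_lt_three.le)
      (h.expa ht).1 (Real.exp_pos _).le (by norm_num)
  have h5 : E1 B a q ≤ ‖q.1‖ ^ (-(3 * B.e)) * (3 * ‖q.1‖ ^ B.e) * ‖q.1‖ ^ B.e := by
    unfold E1
    gcongr
  have h6 : ‖q.1‖ ^ (-(3 * B.e)) * (3 * ‖q.1‖ ^ B.e) * ‖q.1‖ ^ B.e = 3 / ‖q.1‖ ^ B.e := by
    rw [Real.rpow_neg h0.le, mul_comm 3 B.e, Real.rpow_mul h0.le, Real.rpow_ofNat]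
    field_simp
  have h7 : 3 / ‖q.1‖ ^ B.e ≤ 1 / 2 := by
    rw [div_le_iff₀ (by positivity)]
    linarith
  have h8 : R ^ 2 * (‖q.1‖ ^ 2)⁻¹ < 1 / 2 := by
    rw [← div_eq_mul_inv, div_lt_iff₀ (by positivity)]
    nlinarith
  exact ⟨by linarith, by unfold ff; linarith⟩

theorem y_le (hq : q ∈ N1 B a R) (j : Fin n) : ‖q.2 j‖ ^ 2 ≤ ‖q.1‖ ^ (2 * B.k j) := by
  have h1 := (B.G_cmp _ (h.ex0 hq.1.le) q.2).1.trans
    (h.D_one hq (x := B.e) (by linarith [g0_ge B, B.e_pos]))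
  exact (wn_ge B.k (h.pos hq.1.le) q.2 j).trans (mul_le_of_le_one_right (by positivity) h1)

/-- the Levi forms in a chart -/
theorem loc (hL : LEV n) (i : B.A.I) {z : P n} (hz : z ∈ (B.A.e i).target)
    (hN : (B.A.e i).symm z ∈ N1 B a R) (ξ : P n) :
    0 ≤ levi2 (B.A.c (ff B a R) i) z ξ ∧ 0 ≤ levi2 (B.A.c (p0 B a) i) z ξ ∧
    (ξ ≠ 0 → ξ.1 = 0 → 0 < levi2 (B.A.c (p0 B a) i) z ξ) ∧
    qf (B.G z.1) (fderiv ℝ (fun q => ((B.A.e i).symm q).2) z ξ +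
        I • fderiv ℝ (fun q => ((B.A.e i).symm q).2) z (I • ξ)) ≤
      B.C * Dq B.G ((B.A.e i).symm z) ^ 2 * (‖z.1‖ ^ (2 * B.e) * levi2 (B.A.c (p0 B a) i) z ξ) := by
  obtain ⟨H, v, w, hP, hJ⟩ := B.jac i z hz
  have ev := fst_ev B i hz
  have e1 : ((B.A.e i).symm z).1 = z.1 := ev.self_of_nhds
  have ht : R ≤ ‖z.1‖ := e1 ▸ hN.1.le
  have h0 := h.pos ht
  have h1 := h.one ht
  have hC := B.C_ge
  have he := B.e_pos
  have hg := g0_ge B
  have hm := (B.m_mem _ (h.ex0 ht)).1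
  have hD := h.D_nn hN.1.le
  have hlev := h.pot.lev _ (h.ex' ht)
  have c1 : ∀ γ, 3 * B.e ≤ γ → 100 * (B.C * ‖z.1‖ ^ (2 * B.e)) ≤ ‖z.1‖ ^ γ := fun γ hγ => by
    rw [← mul_assoc]
    exact (mul_le_mul_of_nonneg_right (h.lam ht) (by positivity)).trans (pw h1 (by linarith))
  have c2 : ∀ x, x ≤ 3 * B.e →
      ‖z.1‖ ^ x * Dq B.G ((B.A.e i).symm z) / ‖z.1‖ ^ 2 ≤ ‖z.1‖ ^ (-2 - B.e) := fun x hx => by
    have := h.D_mul hN (x := x) (y := -B.e) (by linarith)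
    rw [e1] at this
    rw [div_le_iff₀ (by positivity), ← Real.rpow_two, ← Real.rpow_add h0]
    rwa [show -2 - B.e + 2 = -B.e by ring]
  have L := fun γ γ' (hγ : 3 * B.e ≤ γ) (hγ' : γ ≤ g0 B) => hL _ z H v w _ _ γ γ' a hP
    ((h.a_sm ht).of_le two_le) h1 (by linarith) (hγ'.trans (g0_le B)) (by positivity)
    (by positivity) (c1 γ hγ) (e1 ▸ h.D_one hN hγ')
  have L1 := (L (g0 B) B.e (by linarith) le_rfl).1 (le_trans (by
    have := mul_le_mul_of_nonneg_left (c2 (2 * B.e) (by linarith)) (zero_le_one.trans hC)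
    rw [mul_assoc, mul_div_assoc]
    linarith) hlev) ξ
  have L2 := (L (3 * B.e) 0 le_rfl (by linarith)).2.1 (le_trans (by
    have := c2 (3 * B.e) le_rfl
    have := mul_le_mul_of_nonneg_right hC (show 0 ≤ ‖z.1‖ ^ (-2 - B.e) by positivity)
    linarith) hlev) ξ
  rw [← lv_congr (f := B.A.c (p0 B a) i) (ev.mono fun y hy => by simp only [Atl.c, p0, hy])] at L2
  rw [← lv_congr (f := B.A.c (E1 B a) i) (ev.mono fun y hy => by simp only [Atl.c, E1, hy])] at L1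
  have q0 := qf_nonneg hP.pos (w ξ)
  have q1 : 0 ≤ B.C * B.m z.1 * ‖ξ.1‖ ^ 2 := by positivity
  refine ⟨?_, le_trans (by positivity) L2, fun h2 h3 => lt_of_lt_of_le ?_ L2, (hJ ξ).trans ?_⟩
  · have := lv_add ((sm_c B i hz (h.E_sm hN.1.le)).of_le two_le)
      ((sm_c B i hz (h.i_sm hN.1.le)).of_le two_le) ξ
    rw [lv_fst B (fun τ => R ^ 2 * (‖τ‖ ^ 2)⁻¹) i hz] at this
    exact (add_nonneg L1 (lv_inv (sq_nonneg R) (norm_pos_iff.1 h0) ξ)).trans_eq this.symm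
  · have : w ξ ≠ 0 := fun h4 => h2 (Prod.ext h3 (hP.bij.1 (a₂ := 0) (by
      change w (0, ξ.2) = w 0
      rw [show ((0 : ℂ), ξ.2) = ξ from Prod.ext h3.symm rfl, h4, map_zero])))
    have := qf_pos hP.pos this
    positivity
  · refine mul_le_mul_of_nonneg_left (le_trans ?_ (mul_le_mul_of_nonneg_left L2 (by positivity)))
      (by positivity)
    have a1 : ‖z.1‖ ^ (4 * B.e) ≤ ‖z.1‖ ^ (2 * B.e) * ‖z.1‖ ^ (3 * B.e) := by
      rw [← Real.rpow_add h0]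
      exact Real.rpow_le_rpow_of_exponent_le h1 (by linarith)
    have a2 := mul_le_mul_of_nonneg_right a1 q0
    have a3 := mul_le_mul_of_nonneg_right hC
      (show 0 ≤ ‖z.1‖ ^ (2 * B.e) * B.m z.1 * ‖ξ.1‖ ^ 2 by positivity)
    linarith

/-- the atlas of the domain -/
def A1 : Atl (P n) (P n) (N1 B a R) := res B.A h.N_op h.N_sub

theorem sm {V : Type} [NormedAddCommGroup V] [NormedSpace ℝ V] {F : P n → V}
    (hF : ∀ q ∈ N1 B a R, ContDiffAt ℝ ∞ F q) : h.A1.Sm F :=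
  fun i _ hz => sm_c B i hz.1 (hF _ hz.2)

theorem nl_sm (hq : q ∈ N1 B a R) : ContDiffAt ℝ ∞ (fun p => -Real.log (1 - ff B a R p)) q :=
  ((contDiffAt_const.sub (h.f_sm hq.1.le)).log (sub_pos.2 hq.2).ne').neg

theorem cpt (c : ℝ) :
    IsCompact {q | q ∈ N1 B a R ∧ -Real.log (1 - ff B a R q) + ‖q.1‖ ^ 2 ≤ c} := by
  have hR := h.R_gt
  have e : {q | q ∈ N1 B a R ∧ -Real.log (1 - ff B a R q) + ‖q.1‖ ^ 2 ≤ c} =
      {q ∈ {q : P n | R ≤ ‖q.1‖} | Real.exp (‖q.1‖ ^ 2 - c) ≤ 1 - ff B a R q} := by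
    ext q
    refine ⟨fun hq => ⟨hq.1.1.le, ?_⟩, fun hq => ?_⟩
    · rw [← Real.le_log_iff_exp_le (sub_pos.2 hq.1.2)]
      linarith [hq.2]
    · have h1 := (Real.exp_pos _).trans_le hq.2
      refine ⟨⟨lt_of_le_of_ne hq.1 fun h2 => ?_, sub_pos.1 h1⟩, ?_⟩
      · have := h.E_nn hq.1
        rw [ff, ← h2, mul_inv_cancel₀ (by positivity)] at h1
        linarith
      · linarith [(Real.le_log_iff_exp_le h1).2 hq.2]
  refine Metric.isCompact_of_isClosed_isBounded ?_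
    ((isBounded_closedBall (x := (0 : P n)) (r := √c)).subset fun q hq => ?_)
  · rw [e]
    exact (isClosed_le continuous_const continuous_fst.norm).isClosed_le
      ((continuous_fst.norm.pow 2).sub continuous_const).rexp.continuousOn
      (continuousOn_const.sub fun q hq => (h.f_sm hq).continuousAt.continuousWithinAt)
  · have h0 : 0 ≤ ff B a R q := add_nonneg (h.E_nn hq.1.1.le) (by positivity)
    have h1 := Real.log_nonpos (sub_pos.2 hq.1.2).le (sub_le_self 1 h0)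
    have h2 : ‖q.1‖ ^ 2 ≤ c := by linarith [hq.2]
    rw [mem_closedBall_zero_iff, Prod.norm_def, max_le_iff,
      pi_norm_le_iff_of_nonneg (Real.sqrt_nonneg c)]
    refine ⟨Real.le_sqrt_of_sq_le h2, fun j => Real.le_sqrt_of_sq_le
      (((h.y_le hq.1 j).trans ?_).trans h2)⟩
    rw [← Real.rpow_two]
    exact Real.rpow_le_rpow_of_exponent_le (h.one hq.1.1.le) (by linarith [(B.k_mem j).2])

theorem cpl (hL : LEV n) : h.A1.Cpl := by
  refine ⟨fun q => (p0 B a q + ‖q.1‖ ^ 2) + 2 * (-Real.log (1 - ff B a R q) + (‖q.1‖ ^ 2) ^ 2),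
    fun q => -Real.log (1 - ff B a R q) + ‖q.1‖ ^ 2,
    h.sm fun q hq => ((h.p_sm hq.1.le).add (nq_sm q)).add
      (contDiffAt_const.mul ((h.nl_sm hq).add ((nq_sm q).pow 2))),
    h.sm fun q hq => (h.nl_sm hq).add (nq_sm q), fun q hq => ?_, h.cpt, fun i z hz v hv => ?_⟩
  · have h0 : 0 ≤ ff B a R q := add_nonneg (h.E_nn hq.1.le) (by positivity)
    have h1 := Real.log_nonpos (sub_pos.2 hq.2).le (sub_le_self 1 h0)
    nlinarith [sq_nonneg ‖q.1‖]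
  obtain ⟨l1, l2, l3, -⟩ := h.loc hL i hz.1 hz.2 v
  have sf := (sm_c B i hz.1 (h.f_sm hz.2.1.le)).of_le two_le
  have sp := (sm_c B i hz.1 (h.p_sm hz.2.1.le)).of_le two_le
  have ss := (sm_c B i hz.1 (nq_sm _)).of_le two_le
  have sn := (sm_c B i hz.1 (h.nl_sm hz.2)).of_le two_le
  have e0 := (lv_fst B (fun τ => ‖τ‖ ^ 2) i hz.1 v).trans (nq_lv z v)
  have e1 := Horl.levi2_lin (sp.add ss) (sn.add (ss.pow 2)) 2 v
  rw [lv_add sp ss, lv_add sn (ss.pow 2), e0] at e1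
  have e2 := congrArg (· v) (fderiv_fun_add (sn.differentiableAt two_ne_zero)
    (ss.differentiableAt two_ne_zero))
  have b1 := nlog sf hz.2.2 l1
  have b2 := lsq ss (sq_nonneg _) (e0.ge.trans' (by positivity))
  have b3 : 0 < levi2 (B.A.c (p0 B a) i) z v + 4 * ‖v.1‖ ^ 2 := by
    by_cases h1 : v.1 = 0
    · exact add_pos_of_pos_of_nonneg (l3 hv h1) (by positivity)
    · exact add_pos_of_nonneg_of_pos l2 (by have := norm_pos_iff.2 h1; positivity)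
  refine ⟨lt_of_lt_of_eq ?_ e1.symm, le_of_eq_of_le (congrArg (· ^ 2) e2) (le_of_le_of_eq ?_ e1.symm)⟩
  · exact add_pos_of_pos_of_nonneg b3 (mul_nonneg two_pos.le
      (add_nonneg ((sq_nonneg _).trans b1) ((sq_nonneg _).trans b2)))
  · refine le_trans ?_ (add_le_add b3.le (mul_le_mul_of_nonneg_left (add_le_add b1 b2) two_pos.le))
    rw [zero_add]
    exact add_sq_le

theorem ph_sm (j : Fin n) : h.A1.Sm (ph B a j) := fun i z hz =>
  ((sm_c B i hz.1 (h.p_sm hz.2.1.le)).add (B.u_psh.1 i z hz.1)).add (sm_c B i hz.1 (h.l_sm hz.2.1.le _))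

theorem lv_ph (j : Fin n) (i : B.A.I) {z : P n} (hz : z ∈ (B.A.e i).target)
    (hN : (B.A.e i).symm z ∈ N1 B a R) (v : P n) :
    levi2 (B.A.c (p0 B a) i) z v ≤ levi2 (B.A.c (ph B a j) i) z v := by
  have sp := (sm_c B i hz (h.p_sm hN.1.le)).of_le two_le
  have su := (B.u_psh.1 i z hz).of_le two_le
  have e1 := lv_add (sp.add su) ((sm_c B i hz (h.l_sm hN.1.le (2 * B.k j + be B))).of_le two_le) v
  rw [lv_add sp su, lv_fst B (fun τ => (2 * B.k j + be B) * Real.log ‖τ‖) i hz,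
    lv_log _ ((fst_ev B i hz).self_of_nhds ▸ norm_pos_iff.1 (h.pos hN.1.le)), add_zero] at e1
  exact (le_add_of_nonneg_right (B.u_psh.2 i z hz v)).trans_eq e1.symm

theorem ph_psh (hL : LEV n) (j : Fin n) : h.A1.Psh (ph B a j) :=
  ⟨h.ph_sm j, fun i _ hz v => (h.loc hL i hz.1 hz.2 v).2.1.trans (h.lv_ph j i hz.1 hz.2 v)⟩

theorem ka_psh : h.A1.Psh fun q => ‖q.1‖ ^ 2 :=
  ⟨h.sm fun q _ => nq_sm q, fun i z hz v =>
    ((lv_fst B (fun τ => ‖τ‖ ^ 2) i hz.1 v).trans (nq_lv z v)).ge.trans' (by positivity)⟩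

theorem y_sm (j : Fin n) : h.A1.Sm fun q => q.2 j :=
  h.sm fun _ _ => ((contDiff_apply ℝ ℂ j).comp contDiff_snd).contDiffAt

theorem db (hL : LEV n) (j : Fin n) : h.A1.Db (fun q => q.2 j) (ph B a j) (La B a j) := by
  intro i z hz v
  obtain ⟨-, l2, -, l4⟩ := h.loc hL i hz.1 hz.2 v
  have e1 : ((B.A.e i).symm z).1 = z.1 := (fst_ev B i hz.1).self_of_nhds
  have ht : R ≤ ‖z.1‖ := e1 ▸ hz.2.1.le
  have h0 := h.pos ht
  have hC := B.C_ge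
  have d := ((B.reg i).sm' z hz.1).snd.differentiableAt (by simp)
  have e2 : ∀ x, fderiv ℝ (h.A1.c (fun q => q.2 j) i) z x =
      fderiv ℝ (fun q => ((B.A.e i).symm q).2) z x j := fun x =>
    congrArg (· x) (hasFDerivAt_pi'.1 d.hasFDerivAt j).fderiv
  rw [e2, e2]
  refine (wn_ge B.k h0 (fderiv ℝ (fun q => ((B.A.e i).symm q).2) z v +
    I • fderiv ℝ (fun q => ((B.A.e i).symm q).2) z (I • v)) j).trans ?_
  refine (mul_le_mul_of_nonneg_left ((B.G_cmp _ (h.ex0 ht) _).1.trans (mul_le_mul_of_nonneg_left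
    (l4.trans (mul_le_mul_of_nonneg_left (mul_le_mul_of_nonneg_left (h.lv_ph j i hz.1 hz.2 v)
      (by positivity)) (by positivity))) (by positivity))) (by positivity)).trans_eq ?_
  change _ = La B a j ((B.A.e i).symm z) * Real.exp (ph B a j ((B.A.e i).symm z)) *
    levi2 (B.A.c (ph B a j) i) z v
  rw [La, e1, Real.exp_neg, inv_mul_cancel_right₀ (Real.exp_pos _).ne',
    show 3 * B.e = B.e + 2 * B.e by ring, Real.rpow_add h0]
  ring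

end Hy

end Sol

end Vale.Agent.P253W.Y
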