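import Vale.Agent.P253W.Y.Mod
import Vale.Agent.P253Z.BUS
import Vale.Agent.P272.K.MP.Local

/-!
# P253W, block Y, row SUB: the calculus
-/

open scoped ContDiff ENNReal Topology
open MeasureTheory Set Metric Filter
open Vale.Agent.P253.R2.H451 (levi2)
open Complex (I)

noncomputable section

namespace Vale.Agent.P253W.Y.Sub

section levi
variable {E : Type} [NormedAddCommGroup E] [NormedSpace ℂ E] {f g : E → ℝ} {z v : E}

theorem d2 (hf : ContDiffAt ℝ 2 f z) : HasFDerivAt (fderiv ℝ f) (fderiv ℝ (fderiv ℝ f) z) z :=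
  ((hf.fderiv_right (m := 1) le_rfl).differentiableAt one_ne_zero).hasFDerivAt

theorem levi2_max (hf : ContDiffAt ℝ 2 f z) (h : IsLocalMax f z) (v : E) : levi2 f z v ≤ 0 :=
  add_nonpos (P272.K.MP.fderiv2_nonpos_of_max h hf v) (P272.K.MP.fderiv2_nonpos_of_max h hf _)

theorem levi2_sub (hf : ContDiffAt ℝ 2 f z) (hg : ContDiffAt ℝ 2 g z) (v : E) :
    levi2 (fun y => f y - g y) z v = levi2 f z v - levi2 g z v := by
  have h1 : fderiv ℝ (fun y => f y - g y) =ᶠ[𝓝 z] fun y => fderiv ℝ f y - fderiv ℝ g y := by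
    filter_upwards [hf.eventually (by simp), hg.eventually (by simp)] with y h2 h3
    exact fderiv_fun_sub (h2.differentiableAt two_ne_zero) (h3.differentiableAt two_ne_zero)
  simp only [levi2, h1.fderiv_eq, ((d2 hf).fun_sub (d2 hg)).fderiv, sub_apply]
  ring

theorem levi2_mul (hf : ContDiffAt ℝ 2 f z) (hg : ContDiffAt ℝ 2 g z) (h1 : fderiv ℝ g z v = 0)
    (h2 : fderiv ℝ g z (I • v) = 0) :
    levi2 (fun y => f y * g y) z v = f z * levi2 g z v + g z * levi2 f z v := by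
  have e1 : fderiv ℝ (fun y => f y * g y) =ᶠ[𝓝 z]
      fun y => f y • fderiv ℝ g y + g y • fderiv ℝ f y := by
    filter_upwards [hf.eventually (by simp), hg.eventually (by simp)] with y k2 k3
    exact fderiv_fun_mul (k2.differentiableAt two_ne_zero) (k3.differentiableAt two_ne_zero)
  have e2 := e1.fderiv_eq.trans
    (((hf.differentiableAt two_ne_zero).hasFDerivAt.fun_smul (d2 hg)).fun_add
      ((hg.differentiableAt two_ne_zero).hasFDerivAt.fun_smul (d2 hf))).fderiv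
  simp only [levi2, e2, add_apply, smul_apply, ContinuousLinearMap.smulRight_apply, h1, h2,
    smul_eq_mul, mul_zero, zero_mul, add_zero]
  ring

theorem sm_nsq {F : E → ℂ} (hF : AnalyticAt ℂ F z) : ContDiffAt ℝ 2 (fun y => ‖F y‖ ^ 2) z :=
  ((hF.contDiffAt (n := 2)).restrict_scalars ℝ).norm_sq ℝ

theorem levi2_nsq [CompleteSpace E] {F : E → ℂ} (hF : AnalyticAt ℂ F z) (v : E) :
    0 ≤ levi2 (fun y => ‖F y‖ ^ 2) z v := by
  have h := P253Z.Bu.levi2_comp (q := fun w : ℂ => ‖w‖ ^ 2) (isOpen_analyticAt ℂ F)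
    (fun y hy => (AnalyticAt.contDiffAt hy).contDiffWithinAt) hF (contDiff_norm_sq ℝ).contDiffAt v
  refine le_of_le_of_eq ?_ h.symm
  have h1 : ∀ w k : ℂ, 0 ≤ fderiv ℝ (fderiv ℝ fun w : ℂ => ‖w‖ ^ 2) w k k := fun w k => by
    rw [fderiv_norm_sq, ((innerSL ℝ (E := ℂ)).hasFDerivAt.const_smul 2).fderiv]
    exact nsmul_nonneg (real_inner_self_nonneg (x := k)) 2
  exact add_nonneg (h1 _ _) (h1 _ _)

/-- the viscosity property at one point -/
theorem visc {n : ℕ} {F : P n → ℂ} {E : P n → ℝ} {h : ℂ → ℝ} {z ξ : P n} (hF : AnalyticAt ℂ F z)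
    (hE : ContDiffAt ℝ 2 E z) (hh : ContDiff ℝ 2 h) (e1 : E z ≤ 1) (x1 : ξ.1 = 1)
    (x2 : fderiv ℝ E z ξ = 0) (x3 : fderiv ℝ E z (I • ξ) = 0) (x4 : levi2 E z ξ ≤ 0)
    (hm : IsLocalMax (fun q => ‖F q‖ ^ 2 - ‖F q‖ ^ 2 * E q - h q.1) z) : 0 ≤ levi2 h z.1 1 := by
  have s1 := sm_nsq hF
  have s2 : ContDiffAt ℝ 2 (fun q : P n => h q.1) z := hh.contDiffAt.comp z contDiffAt_fst
  have k1 := levi2_max ((s1.sub (s1.mul hE)).sub s2) hm ξ
  have k2 : levi2 (fun q : P n => h q.1) z ξ = levi2 h z.1 1 := by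
    have := P253Z.Bu.levi2_comp (T := (Prod.fst : P n → ℂ)) (p := z) isOpen_univ contDiffOn_fst
      (mem_univ _) hh.contDiffAt ξ
    rw [fderiv_fst, ContinuousLinearMap.coe_fst', x1] at this
    exact this
  rw [levi2_sub (s1.sub (s1.mul hE)) s2, levi2_sub s1 (s1.mul hE), levi2_mul s1 hE x2 x3, k2] at k1
  nlinarith [mul_nonneg (sub_nonneg.2 e1) (levi2_nsq hF ξ),
    mul_nonneg (sq_nonneg ‖F z‖) (neg_nonneg.2 x4)]

theorem levi2_min {h : ℂ → ℝ} {τ : ℂ} (hh : ContDiff ℝ 2 h) (hm : IsLocalMin h τ) :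
    0 ≤ levi2 h τ 1 :=
  visc (n := 0) (F := fun _ => 0) (E := fun _ => 0) (z := (τ, 0)) (ξ := (1, 0)) analyticAt_const
    contDiffAt_const hh zero_le_one rfl (by simp) (by simp) (by simp [levi2])
    (by simpa using (hm.comp_continuous (g := (Prod.fst : P 0 → ℂ)) (b := (τ, 0))
      continuousAt_fst).neg)

end levi

theorem pw {t K e x y : ℝ} (ht : 1 ≤ t) (hK : K ≤ t ^ e) (h : e + x ≤ y) : K * t ^ x ≤ t ^ y := by
  have h0 : 0 < t := one_pos.trans_le ht
  refine (mul_le_mul_of_nonneg_right hK (by positivity)).trans ?_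
  rw [← Real.rpow_add h0]
  exact Real.rpow_le_rpow_of_exponent_le ht h

theorem cmp {t c s : ℝ} (hc : 0 < c) (h1 : c / 2 ≤ t) (h2 : t ≤ 2 * c) (hs : |s| ≤ 4) :
    t ^ s ≤ 16 * c ^ s := by
  have ht : 0 < t := (half_pos hc).trans_le h1
  have k1 := Real.log_le_log (half_pos hc) h1
  have k2 := Real.log_le_log ht h2
  rw [Real.log_div hc.ne' two_ne_zero] at k1
  rw [Real.log_mul two_ne_zero hc.ne'] at k2
  have k3 : |Real.log t - Real.log c| ≤ Real.log 2 := abs_le.2 ⟨by linarith, by linarith⟩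
  have k4 := (le_abs_self _).trans ((abs_mul _ s).trans_le
    (mul_le_mul k3 hs (abs_nonneg _) ((abs_nonneg _).trans k3)))
  have k5 : (16 : ℝ) = Real.exp (Real.log 2 * 4) := by
    rw [Real.exp_mul, Real.exp_log two_pos]
    norm_num
  rw [Real.rpow_def_of_pos ht, Real.rpow_def_of_pos hc, k5, ← Real.exp_add]
  exact Real.exp_le_exp.2 (by linarith)

end Vale.Agent.P253W.Y.Sub
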